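import Mathlib

open MeasureTheory ProbabilityTheory Set Filter Topology Real

namespace Vale.Agent.P226

noncomputable section

def c0 : ℝ := (√(2 * π))⁻¹

def ph (x : ℝ) : ℝ := c0 * exp (-x ^ 2 / 2)

abbrev gm : Measure ℝ := gaussianReal 0 1

def Ph (x : ℝ) : ℝ := gm.real (Iic x)

def KK (x : ℝ) : ℝ := ph x + x * Ph x

lemma c0_pos : 0 < c0 := by
  unfold c0
  have := pi_pos
  positivity

lemma c0_sq : c0 ^ 2 = 1 / (2 * π) := by
  unfold c0
  have := pi_pos
  rw [inv_pow, sq_sqrt (by positivity), one_div]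

lemma c0_lo : 0.398942 ≤ c0 := by
  have h := c0_sq
  have h1 := pi_lt_d6
  have h2 := pi_pos
  have h3 : (0.398942 : ℝ) ^ 2 ≤ c0 ^ 2 := by
    rw [h, le_div_iff₀ (by positivity)]
    nlinarith
  exact (abs_le_of_sq_le_sq' h3 c0_pos.le).2

lemma c0_hi : c0 ≤ 0.398943 := by
  have h := c0_sq
  have h1 := pi_gt_d6
  have h2 := pi_pos
  have h3 : c0 ^ 2 ≤ (0.398943 : ℝ) ^ 2 := by
    rw [h, div_le_iff₀ (by positivity)]
    nlinarith
  exact (abs_le_of_sq_le_sq' h3 (by norm_num)).2

lemma ph_pos (x : ℝ) : 0 < ph x := mul_pos c0_pos (exp_pos _)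

lemma ph_neg (x : ℝ) : ph (-x) = ph x := by simp [ph]

lemma ph_zero : ph 0 = c0 := by simp [ph]

lemma ph_le (x : ℝ) : ph x ≤ c0 := by
  unfold ph
  have : exp (-x ^ 2 / 2) ≤ 1 := exp_le_one_iff.2 (by nlinarith [sq_nonneg x])
  nlinarith [c0_pos]

lemma ph_eq (x : ℝ) : gaussianPDFReal 0 1 x = ph x := by
  simp [gaussianPDFReal, ph, c0]

lemma hasDerivAt_ph (x : ℝ) : HasDerivAt ph (-x * ph x) x := by
  have h1 : HasDerivAt (fun x : ℝ => -x ^ 2 / 2) (-x) x := by
    have := ((hasDerivAt_pow 2 x).neg).div_const 2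
    exact this.congr_deriv (by push_cast; ring)
  have := (h1.exp).const_mul c0
  exact this.congr_deriv (by unfold ph; ring)

@[fun_prop]
lemma continuous_ph : Continuous ph := by
  unfold ph
  fun_prop

lemma integrable_ph : Integrable ph := by
  have := integrable_gaussianPDFReal 0 1
  convert this using 1
  ext x
  exact (ph_eq x).symm

lemma tendsto_ph_atTop : Tendsto ph atTop (𝓝 0) := by
  have h : Tendsto (fun x : ℝ => -x ^ 2 / 2) atTop atBot := by
    refine Tendsto.atBot_div_const (by norm_num) ?_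
    exact tendsto_neg_atTop_atBot.comp (tendsto_pow_atTop (by norm_num))
  have := (tendsto_exp_atBot.comp h).const_mul c0
  rw [mul_zero] at this
  exact this

lemma tendsto_ph_atBot : Tendsto ph atBot (𝓝 0) := by
  have := tendsto_ph_atTop.comp tendsto_neg_atBot_atTop
  refine this.congr fun x => ?_
  simp [ph_neg]

lemma integral_gm (f : ℝ → ℝ) : ∫ x, f x ∂gm = ∫ x, ph x * f x := by
  rw [integral_gaussianReal_eq_integral_smul (by norm_num)]
  simp [ph_eq]

lemma gm_real (s : Set ℝ) : gm.real s = ∫ x in s, ph x := by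
  rw [measureReal_def, gaussianReal_apply_eq_integral _ (by norm_num), ENNReal.toReal_ofReal]
  · simp [ph_eq]
  · exact integral_nonneg fun x => gaussianPDFReal_nonneg _ _ _

lemma lintegral_gm (f : ℝ → ENNReal) (hf : Measurable f) :
    ∫⁻ x, f x ∂gm = ∫⁻ x, ENNReal.ofReal (ph x) * f x := by
  rw [gm, gaussianReal_of_var_ne_zero _ (by norm_num),
    lintegral_withDensity_eq_lintegral_mul _ (measurable_gaussianPDF _ _) hf]
  simp [gaussianPDF, ph_eq]

instance : NullSingletonClass gm := nullSingletonClass_gaussianReal (by norm_num)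

lemma Ph_sub (a b : ℝ) : Ph b - Ph a = ∫ x in a..b, ph x := by
  unfold Ph
  rw [gm_real, gm_real]
  exact intervalIntegral.integral_Iic_sub_Iic integrable_ph.integrableOn integrable_ph.integrableOn

lemma hasDerivAt_Ph (x : ℝ) : HasDerivAt Ph (ph x) x := by
  have h : Ph = fun b => Ph 0 + ∫ x in (0 : ℝ)..b, ph x := by
    ext b
    rw [← Ph_sub]
    ring
  rw [h]
  exact (intervalIntegral.integral_hasDerivAt_right (continuous_ph.intervalIntegrable _ _)
      (continuous_ph.stronglyMeasurableAtFilter _ _) continuous_ph.continuousAt).const_add _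

@[fun_prop]
lemma continuous_Ph : Continuous Ph :=
  continuous_iff_continuousAt.2 fun x => (hasDerivAt_Ph x).continuousAt

lemma strictMono_Ph : StrictMono Ph :=
  strictMono_of_deriv_pos fun x => by rw [(hasDerivAt_Ph x).deriv]; exact ph_pos x

lemma Ph_eq_cdf : Ph = cdf gm := by
  ext x
  rw [cdf_eq_real]
  rfl

lemma tendsto_Ph_atBot : Tendsto Ph atBot (𝓝 0) := by
  rw [Ph_eq_cdf]; exact tendsto_cdf_atBot _

lemma tendsto_Ph_atTop : Tendsto Ph atTop (𝓝 1) := by
  rw [Ph_eq_cdf]; exact tendsto_cdf_atTop _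

lemma Ph_pos (x : ℝ) : 0 < Ph x :=
  lt_of_le_of_lt (measureReal_nonneg : 0 ≤ Ph (x - 1)) (strictMono_Ph (by linarith))

lemma Ph_neg (x : ℝ) : Ph (-x) = 1 - Ph x := by
  have h : ∀ y, HasDerivAt (fun y => Ph (-y) + Ph y) 0 y := fun y => by
    have h1 := ((hasDerivAt_Ph (-y)).comp y (hasDerivAt_neg y)).add (hasDerivAt_Ph y)
    exact h1.congr_deriv (by rw [ph_neg]; ring)
  have hc : ∀ y, Ph (-y) + Ph y = Ph (-x) + Ph x := fun y =>
    is_const_of_deriv_eq_zero (fun y => (h y).differentiableAt) (fun y => (h y).deriv) y x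
  have ht : Tendsto (fun y => Ph (-y) + Ph y) atTop (𝓝 (0 + 1)) :=
    (tendsto_Ph_atBot.comp tendsto_neg_atTop_atBot).add tendsto_Ph_atTop
  simp only [hc] at ht
  have := tendsto_nhds_unique ht tendsto_const_nhds
  linarith

lemma Ph_lt_one (x : ℝ) : Ph x < 1 := by
  have := Ph_pos (-x)
  rw [Ph_neg] at this
  linarith

lemma Ph_zero : Ph 0 = 1 / 2 := by
  have := Ph_neg 0
  rw [neg_zero] at this
  linarith

lemma exists_Ph_eq {p : ℝ} (h0 : 0 < p) (h1 : p < 1) : ∃ x, Ph x = p := by
  obtain ⟨a, ha⟩ := (tendsto_Ph_atBot.eventually (gt_mem_nhds h0)).exists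
  obtain ⟨b, hb⟩ := (tendsto_Ph_atTop.eventually (lt_mem_nhds h1)).exists
  exact mem_range_of_exists_le_of_exists_ge continuous_Ph ⟨a, ha.le⟩ ⟨b, hb.le⟩

lemma Ph_add_le (b h : ℝ) (hh : 0 ≤ h) : Ph (b + h) ≤ Ph b + h := by
  have h1 := Ph_sub b (b + h)
  have h2 : ∫ x in b..(b + h), ph x ≤ ∫ x in b..(b + h), (1 : ℝ) :=
    intervalIntegral.integral_mono_on (by linarith) (continuous_ph.intervalIntegrable _ _)
      (by simp) fun x _ => by linarith [ph_le x, c0_hi]
  simp at h2
  linarith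

lemma gm_Iic (x : ℝ) : gm (Iic x) = ENNReal.ofReal (Ph x) := by
  rw [Ph, measureReal_def, ENNReal.ofReal_toReal (measure_ne_top _ _)]

lemma gm_Iio (x : ℝ) : gm (Iio x) = ENNReal.ofReal (Ph x) := by
  rw [← gm_Iic, measure_congr Iio_ae_eq_Iic]

lemma gm_real_Ioi (x : ℝ) : gm.real (Ioi x) = Ph (-x) := by
  rw [Ph_neg, ← compl_Iic, probReal_compl_eq_one_sub measurableSet_Iic]
  rfl

lemma gm_real_Icc {l r : ℝ} (h : l ≤ r) : gm.real (Icc l r) = Ph r - Ph l := by
  rw [Ph_sub, gm_real, intervalIntegral.integral_of_le h, integral_Icc_eq_integral_Ioc]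

lemma integrable_id_gm : Integrable (fun x : ℝ => x) gm :=
  (IsGaussian.integrable_id (μ := gm))

lemma integrable_mul_ph : Integrable (fun x : ℝ => ph x * x) := by
  have h := integrable_id_gm
  rw [gm, gaussianReal_of_var_ne_zero _ (by norm_num),
    integrable_withDensity_iff_integrable_smul' (measurable_gaussianPDF _ _)
      (ae_of_all _ fun x => gaussianPDF_lt_top)] at h
  simpa [ph_eq] using h

lemma integral_pos_part (x : ℝ) : ∫ g, max (g + x) 0 ∂gm = KK x := by
  rw [integral_gm]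
  have h1 : ∫ g, ph g * max (g + x) 0 = ∫ g in Ioi (-x), (ph g * g + x * ph g) := by
    rw [← integral_indicator measurableSet_Ioi]
    congr 1
    ext g
    by_cases hg : g ∈ Ioi (-x)
    · rw [indicator_of_mem hg, max_eq_left (by simp at hg; linarith)]
      ring
    · rw [indicator_of_notMem hg, max_eq_right (by simp at hg; linarith), mul_zero]
  have h2 : ∫ g in Ioi (-x), ph g * g = 0 - (-ph (-x)) := by
    refine integral_Ioi_of_hasDerivAt_of_tendsto' (f := fun g => -ph g) (fun g _ => ?_)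
      integrable_mul_ph.integrableOn (by simpa using tendsto_ph_atTop.neg)
    exact (hasDerivAt_ph g).neg.congr_deriv (by ring)
  rw [h1, integral_add integrable_mul_ph.integrableOn
    (integrable_ph.const_mul x).integrableOn, h2, integral_const_mul, ← gm_real, gm_real_Ioi,
    ph_neg, neg_neg, KK]
  ring

lemma hasDerivAt_KK (x : ℝ) : HasDerivAt KK (Ph x) x := by
  have := (hasDerivAt_ph x).add ((hasDerivAt_id x).mul (hasDerivAt_Ph x))
  exact this.congr_deriv (by simp)

@[fun_prop]
lemma continuous_KK : Continuous KK :=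
  continuous_iff_continuousAt.2 fun x => (hasDerivAt_KK x).continuousAt

lemma KK_pos (x : ℝ) : 0 < KK x := by
  have h1 : StrictMono KK :=
    strictMono_of_deriv_pos fun x => by rw [(hasDerivAt_KK x).deriv]; exact Ph_pos x
  have h2 : 0 ≤ KK (x - 1) := by
    rw [← integral_pos_part]
    exact integral_nonneg fun g => le_max_right _ _
  exact lt_of_le_of_lt h2 (h1 (by linarith))

lemma tendsto_KK_atBot : Tendsto KK atBot (𝓝 0) := by
  refine tendsto_of_tendsto_of_tendsto_of_le_of_le' tendsto_const_nhds tendsto_ph_atBot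
    (Eventually.of_forall fun x => (KK_pos x).le) ?_
  filter_upwards [eventually_le_atBot 0] with x hx
  unfold KK
  nlinarith [Ph_pos x]

lemma KK_zero : KK 0 = c0 := by simp [KK, ph_zero]

lemma integral_abs_gm : ∫ g, |g| ∂gm = 2 * c0 := by
  have h1 := integral_pos_part 0
  have h2 : ∀ g : ℝ, |g| = 2 * max (g + 0) 0 - g := fun g => by
    rcases le_total 0 g with h | h
    · rw [abs_of_nonneg h, max_eq_left (by linarith)]; ring
    · rw [abs_of_nonpos h, max_eq_right (by linarith)]; ring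
  simp_rw [h2]
  rw [integral_sub, integral_const_mul, h1, KK_zero]
  · simp
  · refine Integrable.const_mul ?_ _
    simpa using integrable_id_gm.pos_part
  · exact integrable_id_gm

lemma pos_of_strictMono_atBot {f : ℝ → ℝ} (hf : StrictMono f) (h0 : Tendsto f atBot (𝓝 0))
    (x : ℝ) : 0 < f x :=
  lt_of_le_of_lt (hf.monotone.le_of_tendsto h0 (x - 1)) (hf (by linarith))

lemma mills (x : ℝ) : 0 < (1 + x ^ 2) * Ph x + x * ph x := by
  have hd : ∀ y : ℝ, HasDerivAt (fun y => Ph y + y / (1 + y ^ 2) * ph y)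
      (2 * ph y / (1 + y ^ 2) ^ 2) y := fun y => by
    have hy : (1 + y ^ 2) ≠ 0 := by positivity
    have h1 : HasDerivAt (fun y : ℝ => 1 + y ^ 2) (2 * y) y :=
      ((hasDerivAt_pow 2 y).const_add 1).congr_deriv (by push_cast; ring)
    have := (hasDerivAt_Ph y).add (((hasDerivAt_id y).div h1 hy).mul (hasDerivAt_ph y))
    refine this.congr_deriv ?_
    simp only [id, Pi.div_apply]
    field_simp
    ring
  have hm : StrictMono (fun y => Ph y + y / (1 + y ^ 2) * ph y) :=
    strictMono_of_deriv_pos fun y => by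
      rw [(hd y).deriv]
      have := ph_pos y
      positivity
  have ht : Tendsto (fun y => Ph y + y / (1 + y ^ 2) * ph y) atBot (𝓝 0) := by
    have h2 : Tendsto (fun y => y / (1 + y ^ 2) * ph y) atBot (𝓝 0) := by
      refine squeeze_zero_norm (fun y => ?_) tendsto_ph_atBot
      have hy : 0 < (1 + y ^ 2) := by positivity
      rw [norm_mul, Real.norm_eq_abs, Real.norm_eq_abs, abs_of_pos (ph_pos y)]
      refine mul_le_of_le_one_left (ph_pos y).le ?_
      rw [abs_div, abs_of_pos hy, div_le_one hy]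
      nlinarith [sq_nonneg (|y| - 1), sq_abs y]
    simpa using tendsto_Ph_atBot.add h2
  have h := pos_of_strictMono_atBot hm ht x
  have hy : 0 < (1 + x ^ 2) := by positivity
  have : (1 + x ^ 2) * Ph x + x * ph x = (1 + x ^ 2) * (Ph x + x / (1 + x ^ 2) * ph x) := by
    field_simp
  rw [this]
  positivity

lemma J_le_sq (x : ℝ) : ph x * KK x ≤ Ph x ^ 2 := by
  have hd : ∀ y : ℝ, HasDerivAt (fun y => Ph y ^ 2 - ph y * KK y)
      (ph y * ((1 + y ^ 2) * Ph y + y * ph y)) y := fun y => by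
    have := ((hasDerivAt_Ph y).pow 2).sub ((hasDerivAt_ph y).mul (hasDerivAt_KK y))
    refine this.congr_deriv ?_
    unfold KK
    push_cast
    ring
  have hm : StrictMono (fun y => Ph y ^ 2 - ph y * KK y) :=
    strictMono_of_deriv_pos fun y => by
      rw [(hd y).deriv]
      exact mul_pos (ph_pos y) (mills y)
  have ht : Tendsto (fun y => Ph y ^ 2 - ph y * KK y) atBot (𝓝 0) := by
    simpa using (tendsto_Ph_atBot.pow 2).sub (tendsto_ph_atBot.mul tendsto_KK_atBot)
  have := pos_of_strictMono_atBot hm ht x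
  linarith

end

end Vale.Agent.P226
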