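import Vale.Agent.P226.Ehr1

open MeasureTheory ProbabilityTheory Set Filter Topology Real

namespace Vale.Agent.P226

noncomputable section

def EhrP (E : Type) [AddCommGroup E] [Module ℝ E] [MeasurableSpace E] (μ : Measure E) : Prop :=
  ∀ (W : Type) [AddCommGroup W] [Module ℝ W] (C : Set (W × E)), Convex ℝ C →
    (∀ s, MeasurableSet (Prod.mk s ⁻¹' C)) → ∀ (s0 s1 : W) (a b : ℝ), 0 ≤ a → 0 ≤ b → a + b = 1 →
    ∀ x0 x1 : ℝ, ENNReal.ofReal (Ph x0) < μ (Prod.mk s0 ⁻¹' C) →
      ENNReal.ofReal (Ph x1) < μ (Prod.mk s1 ⁻¹' C) →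
      ENNReal.ofReal (Ph (a * x0 + b * x1)) < μ (Prod.mk (a • s0 + b • s1) ⁻¹' C)

variable {W : Type} [AddCommGroup W] [Module ℝ W]

lemma convex_slice {E : Type} [AddCommGroup E] [Module ℝ E] {C : Set (W × E)} (hC : Convex ℝ C)
    (s : W) : Convex ℝ (Prod.mk s ⁻¹' C) := by
  intro x hx y hy a b ha hb hab
  have := hC hx hy ha hb hab
  simp only [Prod.smul_mk, Prod.mk_add_mk] at this
  rw [← add_smul, hab, one_smul] at this
  exact this

lemma ehrP_real : EhrP ℝ gm := by
  intro W _ _ C hC _ s0 s1 a b ha hb hab x0 x1 h0 h1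
  refine ehr1 (convex_slice hC s0) (convex_slice hC s1) (convex_slice hC _) ha hb hab ?_ h0 h1
  intro x hx y hy
  exact hC hx hy ha hb hab

lemma gm_lt {m : ENNReal} (hm : m ≤ 1) : gm {a | ENNReal.ofReal (Ph a) < m} = m := by
  rcases eq_or_ne m 0 with rfl | h0
  · simp
  rcases hm.eq_or_lt with rfl | h1
  · have : {a | ENNReal.ofReal (Ph a) < 1} = univ := by
      ext a
      simp [Ph_lt_one a]
    rw [this, measure_univ]
  have hm' : m ≠ ⊤ := ne_top_of_lt h1
  obtain ⟨x, hx⟩ := exists_Ph_eq (p := m.toReal) (ENNReal.toReal_pos h0 hm')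
    (by simpa using (ENNReal.toReal_lt_toReal hm' ENNReal.one_ne_top).2 h1)
  have : {a | ENNReal.ofReal (Ph a) < m} = Iio x := by
    ext a
    simp only [mem_ofPred_eq, mem_Iio]
    rw [ENNReal.ofReal_lt_iff_lt_toReal (Ph_pos a).le hm', ← hx, strictMono_Ph.lt_iff_lt]
  rw [this, gm_Iio, hx, ENNReal.ofReal_toReal hm']

section sym

variable {E : Type} [AddCommGroup E] [Module ℝ E] [MeasurableSpace E]

def sym (μ : Measure E) (C : Set (W × (E × ℝ))) : Set (W × (ℝ × ℝ)) :=
  {q | ENNReal.ofReal (Ph q.2.1) < μ {x | (q.1, (x, q.2.2)) ∈ C}}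

lemma sym_convex {μ : Measure E} (h : EhrP E μ) {C : Set (W × (E × ℝ))} (hC : Convex ℝ C)
    (hm : ∀ s, MeasurableSet (Prod.mk s ⁻¹' C)) : Convex ℝ (sym μ C) := by
  intro p hp q hq a b ha hb hab
  have hc : Convex ℝ {r : (W × ℝ) × E | (r.1.1, (r.2, r.1.2)) ∈ C} := by
    intro r hr t ht a b ha hb hab
    exact hC hr ht ha hb hab
  exact h (W × ℝ) _ hc (fun s => (hm s.1).preimage (measurable_prodMk_right (y := s.2)))
    (p.1, p.2.2) (q.1, q.2.2) a b ha hb hab p.2.1 q.2.1 hp hq

omit [AddCommGroup W] [Module ℝ W] [AddCommGroup E] [Module ℝ E] in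
lemma sym_meas {μ : Measure E} [IsProbabilityMeasure μ] {C : Set (W × (E × ℝ))}
    (hm : ∀ s, MeasurableSet (Prod.mk s ⁻¹' C)) (s : W) :
    MeasurableSet (Prod.mk s ⁻¹' sym μ C) := by
  have h1 := measurable_measure_prodMk_right (μ := μ) (hm s)
  exact measurableSet_lt ((continuous_Ph.measurable.comp measurable_fst).ennreal_ofReal)
    (h1.comp measurable_snd)

omit [AddCommGroup W] [Module ℝ W] [AddCommGroup E] [Module ℝ E] in
lemma sym_measure {μ : Measure E} [IsProbabilityMeasure μ] {C : Set (W × (E × ℝ))}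
    (hm : ∀ s, MeasurableSet (Prod.mk s ⁻¹' C)) (s : W) :
    (gm.prod gm) (Prod.mk s ⁻¹' sym μ C) = (μ.prod gm) (Prod.mk s ⁻¹' C) := by
  rw [Measure.prod_apply_symm (sym_meas hm s), Measure.prod_apply_symm (hm s)]
  refine lintegral_congr fun y => ?_
  exact gm_lt (m := μ {x | (s, (x, y)) ∈ C}) prob_le_one

end sym

section pull

variable {E F : Type} [AddCommGroup E] [Module ℝ E] [MeasurableSpace E]
  [AddCommGroup F] [Module ℝ F] [MeasurableSpace F]

def pull (T : E →ₗ[ℝ] F) (C : Set (W × F)) : Set (W × E) := {q | (q.1, T q.2) ∈ C}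

omit [MeasurableSpace E] [MeasurableSpace F] in
lemma pull_convex (T : E →ₗ[ℝ] F) {C : Set (W × F)} (hC : Convex ℝ C) : Convex ℝ (pull T C) := by
  intro p hp q hq a b ha hb hab
  have := hC hp hq ha hb hab
  simpa [pull] using this

omit [AddCommGroup W] [Module ℝ W] in
lemma pull_meas {μ : Measure E} {ν : Measure F} {T : E →ₗ[ℝ] F} (hT : MeasurePreserving T μ ν)
    {C : Set (W × F)} (hm : ∀ s, MeasurableSet (Prod.mk s ⁻¹' C)) (s : W) :
    MeasurableSet (Prod.mk s ⁻¹' pull T C) :=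
  (hm s).preimage hT.measurable

omit [AddCommGroup W] [Module ℝ W] in
lemma pull_measure {μ : Measure E} {ν : Measure F} {T : E →ₗ[ℝ] F} (hT : MeasurePreserving T μ ν)
    {C : Set (W × F)} (hm : ∀ s, MeasurableSet (Prod.mk s ⁻¹' C)) (s : W) :
    μ (Prod.mk s ⁻¹' pull T C) = ν (Prod.mk s ⁻¹' C) :=
  hT.measure_preimage (hm s).nullMeasurableSet

lemma EhrP.transfer {μ : Measure E} {ν : Measure F} (h : EhrP E μ) (T : E →ₗ[ℝ] F)
    (hT : MeasurePreserving T μ ν) : EhrP F ν := by
  intro W _ _ C hC hm s0 s1 a b ha hb hab x0 x1 h0 h1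
  rw [← pull_measure hT hm] at h0 h1 ⊢
  exact h W _ (pull_convex T hC) (pull_meas hT hm) s0 s1 a b ha hb hab x0 x1 h0 h1

end pull

lemma exists_rot (τ : ℝ) : ∃ (c : ℝ) (T : ℝ × ℝ →ₗ[ℝ] ℝ × ℝ), 0 < c ∧
    MeasurePreserving T (gm.prod gm) (gm.prod gm) ∧
    ∀ z, T z = (c * (z.1 + τ * z.2), c * (-τ * z.1 + z.2)) := by
  refine ⟨cos (arctan τ), (ContinuousLinearMap.rotation (arctan τ) : ℝ × ℝ →L[ℝ] ℝ × ℝ),
    cos_arctan_pos τ, ⟨(ContinuousLinearMap.rotation (arctan τ) :
      ℝ × ℝ →L[ℝ] ℝ × ℝ).continuous.measurable, ?_⟩, fun z => ?_⟩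
  · exact IsGaussian.map_rotation_eq_self (μ := gm) (by simp) _
  · have h : sin (arctan τ) = τ * cos (arctan τ) := by
      have := tan_arctan τ
      rw [tan_eq_sin_div_cos, div_eq_iff (cos_arctan_pos τ).ne'] at this
      exact this
    simp only [ContinuousLinearMap.coe_coe, ContinuousLinearMap.rotation_apply, smul_eq_mul, h]
    ext <;> simp <;> ring

structure Good (m : W → ENNReal) (L : ℝ) (C : Set (W × (ℝ × ℝ))) : Prop where
  cvx : Convex ℝ C
  meas : ∀ s, MeasurableSet (Prod.mk s ⁻¹' C)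
  val : ∀ s, (gm.prod gm) (Prod.mk s ⁻¹' C) = m s
  inv : ∀ s x y x' y', (s, (x, y)) ∈ C → y' ≤ y - L * |x' - x| → (s, (x', y')) ∈ C

lemma Good.step {m : W → ENNReal} {L : ℝ} (hL : 0 < L) {C : Set (W × (ℝ × ℝ))}
    (h : Good m L C) : ∃ C', Good m (L / 2) C' := by
  obtain ⟨c, T, hc, hT, hT'⟩ := exists_rot (L / 2)
  refine ⟨pull T (sym gm C), pull_convex T (sym_convex ehrP_real h.cvx h.meas),
    pull_meas hT (sym_meas h.meas), fun s => ?_, ?_⟩
  · rw [pull_measure hT (sym_meas h.meas), sym_measure h.meas, h.val]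
  have key : ∀ s a y a' y', (s, (a, y)) ∈ sym gm C → y' ≤ y → L * (a' - a) + (y' - y) ≤ 0 →
      (s, (a', y')) ∈ sym gm C := by
    intro s a y a' y' hs hy ha
    have hcv : ∀ y, Convex ℝ {x : ℝ | (s, (x, y)) ∈ C} := fun y => by
      intro x hx x' hx' p q hp hq hpq
      have := h.cvx hx hx' hp hq hpq
      simp only [Prod.smul_mk, Prod.mk_add_mk, smul_eq_mul] at this
      rw [← add_smul, ← add_mul, hpq, one_smul, one_mul] at this
      exact this
    have hh : 0 ≤ (y - y') / L := div_nonneg (by linarith) hL.le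
    have e : L * ((y - y') / L) = y - y' := by field_simp
    have := enlarge1 (hcv y) (hcv y') hh (fun x hx => ⟨h.inv s x y _ _ hx ?_,
      h.inv s x y _ _ hx ?_⟩) hs
    · refine lt_of_le_of_lt (ENNReal.ofReal_le_ofReal (strictMono_Ph.monotone ?_)) this
      have : a' - a ≤ (y - y') / L := by
        rw [le_div_iff₀ hL]
        linarith
      simp only
      linarith
    · rw [show x - (y - y') / L - x = -((y - y') / L) by ring, abs_neg, abs_of_nonneg hh, e]
      linarith
    · rw [show x + (y - y') / L - x = (y - y') / L by ring, abs_of_nonneg hh, e]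
      linarith
  intro s x y x' y' hs hy
  simp only [pull, mem_ofPred_eq, hT'] at hs ⊢
  have h1 := le_abs_self (x' - x)
  have h2 := neg_abs_le (x' - x)
  have h3 := abs_nonneg (x' - x)
  have h4 : y' - y ≤ 0 := by nlinarith
  refine key s _ _ _ _ hs ?_ ?_
  · refine mul_le_mul_of_nonneg_left ?_ hc.le
    nlinarith
  · have : L / 2 * (x' - x) + (1 + L ^ 2 / 2) * (y' - y) ≤ 0 := by nlinarith
    nlinarith

lemma exists_good {C : Set (W × (ℝ × ℝ))} (hC : Convex ℝ C)
    (hm : ∀ s, MeasurableSet (Prod.mk s ⁻¹' C)) :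
    ∃ C', Good (fun s => (gm.prod gm) (Prod.mk s ⁻¹' C)) 1 C' := by
  obtain ⟨c, T, hc, hT, hT'⟩ := exists_rot 1
  have hS : MeasurePreserving (LinearEquiv.prodComm ℝ ℝ ℝ).toLinearMap (gm.prod gm) (gm.prod gm) :=
    Measure.measurePreserving_swap
  have c1 := pull_convex (LinearEquiv.prodComm ℝ ℝ ℝ).toLinearMap (sym_convex ehrP_real hC hm)
  have m1 := pull_meas hS (sym_meas (μ := gm) hm)
  refine ⟨pull T (sym gm (pull (LinearEquiv.prodComm ℝ ℝ ℝ).toLinearMap (sym gm C))),
    pull_convex T (sym_convex ehrP_real c1 m1), pull_meas hT (sym_meas m1), fun s => ?_, ?_⟩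
  · rw [pull_measure hT (sym_meas m1), sym_measure m1, pull_measure hS (sym_meas hm),
      sym_measure hm]
  intro s x y x' y' hs hy
  simp only [pull, sym, mem_ofPred_eq, hT'] at hs ⊢
  have h1 := le_abs_self (x' - x)
  have h2 := neg_abs_le (x' - x)
  refine lt_of_le_of_lt (ENNReal.ofReal_le_ofReal (strictMono_Ph.monotone ?_))
    (hs.trans_le (measure_mono fun z hz => ?_))
  · refine mul_le_mul_of_nonneg_left ?_ hc.le
    linarith
  · refine lt_of_le_of_lt (ENNReal.ofReal_le_ofReal (strictMono_Ph.monotone ?_)) hz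
    refine mul_le_mul_of_nonneg_left ?_ hc.le
    linarith

lemma integrable_Ph_comp {f : ℝ → ℝ} (hf : Continuous f) : Integrable (fun x => Ph (f x)) gm :=
  Integrable.of_bound (continuous_Ph.comp hf).aestronglyMeasurable 1
    (ae_of_all _ fun x => by
      rw [Real.norm_eq_abs, abs_of_pos (Ph_pos _)]
      exact (Ph_lt_one _).le)

lemma Good.upper {m : W → ENNReal} {L : ℝ} (hL : 0 < L) {C : Set (W × (ℝ × ℝ))}
    (h : Good m L C) {s : W} {b : ℝ} (hb : (s, ((0 : ℝ), b)) ∉ C) :
    m s ≤ ENNReal.ofReal (Ph b + L) := by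
  rw [← h.val, Measure.prod_apply (h.meas s)]
  have hi := integrable_id_gm.abs
  calc _ ≤ ∫⁻ x, ENNReal.ofReal (Ph b + L * |x|) ∂gm := by
        refine lintegral_mono fun x => ?_
        calc _ ≤ gm (Iio (b + L * |x|)) := by
              refine measure_mono fun y hy => ?_
              by_contra hc
              simp only [mem_Iio, not_lt] at hc
              exact hb (h.inv s x y 0 b hy (by rw [zero_sub, abs_neg]; linarith))
          _ ≤ _ := by
              rw [gm_Iio]
              exact ENNReal.ofReal_le_ofReal (Ph_add_le _ _ (by positivity))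
    _ = ENNReal.ofReal (∫ x, (Ph b + L * |x|) ∂gm) := by
        exact (ofReal_integral_eq_lintegral_ofReal ((integrable_const (Ph b)).add (hi.const_mul L))
          (ae_of_all _ fun x => add_nonneg (Ph_pos b).le (by positivity))).symm
    _ ≤ _ := by
        refine ENNReal.ofReal_le_ofReal ?_
        rw [integral_add (integrable_const _) (hi.const_mul L), integral_const_mul,
          integral_abs_gm]
        simp only [integral_const, probReal_univ, smul_eq_mul, one_mul]
        nlinarith [c0_hi]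

lemma Good.lower {m : W → ENNReal} {L : ℝ} (hL : 0 < L) {C : Set (W × (ℝ × ℝ))}
    (h : Good m L C) {s : W} {b : ℝ} (hb : (s, ((0 : ℝ), b)) ∈ C) :
    ENNReal.ofReal (Ph b - L) ≤ m s := by
  rw [← h.val, Measure.prod_apply (h.meas s)]
  have hi := integrable_id_gm.abs
  have hj : Integrable (fun x => Ph (b - L * |x|)) gm := integrable_Ph_comp (by fun_prop)
  calc _ ≤ ENNReal.ofReal (∫ x, Ph (b - L * |x|) ∂gm) := by
        refine ENNReal.ofReal_le_ofReal ?_
        calc _ ≤ ∫ x, (Ph b - L * |x|) ∂gm := by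
              rw [integral_sub (integrable_const _) (hi.const_mul L), integral_const_mul,
                integral_abs_gm]
              simp only [integral_const, probReal_univ, smul_eq_mul, one_mul]
              nlinarith [c0_hi]
          _ ≤ _ := by
              refine integral_mono ((integrable_const _).sub (hi.const_mul L)) hj fun x => ?_
              have := Ph_add_le (b - L * |x|) (L * |x|) (by positivity)
              rw [sub_add_cancel] at this
              simp only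
              linarith
    _ = ∫⁻ x, ENNReal.ofReal (Ph (b - L * |x|)) ∂gm :=
        ofReal_integral_eq_lintegral_ofReal hj (ae_of_all _ fun x => (Ph_pos _).le)
    _ ≤ _ := by
        refine lintegral_mono fun x => ?_
        rw [← gm_Iic]
        refine measure_mono fun y hy => ?_
        exact h.inv s 0 b x y hb (by rw [sub_zero]; exact hy)

lemma slack_ennreal {a : ℝ} {m : ENNReal} (h : ENNReal.ofReal (Ph a) < m) (hm : m ≠ ⊤) :
    ∃ η > 0, ∃ δ > 0, ENNReal.ofReal (Ph (a + η) + δ) < m := by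
  rw [ENNReal.ofReal_lt_iff_lt_toReal (Ph_pos a).le hm] at h
  obtain ⟨η, hη, h1⟩ := exists_slack h
  refine ⟨η, hη, (m.toReal - Ph (a + η)) / 2, by linarith, ?_⟩
  rw [ENNReal.ofReal_lt_iff_lt_toReal (by linarith [Ph_pos (a + η)]) hm]
  linarith

lemma ehrP_plane : EhrP (ℝ × ℝ) (gm.prod gm) := by
  intro W _ _ C hC hm s0 s1 a b ha hb hab x0 x1 h0 h1
  have hall : ∀ n : ℕ, ∃ C', Good (fun s => (gm.prod gm) (Prod.mk s ⁻¹' C)) ((1 / 2) ^ n) C' := by
    intro n
    induction n with
    | zero => simpa using exists_good hC hm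
    | succ n ih =>
      obtain ⟨C', h⟩ := ih
      obtain ⟨C'', h'⟩ := h.step (by positivity)
      exact ⟨C'', by rw [pow_succ, mul_one_div]; exact h'⟩
  obtain ⟨η0, hη0, δ0, hδ0, e0⟩ := slack_ennreal h0 (measure_ne_top _ _)
  obtain ⟨η1, hη1, δ1, hδ1, e1⟩ := slack_ennreal h1 (measure_ne_top _ _)
  have hlt : a * x0 + b * x1 < a * (x0 + η0) + b * (x1 + η1) := by
    rcases ha.eq_or_lt with rfl | ha
    · have : b = 1 := by linarith
      rw [this]
      linarith
    · nlinarith [mul_pos ha hη0, mul_nonneg hb hη1.le]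
  have hP := strictMono_Ph hlt
  obtain ⟨n, hn⟩ := exists_pow_lt_of_lt_one (x := min (min δ0 δ1)
    (Ph (a * (x0 + η0) + b * (x1 + η1)) - Ph (a * x0 + b * x1))) (y := (1 / 2 : ℝ))
    (lt_min (lt_min hδ0 hδ1) (by linarith)) (by norm_num)
  simp only [lt_min_iff] at hn
  obtain ⟨C', h⟩ := hall n
  have hL : (0 : ℝ) < (1 / 2) ^ n := by positivity
  have i0 : (s0, ((0 : ℝ), x0 + η0)) ∈ C' := by
    by_contra hc
    have := (e0.trans_le (h.upper hL hc))
    rw [ENNReal.ofReal_lt_ofReal_iff (by linarith [Ph_pos (x0 + η0)])] at this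
    linarith [hn.1.1]
  have i1 : (s1, ((0 : ℝ), x1 + η1)) ∈ C' := by
    by_contra hc
    have := (e1.trans_le (h.upper hL hc))
    rw [ENNReal.ofReal_lt_ofReal_iff (by linarith [Ph_pos (x1 + η1)])] at this
    linarith [hn.1.2]
  have i2 := h.cvx i0 i1 ha hb hab
  simp only [Prod.smul_mk, Prod.mk_add_mk, smul_eq_mul, mul_zero, add_zero] at i2
  refine lt_of_lt_of_le ?_ (h.lower hL i2)
  rw [ENNReal.ofReal_lt_ofReal_iff (by linarith [hn.2, Ph_pos (a * x0 + b * x1)])]
  linarith [hn.2]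

lemma EhrP.prod {E : Type} [AddCommGroup E] [Module ℝ E] [MeasurableSpace E] {μ : Measure E}
    [IsProbabilityMeasure μ] (h : EhrP E μ) : EhrP (E × ℝ) (μ.prod gm) := by
  intro W _ _ C hC hm s0 s1 a b ha hb hab x0 x1 h0 h1
  rw [← sym_measure hm] at h0 h1 ⊢
  exact ehrP_plane W _ (sym_convex h hC hm) (sym_meas hm) s0 s1 a b ha hb hab x0 x1 h0 h1

def consL (n : ℕ) : (Fin n → ℝ) × ℝ →ₗ[ℝ] (Fin (n + 1) → ℝ) where
  toFun q := Fin.cons q.2 q.1
  map_add' p q := by
    ext i
    refine Fin.cases ?_ (fun i => ?_) i <;> simp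
  map_smul' c p := by
    ext i
    refine Fin.cases ?_ (fun i => ?_) i <;> simp

lemma ehrP_pi (n : ℕ) : EhrP (Fin n → ℝ) (Measure.pi fun _ => gm) := by
  induction n with
  | zero =>
    intro W _ _ C hC hm s0 s1 a b ha hb hab x0 x1 h0 h1
    have hne : ∀ (s : W) (x : ℝ), ENNReal.ofReal (Ph x) < (Measure.pi fun _ : Fin 0 => gm)
        (Prod.mk s ⁻¹' C) → (s, (0 : Fin 0 → ℝ)) ∈ C := fun s x hx => by
      obtain ⟨y, hy⟩ := nonempty_of_measure_ne_zero (ne_of_gt (lt_of_le_of_lt bot_le hx))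
      rwa [Subsingleton.elim y 0] at hy
    have := hC (hne _ _ h0) (hne _ _ h1) ha hb hab
    have hu : Prod.mk (a • s0 + b • s1) ⁻¹' C = univ := by
      ext y
      simp only [mem_preimage, mem_univ, iff_true]
      rw [Subsingleton.elim y (a • 0 + b • 0)]
      exact this
    rw [hu, measure_univ]
    simp [Ph_lt_one]
  | succ n ih =>
    refine ih.prod.transfer (consL n) ?_
    have h1 := (measurePreserving_piFinSuccAbove (fun _ : Fin (n + 1) => gm) 0).symm
    have h2 := h1.comp (Measure.measurePreserving_swap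
      (μ := Measure.pi fun _ : Fin n => gm) (ν := gm))
    convert h2 using 1
    ext q i
    simp [consL, MeasurableEquiv.piFinSuccAbove, Fin.insertNthEquiv]

lemma ehrP_std (E : Type) [NormedAddCommGroup E] [InnerProductSpace ℝ E] [FiniteDimensional ℝ E]
    [MeasurableSpace E] [BorelSpace E] : EhrP E (stdGaussian E) := by
  refine (ehrP_pi (Module.finrank ℝ E)).transfer
    (Fintype.linearCombination ℝ (stdOrthonormalBasis ℝ E)) ⟨?_, ?_⟩
  · exact (LinearMap.continuous_of_finiteDimensional _).measurable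
  · rfl

end

end Vale.Agent.P226
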