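import Vale.Agent.P226.Mu
import Vale.Agent.P226.Ehr2

open MeasureTheory ProbabilityTheory Set Filter Topology Real
open scoped RealInnerProductSpace

namespace Vale.Agent.P226

noncomputable section

variable {E : Type} [NormedAddCommGroup E] [InnerProductSpace ℝ E] {ι : Type}

lemma exists_w [Fintype ι] [DecidableEq ι] {z : ι → E} (hsum : ∑ i, z i = 0)
    (hneg : ∀ i j, i ≠ j → ⟪z i, z j⟫ < 0) (j : ι) :
    ∃ w : E, ∀ l, ⟪z l, w⟫ = (if l = j then 1 else 0) - 1 / (Fintype.card ι : ℝ) := by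
  have : Nonempty ι := ⟨j⟩
  have hk : (0 : ℝ) < Fintype.card ι := by exact_mod_cast Fintype.card_pos
  let L : (ι → ℝ) →ₗ[ℝ] (ι → ℝ) :=
    { toFun := fun y l => ⟪z l, ∑ i, y i • z i⟫ + ∑ i, y i
      map_add' := fun y y' => by
        ext l
        simp only [Pi.add_apply, add_smul, Finset.sum_add_distrib, inner_add_right]
        ring
      map_smul' := fun c y => by
        ext l
        simp only [Pi.smul_apply, smul_eq_mul, mul_smul, ← Finset.smul_sum, real_inner_smul_right,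
          ← Finset.mul_sum, RingHom.id_apply]
        ring }
  have hL : ∀ y, ∑ l, L y l = Fintype.card ι * ∑ i, y i := fun y => by
    change ∑ l, (⟪z l, ∑ i, y i • z i⟫ + ∑ i, y i) = _
    rw [Finset.sum_add_distrib, ← sum_inner, hsum, inner_zero_left]
    simp
  have hinj : Function.Injective L := by
    rw [← LinearMap.ker_eq_bot, LinearMap.ker_eq_bot']
    intro y hy
    have h0 : ∑ i, y i = 0 := by
      have := hL y
      rw [hy] at this
      simp only [Pi.zero_apply, Finset.sum_const_zero] at this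
      exact (mul_eq_zero.1 this.symm).resolve_left hk.ne'
    obtain ⟨l, -, hl⟩ := Finset.exists_max_image Finset.univ y Finset.univ_nonempty
    have h1 : ⟪z l, ∑ i, y i • z i⟫ + ∑ i, y i = 0 := congrFun hy l
    have h2 : ∑ i, (y i - y l) * ⟪z l, z i⟫ = 0 := by
      rw [h0, add_zero, inner_sum] at h1
      simp only [real_inner_smul_right] at h1
      simp only [sub_mul, Finset.sum_sub_distrib, h1, ← Finset.mul_sum, ← inner_sum, hsum]
      simp
    have h3 : ∀ i ∈ Finset.univ, 0 ≤ (y i - y l) * ⟪z l, z i⟫ := fun i hi => by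
      rcases eq_or_ne l i with rfl | h
      · simp
      · exact mul_nonneg_of_nonpos_of_nonpos (by linarith [hl i hi]) (hneg _ _ h).le
    have h4 : ∀ i, y i = y l := fun i => by
      rcases eq_or_ne l i with rfl | h
      · rfl
      · have := (Finset.sum_eq_zero_iff_of_nonneg h3).1 h2 i (Finset.mem_univ i)
        have := (mul_eq_zero.1 this).resolve_right (hneg _ _ h).ne
        linarith
    have h5 : y l = 0 := by
      rw [Finset.sum_congr rfl fun i _ => h4 i] at h0
      simp only [Finset.sum_const, Finset.card_univ, nsmul_eq_mul] at h0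
      exact (mul_eq_zero.1 h0).resolve_left hk.ne'
    ext i
    rw [h4 i, h5, Pi.zero_apply]
  obtain ⟨y, hy⟩ := LinearMap.injective_iff_surjective.1 hinj fun l => if l = j then 1 else 0
  refine ⟨∑ i, y i • z i, fun l => ?_⟩
  have h0 := hL y
  rw [hy] at h0
  simp only [Finset.sum_ite_eq', Finset.mem_univ, if_true] at h0
  have h1 : ⟪z l, ∑ i, y i • z i⟫ + ∑ i, y i = if l = j then 1 else 0 := congrFun hy l
  have h2 : ∑ i, y i = 1 / (Fintype.card ι : ℝ) := by
    rw [eq_div_iff hk.ne']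
    linarith
  linarith

variable [FiniteDimensional ℝ E] [MeasurableSpace E] [BorelSpace E]

lemma continuous_mu [Fintype ι] {s : Finset ι} (hs : s.Nonempty) :
    Continuous (mu (E := E) s hs) := by
  refine (LipschitzWith.of_le_add_mul' (∫ x, ‖x‖ ∂stdGaussian E) fun v v' => ?_).continuous
  unfold mu
  rw [← integral_mul_const, ← integral_add (integrable_mx hs v')
    (integrable_id_std.norm.mul_const _)]
  refine integral_mono (integrable_mx hs v) ((integrable_mx hs v').add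
    (integrable_id_std.norm.mul_const _)) fun x => mx_le hs v x fun i hi => ?_
  have h1 := le_mx hs v' x hi
  have h2 := real_inner_le_norm (v i - v' i) x
  rw [inner_sub_left] at h2
  have h3 : ‖v i - v' i‖ ≤ dist v v' := by
    rw [← dist_eq_norm]
    exact dist_le_pi_dist v v' i
  nlinarith [norm_nonneg x]

structure Crit (z : ι → E) (A : ι → Set E) : Prop where
  part : Part A
  meas : ∀ i, MeasurableSet (A i)
  hbar : ∀ i, bar (A i) = z i
  sub : ∀ i x, x ∈ A i → ∀ l, ⟪z l, x⟫ ≤ ⟪z i, x⟫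
  sup : ∀ i x, (∀ l, l ≠ i → ⟪z l, x⟫ < ⟪z i, x⟫) → x ∈ A i

lemma exists_cells [Fintype ι] [LinearOrder ι] (hs : (Finset.univ : Finset ι).Nonempty)
    (v : ι → E) : ∃ A : ι → Set E, Part A ∧ (∀ i, MeasurableSet (A i)) ∧
      (∀ i x, x ∈ A i → ∀ l, ⟪v l, x⟫ ≤ ⟪v i, x⟫) ∧
      ∀ i x, (∀ l, l ≠ i → ⟪v l, x⟫ < ⟪v i, x⟫) → x ∈ A i := by
  let A : ι → Set E := fun i =>
    (⋂ l, {x | ⟪v l, x⟫ ≤ ⟪v i, x⟫}) ∩ ⋂ l ∈ Iio i, {x | ⟪v l, x⟫ < ⟪v i, x⟫}
  have hA : ∀ i x, x ∈ A i ↔ (∀ l, ⟪v l, x⟫ ≤ ⟪v i, x⟫) ∧ ∀ l < i, ⟪v l, x⟫ < ⟪v i, x⟫ := by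
    intro i x
    simp [A]
  have hm : ∀ i, MeasurableSet (A i) := fun i =>
    (MeasurableSet.iInter fun l => measurableSet_le (by fun_prop) (by fun_prop)).inter
      (MeasurableSet.biInter (to_countable _) fun l _ =>
        measurableSet_lt (by fun_prop) (by fun_prop))
  refine ⟨A, ⟨fun i => (hm i).nullMeasurableSet, fun i j hij => Disjoint.aedisjoint ?_, ?_⟩, hm,
    fun i x hx => ((hA i x).1 hx).1, fun i x hx => (hA i x).2 ⟨fun l => ?_, fun l hl =>
      hx l hl.ne⟩⟩
  · rw [Set.disjoint_left]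
    intro x hi hj
    rw [hA] at hi hj
    rcases lt_or_gt_of_ne hij with h | h
    · linarith [hj.2 i h, hi.1 j]
    · linarith [hi.2 j h, hj.1 i]
  · refine EventuallyEq.of_eq (eq_univ_of_forall fun x => ?_)
    obtain ⟨i, -, hi⟩ := exists_mx hs v x
    obtain ⟨m, hm1, hm2⟩ := Finset.exists_min_image
      (Finset.univ.filter fun l => ⟪v l, x⟫ = mx Finset.univ hs v x) id ⟨i, by simp [hi]⟩
    simp only [Finset.mem_filter, Finset.mem_univ, true_and, id] at hm1 hm2
    refine mem_iUnion.2 ⟨m, (hA m x).2 ⟨fun l => hm1 ▸ le_mx hs v x (Finset.mem_univ l),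
      fun l hl => ?_⟩⟩
    rw [hm1]
    refine lt_of_le_of_ne (le_mx hs v x (Finset.mem_univ l)) fun h => ?_
    exact absurd (hm2 l h) (not_le.2 hl)
  · rcases eq_or_ne l i with rfl | h
    · exact le_rfl
    · exact (hx l h).le

lemma exists_crit [Fintype ι] [LinearOrder ι] (hs : (Finset.univ : Finset ι).Nonempty)
    (h : ¬ Bound E Finset.univ hs) :
    ∃ (z : ι → E) (A : ι → Set E), Crit z A ∧ tau < ∑ i, ‖z i‖ ^ 2 := by
  let K : Set (ι → E) := {v | ∑ i, ‖v i‖ ^ 2 ≤ 1}
  have hK : IsCompact K := by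
    refine Metric.isCompact_of_isClosed_isBounded (isClosed_le (by fun_prop) continuous_const)
      ((Metric.isBounded_closedBall (x := 0) (r := 1)).subset fun v hv => ?_)
    rw [mem_closedBall_zero_iff, pi_norm_le_iff_of_nonneg zero_le_one]
    intro i
    have := Finset.single_le_sum (f := fun i => ‖v i‖ ^ 2) (fun i _ => sq_nonneg _)
      (Finset.mem_univ i)
    exact (abs_le_of_sq_le_sq' (by rw [one_pow]; exact this.trans hv) zero_le_one).2
  obtain ⟨v, hv, hmax⟩ := hK.exists_isMaxOn ⟨0, by simp [K]⟩ (continuous_mu hs).continuousOn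
  obtain ⟨m, hm⟩ : ∃ m, m = mu Finset.univ hs v := ⟨_, rfl⟩
  have hom : ∀ b : ι → E, mu Finset.univ hs b ≤ m * √(∑ i, ‖b i‖ ^ 2) := fun b => by
    have B0 : 0 ≤ ∑ i, ‖b i‖ ^ 2 := by positivity
    rcases B0.eq_or_lt with h0 | h0
    · have hb : b = fun i => (0 : ℝ) • b i := by
        ext i
        have := (Finset.sum_eq_zero_iff_of_nonneg fun i _ => sq_nonneg ‖b i‖).1 h0.symm i
          (Finset.mem_univ i)
        simpa using this
      rw [← h0, hb, mu_smul hs b le_rfl]
      simp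
    · have hr := sqrt_pos.2 h0
      have h1 : (fun i => (√(∑ i, ‖b i‖ ^ 2))⁻¹ • b i) ∈ K := by
        simp only [K, mem_ofPred_eq, norm_smul, mul_pow, norm_inv, Real.norm_eq_abs, inv_pow,
          sq_abs, ← Finset.mul_sum]
        rw [sq_sqrt B0, inv_mul_cancel₀ h0.ne']
      have h2 : mu Finset.univ hs (fun i => (√(∑ i, ‖b i‖ ^ 2))⁻¹ • b i) ≤ m := hm ▸ hmax h1
      rw [mu_smul hs b (inv_nonneg.2 hr.le), inv_mul_le_iff₀ hr] at h2
      linarith
  have hmt : √tau < m := by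
    by_contra hc
    push Not at hc
    refine h fun b => (hom b).trans ?_
    rw [sqrt_mul tau_pos.le]
    exact mul_le_mul_of_nonneg_right hc (sqrt_nonneg _)
  have m0 : 0 < m := (sqrt_nonneg _).trans_lt hmt
  obtain ⟨A, hP, hA, h1, h2⟩ := exists_cells hs v
  have e1 : m = ∑ i, ⟪v i, bar (A i)⟫ := by
    rw [hm, mu, hP.integral (integrable_mx hs v)]
    refine Finset.sum_congr rfl fun i _ => ?_
    rw [bar, ← setIntegral_inner]
    refine setIntegral_congr_fun (hA i) fun x hx => ?_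
    exact le_antisymm (mx_le hs v x fun l _ => h1 i x hx l) (le_mx hs v x (Finset.mem_univ i))
  have e2 : ∑ i, ‖bar (A i)‖ ^ 2 ≤ m ^ 2 := by
    have a1 : ∑ i, ‖bar (A i)‖ ^ 2 ≤ m * √(∑ i, ‖bar (A i)‖ ^ 2) := by
      refine le_trans ?_ (hom _)
      simp_rw [← real_inner_self_eq_norm_sq]
      exact hP.sum_le _ (integrable_mx hs _) fun i x =>
        le_mx hs (fun i => bar (A i)) x (Finset.mem_univ i)
    have B0 : 0 ≤ ∑ i, ‖bar (A i)‖ ^ 2 := by positivity
    nlinarith [sq_sqrt B0, sq_nonneg (m - √(∑ i, ‖bar (A i)‖ ^ 2))]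
  have e3 : ∑ i, ‖bar (A i) - m • v i‖ ^ 2 =
      ∑ i, ‖bar (A i)‖ ^ 2 - 2 * m * ∑ i, ⟪v i, bar (A i)⟫ + m ^ 2 * ∑ i, ‖v i‖ ^ 2 := by
    rw [Finset.mul_sum, Finset.mul_sum, ← Finset.sum_sub_distrib, ← Finset.sum_add_distrib]
    refine Finset.sum_congr rfl fun i _ => ?_
    rw [norm_sub_sq_real, real_inner_smul_right, norm_smul, mul_pow, Real.norm_eq_abs, sq_abs,
      real_inner_comm]
    ring
  have hv' : ∑ i, ‖v i‖ ^ 2 ≤ 1 := hv
  have e4 : ∑ i, ‖bar (A i) - m • v i‖ ^ 2 = 0 := by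
    refine le_antisymm ?_ (by positivity)
    rw [e3, ← e1]
    nlinarith [mul_le_mul_of_nonneg_left hv' (sq_nonneg m)]
  have e5 : ∀ i, bar (A i) = m • v i := fun i => by
    have := (Finset.sum_eq_zero_iff_of_nonneg fun i _ => sq_nonneg _).1 e4 i (Finset.mem_univ i)
    rwa [sq_eq_zero_iff, norm_eq_zero, sub_eq_zero] at this
  refine ⟨fun i => m • v i, A, ⟨hP, hA, e5, fun i x hx l => ?_, fun i x hx => h2 i x fun l hl =>
    ?_⟩, ?_⟩
  · rw [real_inner_smul_left, real_inner_smul_left]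
    exact mul_le_mul_of_nonneg_left (h1 i x hx l) m0.le
  · have := hx l hl
    rw [real_inner_smul_left, real_inner_smul_left] at this
    exact lt_of_mul_lt_mul_left this m0.le
  · have a1 : ∑ i, ‖bar (A i)‖ ^ 2 = ∑ i, ‖m • v i‖ ^ 2 := by simp only [e5]
    rw [e3, ← e1, a1] at e4
    have a2 : tau < m ^ 2 := (sqrt_lt' m0).1 hmt
    nlinarith [mul_le_mul_of_nonneg_left hv' (sq_nonneg m)]

variable [Fintype ι] [DecidableEq ι] {z : ι → E} {A : ι → Set E}

omit [DecidableEq ι] in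
lemma Crit.sum (h : Crit z A) : ∑ i, z i = 0 := by
  rw [← h.part.sum_bar]
  exact Finset.sum_congr rfl fun i _ => (h.hbar i).symm

omit [DecidableEq ι] in
lemma Crit.le_mu (h : Crit z A) (hs : (Finset.univ : Finset ι).Nonempty) :
    ∑ i, ‖z i‖ ^ 2 ≤ mu Finset.univ hs z := by
  have := h.part.sum_le z (integrable_mx hs z) fun i x => le_mx hs z x (Finset.mem_univ i)
  simpa only [h.hbar, real_inner_self_eq_norm_sq, mu] using this

lemma Crit.neg (h : Crit z A) (hF : tau < ∑ i, ‖z i‖ ^ 2)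
    (IH : ∀ (s : Finset ι) (hs : s.Nonempty), s ≠ Finset.univ → Bound E s hs) (i j : ι)
    (hij : i ≠ j) : ⟪z i, z j⟫ < 0 := by
  have hi : i ∈ Finset.univ.erase j := by simp [hij]
  have hs : (Finset.univ.erase j).Nonempty := ⟨i, hi⟩
  let y : ι → E := fun l => if l = i ∨ l = j then z i + z j else z l
  have h1 := h.part.sum_le y (integrable_mx hs y) fun l x => by
    rcases eq_or_ne l j with rfl | hl
    · have := le_mx hs y x hi
      simpa [y] using this
    · exact le_mx hs y x (by simp [hl])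
  have h2 := IH _ hs (fun h => by simpa using h.ge (Finset.mem_univ j)) y
  have r : ∀ l ∈ (Finset.univ.erase j).erase i, y l = z l := fun l hl => by
    simp only [Finset.mem_erase] at hl
    simp [y, hl.1, hl.2.1]
  have yi : y i = z i + z j := by simp [y]
  have yj : y j = z i + z j := by simp [y]
  have s1 : ∑ l, ⟪y l, bar (A l)⟫ = ‖z i + z j‖ ^ 2 +
      ∑ l ∈ (Finset.univ.erase j).erase i, ‖z l‖ ^ 2 := by
    rw [← Finset.add_sum_erase _ _ (Finset.mem_univ j), ← Finset.add_sum_erase _ _ hi, yi, yj,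
      h.hbar, h.hbar, ← add_assoc, ← inner_add_right, add_comm (z j), real_inner_self_eq_norm_sq]
    congr 1
    exact Finset.sum_congr rfl fun l hl => by rw [r l hl, h.hbar, real_inner_self_eq_norm_sq]
  have s2 : ∑ l ∈ Finset.univ.erase j, ‖y l‖ ^ 2 = ‖z i + z j‖ ^ 2 +
      ∑ l ∈ (Finset.univ.erase j).erase i, ‖z l‖ ^ 2 := by
    rw [← Finset.add_sum_erase _ _ hi, yi]
    congr 1
    exact Finset.sum_congr rfl fun l hl => by rw [r l hl]
  rw [s2] at h2
  rw [s1] at h1
  have h3 := le_tau_of_le_sqrt (h1.trans h2)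
  rw [← Finset.add_sum_erase _ _ (Finset.mem_univ j), ← Finset.add_sum_erase _ _ hi] at hF
  rw [norm_add_sq_real] at h3
  linarith

omit [Fintype ι] [DecidableEq ι] in
lemma Crit.E1 (h : Crit z A) (j : ι) (hz : z j ≠ 0) (x0 : ℝ) :
    ‖z j‖ + x0 * (stdGaussian E).real (A j) ≤ KK x0 := by
  have r0 : 0 < ‖z j‖ := norm_pos_iff.2 hz
  have n0 : ‖‖z j‖⁻¹ • z j‖ = 1 := by
    rw [norm_smul, norm_inv, norm_norm, inv_mul_cancel₀ r0.ne']
  have i1 : Integrable (fun x => ⟪‖z j‖⁻¹ • z j, x⟫ + x0) (stdGaussian E) :=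
    (integrable_inner _).add (integrable_const _)
  have e1 : ∫ x in A j, (⟪‖z j‖⁻¹ • z j, x⟫ + x0) ∂stdGaussian E =
      ‖z j‖ + x0 * (stdGaussian E).real (A j) := by
    rw [integral_add (integrable_inner _).integrableOn (integrable_const _).integrableOn,
      setIntegral_inner, ← bar, h.hbar, real_inner_smul_left, real_inner_self_eq_norm_sq]
    simp only [integral_const, MeasurableSet.univ, measureReal_restrict_apply, univ_inter,
      smul_eq_mul]
    field_simp
  rw [← e1, ← integral_pos_inner n0]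
  exact (integral_mono i1.integrableOn i1.pos_part.integrableOn fun x => le_max_left _ _).trans
    (setIntegral_le_integral i1.pos_part (ae_of_all _ fun x => le_max_right _ _))

lemma exists_delta {β m x0 c : ℝ} (h : m * ph x0 < β) :
    ∃ δ : ℝ, 0 < δ ∧ Ph (x0 + m * δ) < exp (-(c * δ ^ 2) / 2) * (Ph x0 + β * δ) := by
  have h1 : HasDerivAt (fun δ : ℝ => -(c * δ ^ 2) / 2) 0 0 :=
    ((((hasDerivAt_pow 2 (0 : ℝ)).const_mul c).neg).div_const 2).congr_deriv (by simp)
  have h2 : HasDerivAt (fun δ : ℝ => Ph x0 + β * δ) β 0 :=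
    (((hasDerivAt_id (0 : ℝ)).const_mul β).const_add _).congr_deriv (by simp)
  have h3 : HasDerivAt (fun δ : ℝ => x0 + m * δ) m 0 :=
    (((hasDerivAt_id (0 : ℝ)).const_mul m).const_add _).congr_deriv (by simp)
  have h4 : HasDerivAt (fun δ : ℝ => exp (-(c * δ ^ 2) / 2) * (Ph x0 + β * δ) - Ph (x0 + m * δ))
      (β - m * ph x0) 0 :=
    ((h1.exp.mul h2).sub ((hasDerivAt_Ph _).comp (0 : ℝ) h3)).congr_deriv (by simp [mul_comm])
  obtain ⟨δ, h5, h6⟩ := ((h4.tendsto_slope_zero_right.eventually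
    (lt_mem_nhds (sub_pos.2 h))).and self_mem_nhdsWithin).exists
  have h6' : 0 < δ := h6
  refine ⟨δ, h6', ?_⟩
  simp only [zero_add, smul_eq_mul] at h5
  have := (mul_pos_iff_of_pos_left (inv_pos.2 h6')).1 h5
  simp at this
  linarith

lemma Crit.tail (h : Crit z A) (j : ι) (hs : (Finset.univ.erase j).Nonempty) {w : E} {β x0 : ℝ}
    (hβ : 0 < β) (hw : ⟪z j, w⟫ = β) (hw' : ∀ l, l ≠ j → ⟪z l, w⟫ = β - 1)
    (hp : (stdGaussian E).real (A j) = Ph x0) {σ : ℝ} (hσ : 0 < σ) :
    (stdGaussian E).real {x | σ < ⟪z j, x⟫ - mx _ hs z x} ≤ Ph (x0 - β / ph x0 * σ) := by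
  by_contra hc
  push Not at hc
  obtain ⟨η, hη, h1⟩ := exists_slack hc
  have f0 := ph_pos x0
  obtain ⟨m, hm⟩ : ∃ m, m = β / ph x0 - η / σ := ⟨_, rfl⟩
  have e1 : x0 - β / ph x0 * σ + η = x0 - m * σ := by
    rw [hm]
    field_simp
    ring
  have e2 : m * ph x0 / β < 1 := by
    rw [div_lt_one hβ, hm, sub_mul, div_mul_cancel₀ _ f0.ne']
    have : 0 < η / σ * ph x0 := by positivity
    linarith
  obtain ⟨θ, hθ1, hθ2⟩ := exists_between e2
  rw [div_lt_iff₀ hβ] at hθ1
  obtain ⟨δ, hδ, h2⟩ := exists_delta (c := θ ^ 2 * ‖w‖ ^ 2) hθ1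
  let C : Set (ℝ × E) := {q | q.1 < ⟪z j, q.2⟫ - mx _ hs z q.2}
  have hC : ∀ q : ℝ × E, q ∈ C ↔ ∀ l ∈ Finset.univ.erase j, ⟪z l, q.2⟫ < ⟪z j, q.2⟫ - q.1 := by
    intro q
    rw [← Finset.sup'_lt_iff hs]
    simp only [C, mem_ofPred_eq, mx]
    constructor <;> intro h <;> linarith
  have hcv : Convex ℝ C := by
    intro p hp q hq a b ha hb hab
    rw [hC] at hp hq ⊢
    intro l hl
    have p1 := hp l hl
    have q1 := hq l hl
    simp only [Prod.fst_add, Prod.snd_add, Prod.smul_fst, Prod.smul_snd, smul_eq_mul,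
      inner_add_right, real_inner_smul_right]
    rcases ha.eq_or_lt with rfl | ha
    · have : b = 1 := by linarith
      rw [this]
      linarith
    · nlinarith [mul_lt_mul_of_pos_left p1 ha, mul_le_mul_of_nonneg_left q1.le hb]
  have hme : ∀ s, MeasurableSet (Prod.mk s ⁻¹' C) := fun s =>
    measurableSet_lt (f := fun _ => s) (g := fun x => ⟪z j, x⟫ - mx _ hs z x) (by fun_prop)
      (Continuous.measurable (by fun_prop))
  have k0 : ENNReal.ofReal (Ph (x0 + m * δ)) < stdGaussian E (Prod.mk (-δ) ⁻¹' C) := by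
    rw [ENNReal.ofReal_lt_iff_lt_toReal (Ph_pos _).le (measure_ne_top _ _), ← measureReal_def]
    have := shift_lower ((θ * δ) • w) (h.meas j)
    rw [← bar, h.hbar, real_inner_smul_left, real_inner_comm, hw, hp, norm_smul, mul_pow,
      Real.norm_eq_abs, sq_abs] at this
    refine lt_of_lt_of_le (lt_of_lt_of_le h2 (le_of_eq ?_)) (this.trans
      (measureReal_mono fun x hx => ?_))
    · congr 2 <;> ring
    · rw [mem_preimage, hC]
      intro l hl
      have := h.sub j _ hx l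
      rw [inner_add_right, inner_add_right, real_inner_smul_right, real_inner_smul_right, hw,
        hw' l (Finset.ne_of_mem_erase hl)] at this
      nlinarith
  have k1 : ENNReal.ofReal (Ph (x0 - m * σ)) < stdGaussian E (Prod.mk σ ⁻¹' C) := by
    rw [ENNReal.ofReal_lt_iff_lt_toReal (Ph_pos _).le (measure_ne_top _ _), ← e1]
    exact h1
  have k2 := ehrP_std E ℝ C hcv hme (-δ) σ (σ / (σ + δ)) (δ / (σ + δ)) (by positivity)
    (by positivity) (by field_simp) _ _ k0 k1
  have e3 : σ / (σ + δ) * (x0 + m * δ) + δ / (σ + δ) * (x0 - m * σ) = x0 := by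
    field_simp
    ring
  have e4 : (σ / (σ + δ)) • (-δ) + (δ / (σ + δ)) • σ = (0 : ℝ) := by
    simp only [smul_eq_mul]
    ring
  rw [e3, e4, ENNReal.ofReal_lt_iff_lt_toReal (Ph_pos _).le (measure_ne_top _ _),
    ← measureReal_def, ← hp] at k2
  refine absurd (measureReal_mono fun x hx => ?_) (not_le.2 k2)
  rw [mem_preimage, hC] at hx
  exact h.sup j x fun l hl => by simpa using hx l (by simp [hl])

lemma Crit.E2 (h : Crit z A) (j : ι) (hs : (Finset.univ.erase j).Nonempty) {w : E} {β x0 : ℝ}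
    (hβ : 0 < β) (hw : ⟪z j, w⟫ = β) (hw' : ∀ l, l ≠ j → ⟪z l, w⟫ = β - 1)
    (hp : (stdGaussian E).real (A j) = Ph x0) :
    ∑ i, ‖z i‖ ^ 2 ≤ mu _ hs z + ph x0 * KK x0 / β := by
  have hu : (Finset.univ : Finset ι).Nonempty := ⟨j, Finset.mem_univ j⟩
  have i1 : Integrable (fun x => max (⟪z j, x⟫ - mx _ hs z x) 0) (stdGaussian E) :=
    ((integrable_inner _).sub (integrable_mx hs z)).pos_part
  have a1 : mu Finset.univ hu z ≤
      mu _ hs z + ∫ x, max (⟪z j, x⟫ - mx _ hs z x) 0 ∂stdGaussian E := by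
    unfold mu
    rw [← integral_add (integrable_mx hs z) i1]
    refine integral_mono (integrable_mx hu z) ((integrable_mx hs z).add i1) fun x =>
      mx_le hu z x fun l _ => ?_
    rcases eq_or_ne l j with rfl | hl
    · linarith [le_max_left (⟪z l, x⟫ - mx _ hs z x) 0]
    · linarith [le_max_right (⟪z j, x⟫ - mx _ hs z x) 0, le_mx hs z x (i := l) (by simp [hl])]
  refine (h.le_mu hu).trans (a1.trans (add_le_add le_rfl ?_))
  have f0 := ph_pos x0
  obtain ⟨m, hm⟩ : ∃ m, m = β / ph x0 := ⟨_, rfl⟩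
  have m0 : 0 < m := by rw [hm]; positivity
  have hd : ∀ t ∈ Ici (0 : ℝ), HasDerivAt (fun t => -KK (x0 - m * t) / m) (Ph (x0 - m * t)) t :=
    fun t _ => by
      have := (((hasDerivAt_KK _).comp t (((hasDerivAt_id t).const_mul m).const_sub x0)).neg).div_const m
      refine this.congr_deriv ?_
      simp only [id]
      field_simp
  have ht : Tendsto (fun t => -KK (x0 - m * t) / m) atTop (𝓝 0) := by
    have : Tendsto (fun t => x0 - m * t) atTop atBot :=
      tendsto_atBot_add_const_left _ _ (tendsto_neg_atTop_atBot.comp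
        (tendsto_id.const_mul_atTop m0))
    simpa using (tendsto_KK_atBot.comp this).neg.div_const m
  have hpos : ∀ t ∈ Ioi (0 : ℝ), 0 ≤ Ph (x0 - m * t) := fun t _ => (Ph_pos _).le
  rw [i1.integral_eq_integral_meas_lt (ae_of_all _ fun x => le_max_right _ _)]
  refine (integral_mono_of_nonneg (ae_of_all _ fun t => measureReal_nonneg)
    (integrableOn_Ioi_deriv_of_nonneg' hd hpos ht)
    ((ae_restrict_iff' measurableSet_Ioi).2 (ae_of_all _ fun t ht' => ?_))).trans (le_of_eq ?_)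
  · have := h.tail j hs hβ hw hw' hp (σ := t) ht'
    rw [← hm] at this
    refine le_trans (le_of_eq ?_) this
    refine congrArg (stdGaussian E).real (Set.ext fun x => ?_)
    have : ¬ t < 0 := not_lt.2 (le_of_lt ht')
    simp [this]
  · rw [integral_Ioi_of_hasDerivAt_of_nonneg' hd hpos ht, hm, mul_zero, sub_zero]
    field_simp
    simp

end

end Vale.Agent.P226
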