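import Vale.Agent.P226.Basic

open MeasureTheory ProbabilityTheory Set Filter Topology Real

namespace Vale.Agent.P226

noncomputable section

def om (y : ℝ) : ℝ := -y / ph y

lemma om_neg (y : ℝ) : om (-y) = -om y := by
  simp [om, ph_neg, neg_div]

lemma strictAnti_om : StrictAnti om := by
  refine strictAnti_of_deriv_neg fun y => ?_
  have h := ((hasDerivAt_neg y).div (hasDerivAt_ph y) (ph_pos y).ne')
  have h2 : HasDerivAt om (-(1 + y ^ 2) / ph y) y := by
    refine h.congr_deriv ?_
    have := (ph_pos y).ne'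
    field_simp
    ring
  rw [h2.deriv]
  have := ph_pos y
  have h3 : 0 < (1 + y ^ 2) / ph y := by positivity
  rw [neg_div]
  linarith

lemma strictAnti_omPh : StrictAnti (fun y => om y * Ph y) := by
  refine strictAnti_of_deriv_neg fun y => ?_
  have h := ((hasDerivAt_neg y).div (hasDerivAt_ph y) (ph_pos y).ne').mul (hasDerivAt_Ph y)
  have h2 : HasDerivAt (fun y => om y * Ph y) (-((1 + y ^ 2) * Ph y + y * ph y) / ph y) y := by
    refine h.congr_deriv ?_
    have := (ph_pos y).ne'
    simp only [Pi.div_apply]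
    field_simp
    ring
  rw [h2.deriv]
  have := ph_pos y
  have h3 : 0 < ((1 + y ^ 2) * Ph y + y * ph y) / ph y := div_pos (mills y) this
  rw [neg_div]
  linarith

lemma strictAnti_ratio : StrictAnti (fun y => ph y / Ph y) := by
  refine strictAnti_of_deriv_neg fun y => ?_
  have h := (hasDerivAt_ph y).div (hasDerivAt_Ph y) (Ph_pos y).ne'
  have h2 : HasDerivAt (fun y => ph y / Ph y) (-(ph y * KK y) / Ph y ^ 2) y := by
    refine h.congr_deriv ?_
    unfold KK
    ring
  rw [h2.deriv]
  have h3 : 0 < (ph y * KK y) / Ph y ^ 2 :=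
    div_pos (mul_pos (ph_pos y) (KK_pos y)) (pow_pos (Ph_pos y) 2)
  rw [neg_div]
  linarith

lemma lt_neg_of_sum {a b c : ℝ} (h : Ph a + Ph b + Ph c = 1) : a < -c := by
  refine strictMono_Ph.lt_iff_lt.1 ?_
  rw [Ph_neg]
  linarith [Ph_pos b]

lemma om_add_pos {a b c : ℝ} (h : Ph a + Ph b + Ph c = 1) : 0 < om a + om c := by
  have := strictAnti_om (lt_neg_of_sum h)
  rw [om_neg] at this
  linarith

lemma e2_pos_aux {a b c : ℝ} (h : Ph a + Ph b + Ph c = 1) (hc : 0 < c) :
    0 < om a * om b + om c * (om a + om b) := by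
  have ha := lt_neg_of_sum h
  have hb : b < -c := lt_neg_of_sum (b := a) (by linarith)
  have h1 : om (-c) * Ph (-c) < om a * Ph a := strictAnti_omPh ha
  have h2 : om (-c) * Ph (-c) < om b * Ph b := strictAnti_omPh hb
  have h3 : Ph (-c) = Ph a + Ph b := by rw [Ph_neg]; linarith
  have hw : 0 < om (-c) := by
    unfold om
    rw [neg_neg]
    exact div_pos hc (ph_pos _)
  have hwa : om (-c) < om a := strictAnti_om ha
  have hwb : om (-c) < om b := strictAnti_om hb
  have hoc : om c = -om (-c) := by rw [om_neg, neg_neg]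
  rw [hoc]
  set w := om (-c)
  have hP : 0 < Ph (-c) := Ph_pos _
  have : 0 < (om a * om b - w * (om a + om b)) * Ph (-c) := by
    have e1 : 0 < om b * (om a * Ph a - w * Ph (-c)) := mul_pos (by linarith) (by linarith)
    have e2 : 0 < om a * (om b * Ph b - w * Ph (-c)) := mul_pos (by linarith) (by linarith)
    have : (om a * om b - w * (om a + om b)) * Ph (-c) =
        om b * (om a * Ph a - w * Ph (-c)) + om a * (om b * Ph b - w * Ph (-c)) := by
      rw [h3]; ring
    linarith
  have := (mul_pos_iff_of_pos_right hP).1 this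
  linarith

lemma e2_pos {a b c : ℝ} (h : Ph a + Ph b + Ph c = 1) :
    0 < om a * om b + om c * (om a + om b) := by
  rcases lt_or_ge 0 c with hc | hc
  · exact e2_pos_aux h hc
  rcases lt_or_ge 0 b with hb | hb
  · have := e2_pos_aux (a := a) (b := c) (c := b) (by linarith) hb
    linarith
  rcases lt_or_ge 0 a with ha | ha
  · have := e2_pos_aux (a := b) (b := c) (c := a) (by linarith) ha
    linarith
  have h1 : 0 ≤ om a := div_nonneg (by linarith) (ph_pos _).le
  have h2 : 0 ≤ om b := div_nonneg (by linarith) (ph_pos _).le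
  have h3 : 0 ≤ om c := div_nonneg (by linarith) (ph_pos _).le
  have p1 := om_add_pos h
  have p2 : 0 < om a + om b := om_add_pos (b := c) (by linarith)
  have p3 : 0 < om b + om c := om_add_pos (b := a) (by linarith)
  rcases h3.eq_or_lt with h3 | h3
  · rw [← h3] at p1 p3 ⊢
    have : 0 < om a * om b := mul_pos (by linarith) (by linarith)
    linarith
  · have := mul_pos h3 p2
    have := mul_nonneg h1 h2
    linarith

lemma form_pos {a b c u v w : ℝ} (h : Ph a + Ph b + Ph c = 1)
    (h1 : ph a * u + ph b * v + ph c * w = 0) (hne : ¬ (u = 0 ∧ v = 0 ∧ w = 0)) :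
    0 < -a * ph a * u ^ 2 + -b * ph b * v ^ 2 + -c * ph c * w ^ 2 := by
  have pa := ph_pos a
  have pb := ph_pos b
  have pc := ph_pos c
  have e : -a * ph a * u ^ 2 + -b * ph b * v ^ 2 + -c * ph c * w ^ 2 =
      om a * (ph a * u) ^ 2 + om b * (ph b * v) ^ 2 + om c * (ph c * w) ^ 2 := by
    unfold om
    field_simp
  rw [e]
  have hw : ph c * w = -(ph a * u) - ph b * v := by linarith
  rw [hw]
  set x := ph a * u with hx
  set y := ph b * v with hy
  have p1 := om_add_pos h
  have p2 := e2_pos h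
  have key : (om a + om c) * (om a * x ^ 2 + om b * y ^ 2 + om c * (-x - y) ^ 2) =
      ((om a + om c) * x + om c * y) ^ 2 + (om a * om b + om c * (om a + om b)) * y ^ 2 := by
    ring
  have : 0 < ((om a + om c) * x + om c * y) ^ 2 +
      (om a * om b + om c * (om a + om b)) * y ^ 2 := by
    by_cases hy0 : y = 0
    · have hx0 : x ≠ 0 := by
        intro hx0
        apply hne
        refine ⟨?_, ?_, ?_⟩
        · exact (mul_eq_zero.1 (hx ▸ hx0)).resolve_left pa.ne'
        · exact (mul_eq_zero.1 (hy ▸ hy0)).resolve_left pb.ne'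
        · rw [hx0, hy0] at hw
          exact (mul_eq_zero.1 (hw.trans (by ring))).resolve_left pc.ne'
      rw [hy0]
      have : 0 < ((om a + om c) * x) ^ 2 := by positivity
      simpa using this
    · have : 0 < (om a * om b + om c * (om a + om b)) * y ^ 2 := by positivity
      positivity
  rw [← key] at this
  exact (mul_pos_iff_of_pos_left p1).1 this

lemma not_localMax {a b c u v w t : ℝ}
    (h : Ph (a + t * u) + Ph (b + t * v) + Ph (c + t * w) = 1)
    (hne : ¬ (u = 0 ∧ v = 0 ∧ w = 0)) :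
    ¬ IsLocalMax (fun t => Ph (a + t * u) + Ph (b + t * v) + Ph (c + t * w)) t := by
  intro hm
  have hl : ∀ (a u t : ℝ), HasDerivAt (fun t => a + t * u) u t := fun a u t =>
    (((hasDerivAt_id t).mul_const u).const_add a).congr_deriv (by simp)
  have hd : ∀ t, HasDerivAt (fun t => Ph (a + t * u) + Ph (b + t * v) + Ph (c + t * w))
      (ph (a + t * u) * u + ph (b + t * v) * v + ph (c + t * w) * w) t := fun t =>
    (((hasDerivAt_Ph _).comp t (hl a u t)).add ((hasDerivAt_Ph _).comp t (hl b v t))).add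
      ((hasDerivAt_Ph _).comp t (hl c w t))
  have hd1 : deriv (fun t => Ph (a + t * u) + Ph (b + t * v) + Ph (c + t * w)) =
      fun t => ph (a + t * u) * u + ph (b + t * v) * v + ph (c + t * w) * w := by
    ext t
    exact (hd t).deriv
  have hd2 : HasDerivAt (fun t => ph (a + t * u) * u + ph (b + t * v) * v + ph (c + t * w) * w)
      (-(a + t * u) * ph (a + t * u) * u ^ 2 + -(b + t * v) * ph (b + t * v) * v ^ 2 +
        -(c + t * w) * ph (c + t * w) * w ^ 2) t := by
    have := (((((hasDerivAt_ph _).comp t (hl a u t)).mul_const u).add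
      (((hasDerivAt_ph _).comp t (hl b v t)).mul_const v)).add
      (((hasDerivAt_ph _).comp t (hl c w t)).mul_const w))
    exact this.congr_deriv (by ring)
  have h0 := hm.deriv_eq_zero
  have hpos := form_pos h (by rw [hd1] at h0; exact h0) hne
  have hmin := isLocalMin_of_deriv_deriv_pos
    (f := fun t => Ph (a + t * u) + Ph (b + t * v) + Ph (c + t * w)) (x₀ := t)
    (by rw [hd1, hd2.deriv]; exact hpos) h0 (hd t).continuousAt
  have hc : (fun t => Ph (a + t * u) + Ph (b + t * v) + Ph (c + t * w)) =ᶠ[𝓝 t]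
      fun _ => Ph (a + t * u) + Ph (b + t * v) + Ph (c + t * w) := by
    filter_upwards [hm, hmin] with s h1 h2
    exact le_antisymm h1 h2
  have := hc.deriv.deriv_eq
  rw [hd1, hd2.deriv] at this
  simp at this
  linarith

lemma convex3 {a b c u v w t : ℝ} (h0 : Ph a + Ph b + Ph c < 1)
    (h1 : Ph (a + u) + Ph (b + v) + Ph (c + w) < 1) (ht : t ∈ Icc (0 : ℝ) 1) :
    Ph (a + t * u) + Ph (b + t * v) + Ph (c + t * w) < 1 := by
  by_cases hne : u = 0 ∧ v = 0 ∧ w = 0
  · obtain ⟨rfl, rfl, rfl⟩ := hne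
    simpa using h0
  by_contra hcon
  push Not at hcon
  obtain ⟨y0, hy0⟩ := exists_Ph_eq (p := 1 / 4) (by norm_num) (by norm_num)
  set C := |a| + |b| + |c| + |u| + |v| + |w| + |y0| with hC
  let H : ℝ × ℝ → ℝ := fun q =>
    Ph (a - q.2 + q.1 * u) + Ph (b - q.2 + q.1 * v) + Ph (c - q.2 + q.1 * w)
  have hH : Continuous H := by unfold H; fun_prop
  let T : Set (ℝ × ℝ) := (Icc (0 : ℝ) 1 ×ˢ Icc (0 : ℝ) C) ∩ {q | 1 ≤ H q}
  have hT : IsCompact T :=
    (isCompact_Icc.prod isCompact_Icc).inter_right (isClosed_le continuous_const hH)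
  have hC0 : 0 ≤ C := by positivity
  have hTne : T.Nonempty := ⟨(t, 0), ⟨ht, le_rfl, hC0⟩, by simpa [H] using hcon⟩
  obtain ⟨⟨s, d⟩, ⟨⟨hs, hd⟩, hq⟩, hmax⟩ := hT.exists_isMaxOn hTne continuous_snd.continuousOn
  simp only [mem_setOf_eq] at hq
  have hb : ∀ (a u : ℝ) (s : ℝ), s ∈ Icc (0 : ℝ) 1 → s * u ≤ |u| := fun a u s hs => by
    have := le_abs_self u
    have := abs_nonneg u
    nlinarith [hs.1, hs.2]
  have hdC : d < C := by
    rcases hd.2.eq_or_lt with h | h
    · exfalso
      simp only at h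
      have e1 : Ph (a - d + s * u) ≤ Ph y0 := strictMono_Ph.monotone (by
        have := hb a u s hs
        have := le_abs_self a
        have := neg_abs_le y0
        have := abs_nonneg b
        have := abs_nonneg c
        have := abs_nonneg v
        have := abs_nonneg w
        linarith)
      have e2 : Ph (b - d + s * v) ≤ Ph y0 := strictMono_Ph.monotone (by
        have := hb b v s hs
        have := le_abs_self b
        have := neg_abs_le y0
        have := abs_nonneg a
        have := abs_nonneg c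
        have := abs_nonneg u
        have := abs_nonneg w
        linarith)
      have e3 : Ph (c - d + s * w) ≤ Ph y0 := strictMono_Ph.monotone (by
        have := hb c w s hs
        have := le_abs_self c
        have := neg_abs_le y0
        have := abs_nonneg b
        have := abs_nonneg a
        have := abs_nonneg v
        have := abs_nonneg u
        linarith)
      simp only [H] at hq
      linarith
    · exact h
  have hle : ∀ r ∈ Icc (0 : ℝ) 1, H (r, d) ≤ 1 := fun r hr => by
    have hc : Tendsto (fun e => H (r, e)) (𝓝[>] d) (𝓝 (H (r, d))) :=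
      ((hH.comp (continuous_const.prodMk continuous_id)).tendsto d).mono_left nhdsWithin_le_nhds
    refine le_of_tendsto hc ?_
    filter_upwards [Ioo_mem_nhdsGT hdC] with e he
    by_contra hh
    push Not at hh
    have : e ≤ d := hmax (show (r, e) ∈ T from ⟨⟨hr, hd.1.trans he.1.le, he.2.le⟩, hh.le⟩)
    linarith [he.1]
  have heq : H (s, d) = 1 := le_antisymm (hle s hs) hq
  have hd0 : 0 ≤ d := hd.1
  have hs0 : s ≠ 0 := by
    rintro rfl
    have e1 : Ph (a - d + 0 * u) ≤ Ph a := strictMono_Ph.monotone (by linarith)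
    have e2 : Ph (b - d + 0 * v) ≤ Ph b := strictMono_Ph.monotone (by linarith)
    have e3 : Ph (c - d + 0 * w) ≤ Ph c := strictMono_Ph.monotone (by linarith)
    simp only [H] at heq
    linarith
  have hs1 : s ≠ 1 := by
    rintro rfl
    have e1 : Ph (a - d + 1 * u) ≤ Ph (a + u) := strictMono_Ph.monotone (by linarith)
    have e2 : Ph (b - d + 1 * v) ≤ Ph (b + v) := strictMono_Ph.monotone (by linarith)
    have e3 : Ph (c - d + 1 * w) ≤ Ph (c + w) := strictMono_Ph.monotone (by linarith)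
    simp only [H] at heq
    linarith
  refine not_localMax (a := a - d) (b := b - d) (c := c - d) (t := s) heq hne ?_
  have hn : Icc (0 : ℝ) 1 ∈ 𝓝 s :=
    Icc_mem_nhds (lt_of_le_of_ne hs.1 hs0.symm) (lt_of_le_of_ne hs.2 hs1)
  filter_upwards [hn] with r hr
  have := hle r hr
  simp only [H] at this heq
  linarith

lemma exists_slack {a m : ℝ} (h : Ph a < m) : ∃ η > 0, Ph (a + η) < m := by
  have hc : Tendsto (fun η => Ph (a + η)) (𝓝[>] 0) (𝓝 (Ph (a + 0))) :=
    ((continuous_Ph.comp (continuous_const.add continuous_id)).tendsto 0).mono_left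
      nhdsWithin_le_nhds
  rw [add_zero] at hc
  obtain ⟨η, h1, h2⟩ := ((hc.eventually (gt_mem_nhds h)).and self_mem_nhdsWithin).exists
  exact ⟨η, h2, h1⟩

lemma enlarge3 {a b c h : ℝ} (h0 : Ph a + Ph b + Ph c < 1) (hh : 0 ≤ h) :
    Ph (a - h) + Ph (b - h) + Ph (c + h) < 1 := by
  obtain ⟨η, hη, h1⟩ := exists_slack (a := c) (m := 1 - Ph a - Ph b) (by linarith)
  have hd : ∀ t, HasDerivAt (fun t => Ph (a - t) + Ph (b - t) + Ph (c + η + t))
      (-ph (a - t) + -ph (b - t) + ph (c + η + t)) t := fun t => by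
    have := (((hasDerivAt_Ph _).comp t ((hasDerivAt_id t).const_sub a)).add
      ((hasDerivAt_Ph _).comp t ((hasDerivAt_id t).const_sub b))).add
      ((hasDerivAt_Ph _).comp t ((hasDerivAt_id t).const_add (c + η)))
    exact this.congr_deriv (by simp)
  have := image_le_of_deriv_right_lt_deriv_boundary (a := 0) (b := h)
    (f := fun t => Ph (a - t) + Ph (b - t) + Ph (c + η + t))
    (fun t _ => (hd t).continuousAt.continuousWithinAt) (fun t _ => (hd t).hasDerivWithinAt)
    (B := fun _ => 1) (B' := fun _ => 0) (by simp; linarith) (fun t => hasDerivAt_const t 1)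
    (fun t _ ht => by
      have l1 := lt_neg_of_sum ht
      have l2 : b - t < -(c + η + t) := lt_neg_of_sum (b := a - t) (by linarith)
      have r1 := strictAnti_ratio l1
      have r2 := strictAnti_ratio l2
      simp only [ph_neg] at r1 r2
      have hP : Ph (-(c + η + t)) = Ph (a - t) + Ph (b - t) := by rw [Ph_neg]; linarith
      rw [lt_div_iff₀ (Ph_pos _)] at r1 r2
      have e : ph (c + η + t) = ph (c + η + t) / Ph (-(c + η + t)) * (Ph (a - t) + Ph (b - t)) := by
        rw [← hP, div_mul_cancel₀ _ (Ph_pos _).ne']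
      linarith) (x := h) ⟨hh, le_rfl⟩
  have e : Ph (c + h) < Ph (c + η + h) := strictMono_Ph (by linarith)
  linarith

lemma exists_Icc {I : Set ℝ} (hI : Convex ℝ I) {a : ℝ} (h : ENNReal.ofReal (Ph a) < gm I) :
    ∃ l r, l ≤ r ∧ Icc l r ⊆ I ∧ Ph l + Ph (-r) + Ph a < 1 := by
  have hm : MeasurableSet I := hI.ordConnected.measurableSet
  obtain ⟨K, hKI, hK, hlt⟩ := hm.exists_lt_isCompact h
  have hne : K.Nonempty := by
    rw [nonempty_iff_ne_empty]
    rintro rfl
    simp at hlt
  obtain ⟨l, hl, hl'⟩ := hK.exists_isLeast hne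
  obtain ⟨r, hr, hr'⟩ := hK.exists_isGreatest hne
  refine ⟨l, r, hl' hr, hI.ordConnected.out (hKI hl) (hKI hr), ?_⟩
  have h1 : gm K ≤ gm (Icc l r) := measure_mono fun x hx => ⟨hl' hx, hr' hx⟩
  have h2 := hlt.trans_le h1
  rw [ENNReal.ofReal_lt_iff_lt_toReal (Ph_pos a).le (measure_ne_top _ _), ← measureReal_def,
    gm_real_Icc (hl' hr)] at h2
  rw [Ph_neg]
  linarith

lemma lt_of_Icc {I : Set ℝ} {l r a : ℝ} (hlr : l ≤ r) (hI : Icc l r ⊆ I)
    (h : Ph l + Ph (-r) + Ph a < 1) : ENNReal.ofReal (Ph a) < gm I := by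
  refine lt_of_lt_of_le ?_ (measure_mono hI)
  rw [ENNReal.ofReal_lt_iff_lt_toReal (Ph_pos a).le (measure_ne_top _ _), ← measureReal_def,
    gm_real_Icc hlr]
  rw [Ph_neg] at h
  linarith

lemma ehr1 {I0 I1 I : Set ℝ} (h0 : Convex ℝ I0) (h1 : Convex ℝ I1) (hI : Convex ℝ I)
    {s t : ℝ} (hs : 0 ≤ s) (ht : 0 ≤ t) (hst : s + t = 1)
    (hsub : ∀ x ∈ I0, ∀ y ∈ I1, s * x + t * y ∈ I) {a0 a1 : ℝ}
    (m0 : ENNReal.ofReal (Ph a0) < gm I0) (m1 : ENNReal.ofReal (Ph a1) < gm I1) :
    ENNReal.ofReal (Ph (s * a0 + t * a1)) < gm I := by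
  obtain ⟨l0, r0, hlr0, hs0, e0⟩ := exists_Icc h0 m0
  obtain ⟨l1, r1, hlr1, hs1, e1⟩ := exists_Icc h1 m1
  have hs' : s = 1 - t := by linarith
  refine lt_of_Icc (l := s * l0 + t * l1) (r := s * r0 + t * r1) (by gcongr) ?_ ?_
  · exact hI.ordConnected.out (hsub _ (hs0 ⟨le_rfl, hlr0⟩) _ (hs1 ⟨le_rfl, hlr1⟩))
      (hsub _ (hs0 ⟨hlr0, le_rfl⟩) _ (hs1 ⟨hlr1, le_rfl⟩))
  · have := convex3 (u := l1 - l0) (v := -r1 - -r0) (w := a1 - a0) (t := t) e0
      (by simpa using e1) ⟨ht, by linarith⟩
    have q1 : s * l0 + t * l1 = l0 + t * (l1 - l0) := by rw [hs']; ring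
    have q2 : -(s * r0 + t * r1) = -r0 + t * (-r1 - -r0) := by rw [hs']; ring
    have q3 : s * a0 + t * a1 = a0 + t * (a1 - a0) := by rw [hs']; ring
    rw [q1, q2, q3]
    exact this

lemma enlarge1 {I0 I : Set ℝ} (h0 : Convex ℝ I0) (hI : Convex ℝ I) {h : ℝ} (hh : 0 ≤ h)
    (hsub : ∀ x ∈ I0, x - h ∈ I ∧ x + h ∈ I) {a : ℝ}
    (m0 : ENNReal.ofReal (Ph a) < gm I0) : ENNReal.ofReal (Ph (a + h)) < gm I := by
  obtain ⟨l, r, hlr, hs, e⟩ := exists_Icc h0 m0
  refine lt_of_Icc (l := l - h) (r := r + h) (by linarith) ?_ ?_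
  · exact hI.ordConnected.out (hsub _ (hs ⟨le_rfl, hlr⟩)).1 (hsub _ (hs ⟨hlr, le_rfl⟩)).2
  · have := enlarge3 e hh
    convert this using 4
    ring

end

end Vale.Agent.P226
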