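import Vale.Agent.P226.Basic

open MeasureTheory ProbabilityTheory Set Filter Topology Real
open scoped RealInnerProductSpace

namespace Vale.Agent.P226

noncomputable section

variable {E : Type} [NormedAddCommGroup E] [InnerProductSpace ℝ E] [FiniteDimensional ℝ E]
  [MeasurableSpace E] [BorelSpace E]

lemma integrable_id_std : Integrable (fun x : E => x) (stdGaussian E) :=
  IsGaussian.integrable_id (μ := stdGaussian E)

lemma integrable_inner (v : E) : Integrable (fun x => ⟪v, x⟫) (stdGaussian E) :=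
  (innerSL ℝ v).integrable_comp integrable_id_std

lemma integral_inner_std (v : E) : ∫ x, ⟪v, x⟫ ∂stdGaussian E = 0 :=
  integral_strongDual_stdGaussian (innerSL ℝ v)

lemma setIntegral_inner (v : E) (A : Set E) :
    ∫ x in A, ⟪v, x⟫ ∂stdGaussian E = ⟪v, ∫ x in A, x ∂stdGaussian E⟫ :=
  integral_inner integrable_id_std.integrableOn v

lemma map_inner (v : E) :
    (stdGaussian E).map (fun x => ⟪v, x⟫) = gm.map (fun g => ‖v‖ * g) := by
  have h := IsGaussian.map_eq_gaussianReal (μ := stdGaussian E) (innerSL ℝ v)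
  rw [integral_strongDual_stdGaussian, variance_dual_stdGaussian, innerSL_apply_norm] at h
  rw [gm, gaussianReal_map_const_mul]
  refine h.trans ?_
  congr 1
  · simp
  · ext
    simp

lemma integral_comp_inner (v : E) {f : ℝ → ℝ} (hf : Continuous f) :
    ∫ x, f ⟪v, x⟫ ∂stdGaussian E = ∫ g, f (‖v‖ * g) ∂gm := by
  rw [← integral_map (φ := fun x => ⟪v, x⟫) (by fun_prop) hf.aestronglyMeasurable, map_inner,
    integral_map (by fun_prop) hf.aestronglyMeasurable]

lemma integral_abs_inner (v : E) : ∫ x, |⟪v, x⟫| ∂stdGaussian E = 2 * c0 * ‖v‖ := by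
  rw [integral_comp_inner v continuous_abs]
  simp_rw [abs_mul, abs_norm]
  rw [integral_const_mul, integral_abs_gm]
  ring

lemma integral_pos_inner {v : E} (hv : ‖v‖ = 1) (a : ℝ) :
    ∫ x, max (⟪v, x⟫ + a) 0 ∂stdGaussian E = KK a := by
  rw [integral_comp_inner v (f := fun y => max (y + a) 0) (by fun_prop), hv, ← integral_pos_part]
  simp

lemma integral_neg_std (f : E → ℝ) (hf : Continuous f) :
    ∫ x, f (-x) ∂stdGaussian E = ∫ x, f x ∂stdGaussian E := by
  have h := stdGaussian_map (LinearIsometryEquiv.neg ℝ (E := E))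
  conv_rhs => rw [← h]
  rw [integral_map (by fun_prop) hf.aestronglyMeasurable]
  rfl

lemma integrable_exp_inner (v : E) : Integrable (fun x => exp ⟪v, x⟫) (stdGaussian E) := by
  have h : Integrable exp ((stdGaussian E).map (fun x => ⟪v, x⟫)) := by
    rw [map_inner, integrable_map_measure (by fun_prop) (by fun_prop)]
    exact integrable_exp_mul_gaussianReal _
  exact (integrable_map_measure (g := exp) (f := fun x => ⟪v, x⟫) (by fun_prop) (by fun_prop)).1 h

open Complex in
lemma integral_cexp_inner (h t : E) :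
    ∫ y, cexp ((⟪h, y⟫ : ℝ) + (⟪y, t⟫ : ℝ) * I) ∂stdGaussian E =
      cexp ((‖h‖ ^ 2 - ‖t‖ ^ 2) / 2 + (⟪h, t⟫ : ℝ) * I) := by
  set b := stdOrthonormalBasis ℝ E
  rw [stdGaussian, integral_map (Measurable.aemeasurable (by fun_prop))
    (Measurable.aestronglyMeasurable (by fun_prop))]
  have e1 : ∀ x : Fin (Module.finrank ℝ E) → ℝ,
      cexp ((⟪h, ∑ i, x i • b i⟫ : ℝ) + (⟪∑ i, x i • b i, t⟫ : ℝ) * I) =
        ∏ i, cexp (((⟪h, b i⟫ : ℝ) + (⟪b i, t⟫ : ℝ) * I) * x i) := fun x => by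
    rw [← Complex.exp_sum, inner_sum, sum_inner]
    congr 1
    push_cast
    rw [Finset.sum_mul, ← Finset.sum_add_distrib]
    refine Finset.sum_congr rfl fun i _ => ?_
    rw [real_inner_smul_left, real_inner_smul_right]
    push_cast
    ring
  rw [integral_congr_ae (ae_of_all _ e1), integral_fintype_prod_eq_prod
    (f := fun i (x : ℝ) => cexp (((⟪h, b i⟫ : ℝ) + (⟪b i, t⟫ : ℝ) * I) * x))]
  have e2 : ∀ z : ℂ, ∫ x : ℝ, cexp (z * x) ∂gaussianReal 0 1 = cexp (z ^ 2 / 2) := fun z => by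
    have := complexMGF_id_gaussianReal (μ := 0) (v := 1) z
    simpa [complexMGF] using this
  simp_rw [e2]
  rw [← Complex.exp_sum]
  congr 1
  have s1 := b.sum_sq_inner_left h
  have s2 := b.sum_sq_inner_right t
  have s3 := b.sum_inner_mul_inner h t
  rw [← ofReal_pow, ← ofReal_pow, ← s1, ← s2, ← s3]
  push_cast
  rw [← Finset.sum_sub_distrib, Finset.sum_div, Finset.sum_mul, ← Finset.sum_add_distrib]
  refine Finset.sum_congr rfl fun i _ => ?_
  linear_combination ((⟪b i, t⟫ : ℝ) : ℂ) ^ 2 / 2 * I_sq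

lemma cameron_martin (h : E) : (stdGaussian E).map (· + h) =
    (stdGaussian E).withDensity fun y => ENNReal.ofReal (exp (⟪h, y⟫ - ‖h‖ ^ 2 / 2)) := by
  have hi : Integrable (fun y => exp (⟪h, y⟫ - ‖h‖ ^ 2 / 2)) (stdGaussian E) := by
    simp_rw [exp_sub]
    exact (integrable_exp_inner h).div_const _
  have := isFiniteMeasure_withDensity_ofReal hi.2
  refine Measure.ext_of_charFun (funext fun t => ?_)
  rw [charFun_map_add_const, charFun_stdGaussian, charFun_apply,
    integral_withDensity_eq_integral_toReal_smul (by fun_prop) (by simp)]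
  have e : ∀ y : E, (ENNReal.ofReal (exp (⟪h, y⟫ - ‖h‖ ^ 2 / 2))).toReal •
      Complex.exp ((⟪y, t⟫ : ℝ) * Complex.I) = Complex.exp (-(‖h‖ : ℂ) ^ 2 / 2) *
        Complex.exp ((⟪h, y⟫ : ℝ) + (⟪y, t⟫ : ℝ) * Complex.I) := fun y => by
    rw [ENNReal.toReal_ofReal (exp_pos _).le, Complex.real_smul, Complex.ofReal_exp,
      ← Complex.exp_add, ← Complex.exp_add]
    congr 1
    push_cast
    ring
  simp_rw [e]
  rw [integral_const_mul, integral_cexp_inner, ← Complex.exp_add, ← Complex.exp_add]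
  congr 1
  ring

lemma shift_lower (h : E) {A : Set E} (hA : MeasurableSet A) :
    exp (-‖h‖ ^ 2 / 2) * ((stdGaussian E).real A + ⟪h, ∫ x in A, x ∂stdGaussian E⟫) ≤
      (stdGaussian E).real {x | x + h ∈ A} := by
  have hi : Integrable (fun y => exp (⟪h, y⟫ - ‖h‖ ^ 2 / 2)) (stdGaussian E) := by
    simp_rw [exp_sub]
    exact (integrable_exp_inner h).div_const _
  have e1 : (stdGaussian E).real {x | x + h ∈ A} =
      ∫ y in A, exp (⟪h, y⟫ - ‖h‖ ^ 2 / 2) ∂stdGaussian E := by
    have : {x | x + h ∈ A} = (· + h) ⁻¹' A := rfl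
    rw [this, measureReal_def, ← Measure.map_apply (by fun_prop) hA, cameron_martin,
      withDensity_apply _ hA, ← ofReal_integral_eq_lintegral_ofReal hi.integrableOn
        (ae_of_all _ fun y => (exp_pos _).le), ENNReal.toReal_ofReal]
    exact integral_nonneg fun y => (exp_pos _).le
  rw [e1, ← setIntegral_inner]
  have e2 : (stdGaussian E).real A = ∫ _ in A, (1 : ℝ) ∂stdGaussian E := by simp
  have i1 : IntegrableOn (fun _ => (1 : ℝ)) A (stdGaussian E) := (integrable_const _).integrableOn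
  rw [e2, ← integral_add i1 (integrable_inner h).integrableOn, ← integral_const_mul]
  refine integral_mono ((i1.add (integrable_inner h).integrableOn).const_mul _) hi.integrableOn
    fun y => ?_
  simp only
  rw [sub_eq_neg_add, exp_add, neg_div]
  refine mul_le_mul_of_nonneg_left ?_ (exp_pos _).le
  linarith [add_one_le_exp ⟪h, y⟫]

lemma charFunDual_gm (L : StrongDual ℝ ℝ) :
    charFunDual gm L = Complex.exp (-((L 1 : ℝ) : ℂ) ^ 2 / 2) := by
  have h := charFun_gaussianReal (μ := 0) (v := 1) (L 1)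
  rw [charFun_apply_real] at h
  rw [charFunDual_apply]
  have : ∀ v : ℝ, Complex.exp (L v * Complex.I) = Complex.exp ((L 1 : ℝ) * v * Complex.I) :=
    fun v => by
      rw [← Complex.ofReal_mul, mul_comm (L 1), ← smul_eq_mul v, ← map_smul]
      simp
  rw [integral_congr_ae (ae_of_all _ this), h]
  congr 1
  simp
  ring

lemma measurePreserving_three {e0 e1 e2 : E} (n0 : ‖e0‖ = 1) (n1 : ‖e1‖ = 1) (n2 : ‖e2‖ = 1)
    (h01 : ⟪e0, e1⟫ = 0) (h02 : ⟪e0, e2⟫ = 0) (h12 : ⟪e1, e2⟫ = 0) :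
    MeasurePreserving (fun x => (⟪e0, x⟫, ⟪e1, x⟫, ⟪e2, x⟫)) (stdGaussian E)
      (gm.prod (gm.prod gm)) := by
  refine ⟨by fun_prop, ?_⟩
  let T : E →L[ℝ] ℝ × ℝ × ℝ := (innerSL ℝ e0).prod ((innerSL ℝ e1).prod (innerSL ℝ e2))
  change (stdGaussian E).map T = _
  refine Measure.ext_of_charFunDual (funext fun L => ?_)
  rw [charFunDual_map, charFunDual_stdGaussian, charFunDual_prod, charFunDual_prod,
    charFunDual_gm, charFunDual_gm, charFunDual_gm, ← Complex.exp_add, ← Complex.exp_add]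
  have e : L.comp T = innerSL ℝ (L (1, 0, 0) • e0 + L (0, 1, 0) • e1 + L (0, 0, 1) • e2) := by
    ext x
    have : T x = ⟪e0, x⟫ • ((1 : ℝ), (0 : ℝ), (0 : ℝ)) + ⟪e1, x⟫ • (0, 1, 0) +
        ⟪e2, x⟫ • (0, 0, 1) := by
      simp [T]
    rw [ContinuousLinearMap.comp_apply, this, map_add, map_add, map_smul, map_smul, map_smul]
    simp only [smul_eq_mul, innerSL_apply_apply, inner_add_left, real_inner_smul_left]
    ring
  have e' : ‖L.comp T‖ ^ 2 = L (1, 0, 0) ^ 2 + L (0, 1, 0) ^ 2 + L (0, 0, 1) ^ 2 := by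
    rw [e, innerSL_apply_norm, ← real_inner_self_eq_norm_sq]
    have q0 : ⟪e0, e0⟫ = (1 : ℝ) := by rw [real_inner_self_eq_norm_sq, n0]; norm_num
    have q1 : ⟪e1, e1⟫ = (1 : ℝ) := by rw [real_inner_self_eq_norm_sq, n1]; norm_num
    have q2 : ⟪e2, e2⟫ = (1 : ℝ) := by rw [real_inner_self_eq_norm_sq, n2]; norm_num
    simp only [inner_add_left, inner_add_right, real_inner_smul_left, real_inner_smul_right,
      q0, q1, q2, h01, h02, h12, real_inner_comm e0 e1,
      real_inner_comm e0 e2, real_inner_comm e1 e2]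
    ring
  congr 1
  rw [← Complex.ofReal_pow, e']
  simp only [ContinuousLinearMap.comp_apply, ContinuousLinearMap.inl_apply,
    ContinuousLinearMap.inr_apply]
  push_cast
  have : ((0 : ℝ × ℝ)) = ((0 : ℝ), (0 : ℝ)) := rfl
  rw [this]
  ring

end

end Vale.Agent.P226
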