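import Vale.Agent.P226.Basic

open MeasureTheory ProbabilityTheory Set Filter Topology Real

namespace Vale.Agent.P226

noncomputable section

def E7 (t : ℝ) : ℝ :=
  1 - t ^ 2 / 2 + t ^ 4 / 8 - t ^ 6 / 48 + t ^ 8 / 384 - t ^ 10 / 3840 + t ^ 12 / 46080

def I7 (s : ℝ) : ℝ :=
  s - s ^ 3 / 6 + s ^ 5 / 40 - s ^ 7 / 336 + s ^ 9 / 3456 - s ^ 11 / 42240 + s ^ 13 / 599040

lemma exp_enc {t : ℝ} (h0 : 0 ≤ t) (h1 : t ≤ 1.4) :
    E7 t - t ^ 14 / 564480 ≤ exp (-t ^ 2 / 2) ∧ exp (-t ^ 2 / 2) ≤ E7 t + t ^ 14 / 564480 := by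
  have hx : |(-t ^ 2 / 2)| ≤ 1 := by
    rw [abs_le]
    constructor <;> nlinarith
  have h := Real.exp_bound hx (n := 7) (by norm_num)
  have e1 : ∑ m ∈ Finset.range 7, (-t ^ 2 / 2) ^ m / (m.factorial : ℝ) = E7 t := by
    simp only [Finset.sum_range_succ, Finset.sum_range_zero, Nat.factorial, E7]
    push_cast
    ring
  have e2 : |(-t ^ 2 / 2)| ^ 7 * (((7 : ℕ).succ : ℝ) / (((7 : ℕ).factorial : ℝ) * (7 : ℕ))) =
      t ^ 14 / 564480 := by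
    rw [abs_of_nonpos (by nlinarith)]
    simp only [Nat.factorial]
    push_cast
    ring
  rw [e1, e2, abs_le] at h
  constructor <;> linarith [h.1, h.2]

lemma hasDerivAt_I7 (σ t : ℝ) :
    HasDerivAt (fun s => c0 * (I7 s + σ * (s ^ 15 / 8467200)))
      (c0 * (E7 t + σ * (t ^ 14 / 564480))) t := by
  have h := fun n => hasDerivAt_pow (𝕜 := ℝ) n t
  have := ((((((((hasDerivAt_id t).sub ((h 3).div_const 6)).add ((h 5).div_const 40)).sub
    ((h 7).div_const 336)).add ((h 9).div_const 3456)).sub ((h 11).div_const 42240)).add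
    ((h 13).div_const 599040)).add (((h 15).div_const 8467200).const_mul σ)).const_mul c0
  refine this.congr_deriv ?_
  unfold E7
  push_cast
  ring

lemma Ph_enc {s : ℝ} (h0 : 0 ≤ s) (h1 : s ≤ 1.4) :
    1 / 2 - c0 * (I7 s + s ^ 15 / 8467200) ≤ Ph (-s) ∧
      Ph (-s) ≤ 1 / 2 - c0 * (I7 s - s ^ 15 / 8467200) := by
  have e := Ph_sub 0 s
  have hc : ∀ σ : ℝ, Continuous fun t => c0 * (E7 t + σ * (t ^ 14 / 564480)) := fun σ => by
    unfold E7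
    fun_prop
  have hI : ∀ σ : ℝ, ∫ t in (0 : ℝ)..s, c0 * (E7 t + σ * (t ^ 14 / 564480)) =
      c0 * (I7 s + σ * (s ^ 15 / 8467200)) := fun σ => by
    rw [intervalIntegral.integral_eq_sub_of_hasDerivAt (fun t _ => hasDerivAt_I7 σ t)
      ((hc σ).intervalIntegrable _ _)]
    simp [I7]
  have u1 : ∫ t in (0 : ℝ)..s, ph t ≤ ∫ t in (0 : ℝ)..s, c0 * (E7 t + 1 * (t ^ 14 / 564480)) :=
    intervalIntegral.integral_mono_on h0 (continuous_ph.intervalIntegrable _ _)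
      ((hc 1).intervalIntegrable _ _) fun t ht => mul_le_mul_of_nonneg_left
        (by linarith [(exp_enc ht.1 (ht.2.trans h1)).2]) c0_pos.le
  have u2 : ∫ t in (0 : ℝ)..s, c0 * (E7 t + (-1) * (t ^ 14 / 564480)) ≤ ∫ t in (0 : ℝ)..s, ph t :=
    intervalIntegral.integral_mono_on h0 ((hc (-1)).intervalIntegrable _ _)
      (continuous_ph.intervalIntegrable _ _) fun t ht => mul_le_mul_of_nonneg_left
        (by linarith [(exp_enc ht.1 (ht.2.trans h1)).1]) c0_pos.le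
  rw [hI, ← e, Ph_zero] at u1 u2
  rw [Ph_neg]
  constructor <;> linarith

structure Enc (s fl fh Pl Pu : ℝ) : Prop where
  fl : fl ≤ ph s
  fh : ph s ≤ fh
  Pl : Pl ≤ Ph (-s)
  Pu : Ph (-s) ≤ Pu

lemma enc_of {s fl fh Pl Pu : ℝ} (h0 : 0 ≤ s) (h1 : s ≤ 1.4)
    (a0 : 0 ≤ E7 s - s ^ 14 / 564480) (a1 : fl ≤ 0.398942 * (E7 s - s ^ 14 / 564480))
    (a2 : 0.398943 * (E7 s + s ^ 14 / 564480) ≤ fh)
    (b0 : 0 ≤ I7 s + s ^ 15 / 8467200) (b1 : Pl ≤ 1 / 2 - 0.398943 * (I7 s + s ^ 15 / 8467200))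
    (b2 : 0 ≤ I7 s - s ^ 15 / 8467200) (b3 : 1 / 2 - 0.398942 * (I7 s - s ^ 15 / 8467200) ≤ Pu) :
    Enc s fl fh Pl Pu := by
  obtain ⟨e1, e2⟩ := exp_enc h0 h1
  obtain ⟨p1, p2⟩ := Ph_enc h0 h1
  refine ⟨a1.trans (mul_le_mul c0_lo e1 a0 c0_pos.le),
    le_trans (mul_le_mul c0_hi e2 (exp_pos _).le (by norm_num)) a2, ?_, ?_⟩
  · linarith [mul_le_mul_of_nonneg_right c0_hi b0]
  · linarith [mul_le_mul_of_nonneg_right c0_lo b2]

lemma hasDerivAt_Jg (γ y : ℝ) : HasDerivAt (fun y => ph y * KK y - γ * Ph y)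
    (ph y * (Ph y - y * KK y - γ)) y := by
  have := ((hasDerivAt_ph y).mul (hasDerivAt_KK y)).sub ((hasDerivAt_Ph y).const_mul γ)
  exact this.congr_deriv (by ring)

lemma J1_mono : MonotoneOn (fun y => Ph y - y * KK y) (Iic 0) := by
  have hd : ∀ y, HasDerivAt (fun y => Ph y - y * KK y) (-2 * y * Ph y) y := fun y => by
    have := (hasDerivAt_Ph y).sub ((hasDerivAt_id y).mul (hasDerivAt_KK y))
    refine this.congr_deriv ?_
    simp only [KK, id]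
    ring
  refine monotoneOn_of_deriv_nonneg (convex_Iic 0) (by fun_prop)
    (fun y _ => (hd y).differentiableAt.differentiableWithinAt) fun y hy => ?_
  rw [interior_Iic] at hy
  rw [(hd y).deriv]
  have := Ph_pos y
  have : y < 0 := hy
  nlinarith

lemma Jg_down {γ x1 x : ℝ} (h1 : x1 ≤ x) (hx : x ≤ 0) (h : Ph x - x * KK x ≤ γ) :
    ph x * KK x - γ * Ph x ≤ ph x1 * KK x1 - γ * Ph x1 := by
  have : AntitoneOn (fun y => ph y * KK y - γ * Ph y) (Iic x) := by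
    refine antitoneOn_of_deriv_nonpos (convex_Iic x) (by fun_prop)
      (fun y _ => (hasDerivAt_Jg γ y).differentiableAt.differentiableWithinAt) fun y hy => ?_
    rw [interior_Iic] at hy
    rw [(hasDerivAt_Jg γ y).deriv]
    have hy' : y ≤ x := le_of_lt hy
    have := J1_mono (show y ∈ Iic 0 from hy'.trans hx) (show x ∈ Iic 0 from hx) hy'
    exact mul_nonpos_of_nonneg_of_nonpos (ph_pos y).le (by simp only at this; linarith)
  exact this h1 (le_refl x) h1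

lemma Jg_up {γ x2 x : ℝ} (h1 : x ≤ x2) (hx : x2 ≤ 0) (h : γ ≤ Ph x - x * KK x) :
    ph x * KK x - γ * Ph x ≤ ph x2 * KK x2 - γ * Ph x2 := by
  have : MonotoneOn (fun y => ph y * KK y - γ * Ph y) (Icc x x2) := by
    refine monotoneOn_of_deriv_nonneg (convex_Icc x x2) (by fun_prop)
      (fun y _ => (hasDerivAt_Jg γ y).differentiableAt.differentiableWithinAt) fun y hy => ?_
    rw [interior_Icc] at hy
    rw [(hasDerivAt_Jg γ y).deriv]
    have := J1_mono (show x ∈ Iic 0 from h1.trans hx) (show y ∈ Iic 0 from hy.2.le.trans hx)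
      hy.1.le
    exact mul_nonneg (ph_pos y).le (by simp only at this; linarith)
  exact this ⟨le_refl x, h1⟩ ⟨h1, le_refl x2⟩ h1

lemma Enc.Jg {s fl fh Pl Pu γ : ℝ} (h : Enc s fl fh Pl Pu) (hs : 0 ≤ s)
    (h0 : 0 ≤ s * fl + γ) :
    ph (-s) * KK (-s) - γ * Ph (-s) ≤ fh ^ 2 - (s * fl + γ) * Pl := by
  have e : ph (-s) * KK (-s) - γ * Ph (-s) = ph s ^ 2 - (s * ph s + γ) * Ph (-s) := by
    unfold KK
    rw [ph_neg]
    ring
  rw [e]
  have a1 : ph s ^ 2 ≤ fh ^ 2 := pow_le_pow_left₀ (ph_pos s).le h.fh 2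
  have a2 : (s * fl + γ) * Pl ≤ (s * fl + γ) * Ph (-s) := mul_le_mul_of_nonneg_left h.Pl h0
  have a3 : (s * fl + γ) * Ph (-s) ≤ (s * ph s + γ) * Ph (-s) :=
    mul_le_mul_of_nonneg_right (by linarith [mul_le_mul_of_nonneg_left h.fl hs]) (Ph_pos _).le
  linarith

lemma piece {s1 fl1 fh1 Pl1 Pu1 s2 fl2 fh2 Pl2 Pu2 α γ x : ℝ} (e1 : Enc s1 fl1 fh1 Pl1 Pu1)
    (e2 : Enc s2 fl2 fh2 Pl2 Pu2) (h1 : -s1 ≤ x) (h2 : x ≤ -s2) (hs : 0 ≤ s2)
    (a1 : 0 ≤ s1 * fl1 + γ) (a2 : 0 ≤ s2 * fl2 + γ)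
    (b1 : fh1 ^ 2 - (s1 * fl1 + γ) * Pl1 ≤ α) (b2 : fh2 ^ 2 - (s2 * fl2 + γ) * Pl2 ≤ α) :
    Pl1 ≤ Ph x ∧ Ph x ≤ Pu2 ∧ ph x * KK x ≤ α + γ * Ph x := by
  refine ⟨e1.Pl.trans (strictMono_Ph.monotone h1), (strictMono_Ph.monotone h2).trans e2.Pu, ?_⟩
  rcases le_total (Ph x - x * KK x) γ with h | h
  · linarith [Jg_down h1 (by linarith) h, e1.Jg (by linarith) a1]
  · linarith [Jg_up h2 (by linarith) h, e2.Jg hs a2]

lemma piece0 {s2 fl2 fh2 Pl2 Pu2 γ x : ℝ}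
    (e2 : Enc s2 fl2 fh2 Pl2 Pu2) (h2 : x ≤ -s2) (hs : 0 ≤ s2)
    (a2 : 0 ≤ s2 * fl2 + γ) (b2 : fh2 ^ 2 - (s2 * fl2 + γ) * Pl2 ≤ 0) :
    Ph x ≤ Pu2 ∧ ph x * KK x ≤ γ * Ph x := by
  refine ⟨(strictMono_Ph.monotone h2).trans e2.Pu, ?_⟩
  rcases le_total (Ph x - x * KK x) γ with h | h
  · have ht : Tendsto (fun y => ph y * KK y - γ * Ph y) atBot (𝓝 0) := by
      simpa using (tendsto_ph_atBot.mul tendsto_KK_atBot).sub (tendsto_Ph_atBot.const_mul γ)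
    have : ph x * KK x - γ * Ph x ≤ 0 := by
      refine ge_of_tendsto ht ?_
      filter_upwards [eventually_le_atBot x] with y hy
      exact Jg_down hy (by linarith) h
    linarith
  · linarith [Jg_up h2 (by linarith) h, e2.Jg hs a2]

lemma tangent {x0 x : ℝ} (h0 : x0 ∈ Icc (-1 : ℝ) 0) (hx : x ∈ Icc (-1 : ℝ) 0) :
    ph x ^ 2 ≤ ph x0 ^ 2 - 2 * x0 * ph x0 * (Ph x - Ph x0) := by
  have hψ : MonotoneOn (fun y => y * ph y) (Icc (-1 : ℝ) 0) := by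
    have hd : ∀ y, HasDerivAt (fun y => y * ph y) (ph y * (1 - y ^ 2)) y := fun y =>
      ((hasDerivAt_id y).mul (hasDerivAt_ph y)).congr_deriv (by simp only [id]; ring)
    refine monotoneOn_of_deriv_nonneg (convex_Icc _ _) (by fun_prop)
      (fun y _ => (hd y).differentiableAt.differentiableWithinAt) fun y hy => ?_
    rw [interior_Icc] at hy
    rw [(hd y).deriv]
    exact mul_nonneg (ph_pos y).le (by nlinarith [hy.1, hy.2])
  have hd : ∀ y, HasDerivAt (fun y => -2 * x0 * ph x0 * Ph y - ph y ^ 2)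
      (2 * ph y * (y * ph y - x0 * ph x0)) y := fun y =>
    (((hasDerivAt_Ph y).const_mul (-2 * x0 * ph x0)).sub ((hasDerivAt_ph y).pow 2)).congr_deriv
      (by push_cast; ring)
  rcases le_total x0 x with h | h
  · have : MonotoneOn (fun y => -2 * x0 * ph x0 * Ph y - ph y ^ 2) (Icc x0 x) := by
      refine monotoneOn_of_deriv_nonneg (convex_Icc _ _) (by fun_prop)
        (fun y _ => (hd y).differentiableAt.differentiableWithinAt) fun y hy => ?_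
      rw [interior_Icc] at hy
      rw [(hd y).deriv]
      have := hψ h0 ⟨h0.1.trans hy.1.le, hy.2.le.trans hx.2⟩ hy.1.le
      exact mul_nonneg (by linarith [ph_pos y]) (by simp only at this; linarith)
    have := this ⟨le_refl _, h⟩ ⟨h, le_refl _⟩ h
    simp only at this
    linarith
  · have : AntitoneOn (fun y => -2 * x0 * ph x0 * Ph y - ph y ^ 2) (Icc x x0) := by
      refine antitoneOn_of_deriv_nonpos (convex_Icc _ _) (by fun_prop)
        (fun y _ => (hd y).differentiableAt.differentiableWithinAt) fun y hy => ?_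
      rw [interior_Icc] at hy
      rw [(hd y).deriv]
      have := hψ ⟨hx.1.trans hy.1.le, hy.2.le.trans h0.2⟩ h0 hy.2.le
      exact mul_nonpos_of_nonneg_of_nonpos (by linarith [ph_pos y]) (by simp only at this; linarith)
    have := this ⟨le_refl _, h⟩ ⟨h, le_refl _⟩ h
    simp only at this
    linarith

structure Cell (r a p : ℝ) : Prop where
  a0 : 0 ≤ a
  p0 : 0 ≤ p
  a1 : a ≤ 0.15916
  r0 : 0 ≤ r
  alt : 1 / 2 ≤ p ∨ ∃ x, x ≤ 0 ∧ p = Ph x ∧ a ≤ ph x ^ 2 ∧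
    a ≤ 2 * (ph x * KK x) - r * (ph x * KK x) ^ 2

lemma Cell.mono {r r' a p : ℝ} (h : Cell r a p) (h0 : 0 ≤ r') (h1 : r' ≤ r) : Cell r' a p := by
  refine ⟨h.a0, h.p0, h.a1, h0, h.alt.imp id ?_⟩
  rintro ⟨x, a, b, c, d⟩
  exact ⟨x, a, b, c, by nlinarith [sq_nonneg (ph x * KK x)]⟩

lemma Cell.sq {r a p : ℝ} (h : Cell r a p) : a ≤ 2 * p ^ 2 := by
  rcases h.alt with h1 | ⟨x, -, rfl, -, hJ⟩
  · nlinarith [h.a1]
  · nlinarith [J_le_sq x, mul_nonneg h.r0 (sq_nonneg (ph x * KK x))]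

lemma enc122 : Enc 1.22 0.18954 0.189565 0.11123 0.111233 :=
  enc_of (by norm_num) (by norm_num) (by norm_num [E7]) (by norm_num [E7]) (by norm_num [E7])
    (by norm_num [I7]) (by norm_num [I7]) (by norm_num [I7]) (by norm_num [I7])

lemma enc110 : Enc 1.1 0.217851 0.217858 0.135665 0.135667 :=
  enc_of (by norm_num) (by norm_num) (by norm_num [E7]) (by norm_num [E7]) (by norm_num [E7])
    (by norm_num [I7]) (by norm_num [I7]) (by norm_num [I7]) (by norm_num [I7])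

lemma enc100 : Enc 1.0 0.24197 0.241973 0.158654 0.158656 :=
  enc_of (by norm_num) (by norm_num) (by norm_num [E7]) (by norm_num [E7]) (by norm_num [E7])
    (by norm_num [I7]) (by norm_num [I7]) (by norm_num [I7]) (by norm_num [I7])

lemma enc90 : Enc 0.9 0.266085 0.266087 0.184059 0.184061 :=
  enc_of (by norm_num) (by norm_num) (by norm_num [E7]) (by norm_num [E7]) (by norm_num [E7])
    (by norm_num [I7]) (by norm_num [I7]) (by norm_num [I7]) (by norm_num [I7])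

lemma enc80 : Enc 0.8 0.289691 0.289693 0.211854 0.211856 :=
  enc_of (by norm_num) (by norm_num) (by norm_num [E7]) (by norm_num [E7]) (by norm_num [E7])
    (by norm_num [I7]) (by norm_num [I7]) (by norm_num [I7]) (by norm_num [I7])

lemma enc70 : Enc 0.7 0.312253 0.312255 0.241963 0.241964 :=
  enc_of (by norm_num) (by norm_num) (by norm_num [E7]) (by norm_num [E7]) (by norm_num [E7])
    (by norm_num [I7]) (by norm_num [I7]) (by norm_num [I7]) (by norm_num [I7])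

lemma enc62 : Enc 0.62 0.329183 0.329185 0.267628 0.26763 :=
  enc_of (by norm_num) (by norm_num) (by norm_num [E7]) (by norm_num [E7]) (by norm_num [E7])
    (by norm_num [I7]) (by norm_num [I7]) (by norm_num [I7]) (by norm_num [I7])

lemma enc55 : Enc 0.55 0.342943 0.342945 0.291159 0.29116 :=
  enc_of (by norm_num) (by norm_num) (by norm_num [E7]) (by norm_num [E7]) (by norm_num [E7])
    (by norm_num [I7]) (by norm_num [I7]) (by norm_num [I7]) (by norm_num [I7])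

lemma enc48 : Enc 0.48 0.355532 0.355534 0.315613 0.315614 :=
  enc_of (by norm_num) (by norm_num) (by norm_num [E7]) (by norm_num [E7]) (by norm_num [E7])
    (by norm_num [I7]) (by norm_num [I7]) (by norm_num [I7]) (by norm_num [I7])

lemma enc42 : Enc 0.42 0.365262 0.365264 0.337242 0.337243 :=
  enc_of (by norm_num) (by norm_num) (by norm_num [E7]) (by norm_num [E7]) (by norm_num [E7])
    (by norm_num [I7]) (by norm_num [I7]) (by norm_num [I7]) (by norm_num [I7])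

lemma enc36 : Enc 0.36 0.37391 0.373912 0.359423 0.359424 :=
  enc_of (by norm_num) (by norm_num) (by norm_num [E7]) (by norm_num [E7]) (by norm_num [E7])
    (by norm_num [I7]) (by norm_num [I7]) (by norm_num [I7]) (by norm_num [I7])

lemma cellJ (x : ℝ) :
    (Ph x ≤ 0.111233 ∧ ph x * KK x ≤ 0.0919 * Ph x) ∨
    (0.11123 ≤ Ph x ∧ Ph x ≤ 0.135667 ∧ ph x * KK x ≤ -0.01134 + 0.1938 * Ph x) ∨
    (0.135665 ≤ Ph x ∧ Ph x ≤ 0.158656 ∧ ph x * KK x ≤ -0.015789 + 0.2266 * Ph x) ∨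
    (0.158654 ≤ Ph x ∧ Ph x ≤ 0.184061 ∧ ph x * KK x ≤ -0.020817 + 0.2583 * Ph x) ∨
    (0.184059 ≤ Ph x ∧ Ph x ≤ 0.211856 ∧ ph x * KK x ≤ -0.026909 + 0.2914 * Ph x) ∨
    (0.211854 ≤ Ph x ∧ Ph x ≤ 0.241964 ∧ ph x * KK x ≤ -0.034046 + 0.3251 * Ph x) ∨
    (0.241963 ≤ Ph x ∧ Ph x ≤ 0.26763 ∧ ph x * KK x ≤ -0.0414 + 0.3555 * Ph x) ∨
    (0.267628 ≤ Ph x ∧ Ph x ≤ 0.29116 ∧ ph x * KK x ≤ -0.048063 + 0.3804 * Ph x) ∨
    (0.291159 ≤ Ph x ∧ Ph x ≤ 0.315614 ∧ ph x * KK x ≤ -0.054585 + 0.4028 * Ph x) ∨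
    (0.315613 ≤ Ph x ∧ Ph x ≤ 0.337243 ∧ ph x * KK x ≤ -0.060769 + 0.4224 * Ph x) ∨
    0.337242 ≤ Ph x := by
  rcases le_total x (-1.22) with h | h0
  · exact Or.inl (piece0 enc122 h (by norm_num) (by norm_num) (by norm_num))
  right
  rcases le_total x (-1.1) with h | h1
  · exact Or.inl (piece enc122 enc110 h0 h (by norm_num) (by norm_num) (by norm_num)
      (by norm_num) (by norm_num))
  right
  rcases le_total x (-1.0) with h | h2
  · exact Or.inl (piece enc110 enc100 h1 h (by norm_num) (by norm_num) (by norm_num)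
      (by norm_num) (by norm_num))
  right
  rcases le_total x (-0.9) with h | h3
  · exact Or.inl (piece enc100 enc90 h2 h (by norm_num) (by norm_num) (by norm_num)
      (by norm_num) (by norm_num))
  right
  rcases le_total x (-0.8) with h | h4
  · exact Or.inl (piece enc90 enc80 h3 h (by norm_num) (by norm_num) (by norm_num)
      (by norm_num) (by norm_num))
  right
  rcases le_total x (-0.7) with h | h5
  · exact Or.inl (piece enc80 enc70 h4 h (by norm_num) (by norm_num) (by norm_num)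
      (by norm_num) (by norm_num))
  right
  rcases le_total x (-0.62) with h | h6
  · exact Or.inl (piece enc70 enc62 h5 h (by norm_num) (by norm_num) (by norm_num)
      (by norm_num) (by norm_num))
  right
  rcases le_total x (-0.55) with h | h7
  · exact Or.inl (piece enc62 enc55 h6 h (by norm_num) (by norm_num) (by norm_num)
      (by norm_num) (by norm_num))
  right
  rcases le_total x (-0.48) with h | h8
  · exact Or.inl (piece enc55 enc48 h7 h (by norm_num) (by norm_num) (by norm_num)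
      (by norm_num) (by norm_num))
  right
  rcases le_total x (-0.42) with h | h9
  · exact Or.inl (piece enc48 enc42 h8 h (by norm_num) (by norm_num) (by norm_num)
      (by norm_num) (by norm_num))
  right
  exact enc42.Pl.trans (strictMono_Ph.monotone h9)

lemma Cell.cases1 {a p : ℝ} (h : Cell 2.7925 a p) :
    (p ≤ 0.111233 ∧ a ≤ 0.1838 * p) ∨
    (0.11123 ≤ p ∧ p ≤ 0.135667 ∧ a ≤ -0.021451 + 0.374071 * p) ∨
    (0.135665 ≤ p ∧ p ≤ 0.158656 ∧ a ≤ -0.029179 + 0.431053 * p) ∨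
    (0.158654 ≤ p ∧ p ≤ 0.184061 ∧ a ≤ -0.037384 + 0.482844 * p) ∨
    (0.184059 ≤ p ∧ p ≤ 0.211856 ∧ a ≤ -0.046572 + 0.532837 * p) ∨
    (0.211854 ≤ p ∧ p ≤ 0.241964 ∧ a ≤ -0.056141 + 0.578118 * p) ∨
    (0.241963 ≤ p ∧ p ≤ 0.26763 ∧ a ≤ -0.064714 + 0.613514 * p) ∨
    (0.267628 ≤ p ∧ p ≤ 0.29116 ∧ a ≤ -0.071044 + 0.637153 * p) ∨
    (0.291159 ≤ p ∧ p ≤ 0.315614 ∧ a ≤ -0.0758 + 0.653525 * p) ∨
    (0.315613 ≤ p ∧ p ≤ 0.337243 ∧ a ≤ -0.07877 + 0.662914 * p) ∨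
    0.337242 ≤ p := by
  rcases h.alt with h | ⟨x, -, rfl, -, hJ⟩
  · iterate 10 right
    linarith
  rcases cellJ x with h | h | h | h | h | h | h | h | h | h | h
  · left
    exact ⟨h.1, by nlinarith [h.2, sq_nonneg (ph x * KK x)]⟩
  · iterate 1 right
    left
    exact ⟨h.1, h.2.1, by nlinarith [h.2.2, sq_nonneg (ph x * KK x - 0.0125), Ph_pos x]⟩
  · iterate 2 right
    left
    exact ⟨h.1, h.2.1, by nlinarith [h.2.2, sq_nonneg (ph x * KK x - 0.0175), Ph_pos x]⟩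
  · iterate 3 right
    left
    exact ⟨h.1, h.2.1, by nlinarith [h.2.2, sq_nonneg (ph x * KK x - 0.0234), Ph_pos x]⟩
  · iterate 4 right
    left
    exact ⟨h.1, h.2.1, by nlinarith [h.2.2, sq_nonneg (ph x * KK x - 0.0307), Ph_pos x]⟩
  · iterate 5 right
    left
    exact ⟨h.1, h.2.1, by nlinarith [h.2.2, sq_nonneg (ph x * KK x - 0.0397), Ph_pos x]⟩
  · iterate 6 right
    left
    exact ⟨h.1, h.2.1, by nlinarith [h.2.2, sq_nonneg (ph x * KK x - 0.0491), Ph_pos x]⟩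
  · iterate 7 right
    left
    exact ⟨h.1, h.2.1, by nlinarith [h.2.2, sq_nonneg (ph x * KK x - 0.0582), Ph_pos x]⟩
  · iterate 8 right
    left
    exact ⟨h.1, h.2.1, by nlinarith [h.2.2, sq_nonneg (ph x * KK x - 0.0676), Ph_pos x]⟩
  · iterate 9 right
    left
    exact ⟨h.1, h.2.1, by nlinarith [h.2.2, sq_nonneg (ph x * KK x - 0.0771), Ph_pos x]⟩
  · iterate 10 right
    exact h

lemma Cell.cases43 {a p : ℝ} (h : Cell 3.7233 a p) :
    (p ≤ 0.111233 ∧ a ≤ 0.1838 * p) ∨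
    (0.11123 ≤ p ∧ p ≤ 0.135667 ∧ a ≤ -0.021042 + 0.369561 * p) ∨
    (0.135665 ≤ p ∧ p ≤ 0.158656 ∧ a ≤ -0.02838 + 0.423671 * p) ∨
    (0.158654 ≤ p ∧ p ≤ 0.184061 ∧ a ≤ -0.035967 + 0.471592 * p) ∨
    (0.184059 ≤ p ∧ p ≤ 0.211856 ∧ a ≤ -0.044157 + 0.516183 * p) ∨
    (0.211854 ≤ p ∧ p ≤ 0.241964 ∧ a ≤ -0.052158 + 0.554091 * p) ∨
    (0.241963 ≤ p ∧ p ≤ 0.26763 ∧ a ≤ -0.058686 + 0.58102 * p) ∨
    (0.267628 ≤ p ∧ p ≤ 0.29116 ∧ a ≤ -0.062684 + 0.595938 * p) ∨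
    (0.291159 ≤ p ∧ p ≤ 0.315614 ∧ a ≤ -0.064677 + 0.602835 * p) ∨
    (0.315613 ≤ p ∧ p ≤ 0.337243 ∧ a ≤ -0.064515 + 0.602287 * p) ∨
    0.337242 ≤ p := by
  rcases h.alt with h | ⟨x, -, rfl, -, hJ⟩
  · iterate 10 right
    linarith
  rcases cellJ x with h | h | h | h | h | h | h | h | h | h | h
  · left
    exact ⟨h.1, by nlinarith [h.2, sq_nonneg (ph x * KK x)]⟩
  · iterate 1 right
    left
    exact ⟨h.1, h.2.1, by nlinarith [h.2.2, sq_nonneg (ph x * KK x - 0.0125), Ph_pos x]⟩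
  · iterate 2 right
    left
    exact ⟨h.1, h.2.1, by nlinarith [h.2.2, sq_nonneg (ph x * KK x - 0.0175), Ph_pos x]⟩
  · iterate 3 right
    left
    exact ⟨h.1, h.2.1, by nlinarith [h.2.2, sq_nonneg (ph x * KK x - 0.0234), Ph_pos x]⟩
  · iterate 4 right
    left
    exact ⟨h.1, h.2.1, by nlinarith [h.2.2, sq_nonneg (ph x * KK x - 0.0307), Ph_pos x]⟩
  · iterate 5 right
    left
    exact ⟨h.1, h.2.1, by nlinarith [h.2.2, sq_nonneg (ph x * KK x - 0.0397), Ph_pos x]⟩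
  · iterate 6 right
    left
    exact ⟨h.1, h.2.1, by nlinarith [h.2.2, sq_nonneg (ph x * KK x - 0.0491), Ph_pos x]⟩
  · iterate 7 right
    left
    exact ⟨h.1, h.2.1, by nlinarith [h.2.2, sq_nonneg (ph x * KK x - 0.0582), Ph_pos x]⟩
  · iterate 8 right
    left
    exact ⟨h.1, h.2.1, by nlinarith [h.2.2, sq_nonneg (ph x * KK x - 0.0676), Ph_pos x]⟩
  · iterate 9 right
    left
    exact ⟨h.1, h.2.1, by nlinarith [h.2.2, sq_nonneg (ph x * KK x - 0.0771), Ph_pos x]⟩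
  · iterate 10 right
    exact h

lemma Cell.tan {r a p : ℝ} (h : Cell r a p) : a ≤ 0.043049 + 0.269217 * p := by
  have hsq := h.sq
  rcases h.alt with h1 | ⟨x, hx, rfl, h1, -⟩
  · linarith [h.a1]
  rcases le_total x (-1) with h2 | h2
  · have h3 : Ph x ≤ 0.158656 := (strictMono_Ph.monotone (by linarith)).trans enc100.Pu
    nlinarith [Ph_pos x]
  · have := tangent (x0 := -0.36) (by norm_num) ⟨h2, hx⟩
    rw [ph_neg] at this
    have a1 : ph 0.36 ^ 2 ≤ 0.373912 ^ 2 := pow_le_pow_left₀ (ph_pos _).le enc36.fh 2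
    have a2 : ph 0.36 * Ph x ≤ 0.373912 * Ph x :=
      mul_le_mul_of_nonneg_right enc36.fh (Ph_pos x).le
    have a3 : 0.37391 * 0.359423 ≤ ph 0.36 * Ph (-0.36) :=
      mul_le_mul enc36.fl enc36.Pl (by norm_num) (ph_pos _).le
    nlinarith [Ph_pos x]

lemma Cell.tan2 {r a p : ℝ} (h : Cell r a p) : a ≤ 0.029946 + 0.306822 * p := by
  have hsq := h.sq
  rcases h.alt with h1 | ⟨x, hx, rfl, h1, -⟩
  · linarith [h.a1]
  rcases le_total x (-1) with h2 | h2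
  · have h3 : Ph x ≤ 0.158656 := (strictMono_Ph.monotone (by linarith)).trans enc100.Pu
    nlinarith [Ph_pos x]
  · have := tangent (x0 := -0.42) (by norm_num) ⟨h2, hx⟩
    rw [ph_neg] at this
    have a1 : ph 0.42 ^ 2 ≤ 0.365264 ^ 2 := pow_le_pow_left₀ (ph_pos _).le enc42.fh 2
    have a2 : ph 0.42 * Ph x ≤ 0.365264 * Ph x :=
      mul_le_mul_of_nonneg_right enc42.fh (Ph_pos x).le
    have a3 : 0.365262 * 0.337242 ≤ ph 0.42 * Ph (-0.42) :=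
      mul_le_mul enc42.fl enc42.Pl (by norm_num) (ph_pos _).le
    nlinarith [Ph_pos x]

lemma Cell.lin {r a p A c : ℝ} (h : Cell r a p) (hA : a ≤ A) (hc : 0 ≤ c)
    (h2 : c ^ 2 * (2 * A) ≤ 1) : c * a ≤ p := by
  refine (abs_le_of_sq_le_sq' ?_ h.p0).2
  have h1 := h.sq
  have h0 := h.a0
  calc (c * a) ^ 2 = c ^ 2 * a * a := by ring
    _ ≤ c ^ 2 * A * (2 * p ^ 2) := by
      refine mul_le_mul (by gcongr) h1 h0 ?_
      have : 0 ≤ A := h0.trans hA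
      positivity
    _ = c ^ 2 * (2 * A) * p ^ 2 := by ring
    _ ≤ 1 * p ^ 2 := by gcongr
    _ = _ := one_mul _

variable {a p : ℝ}

lemma Cell.G1 (h : Cell 2.7925 a p) (ha : a ≤ 0.048) : 3.68 * a ≤ p := by
  have := h.p0
  rcases h.cases1 with h | h | h | h | h | h | h | h | h | h | h <;>
    linarith

lemma Cell.G2 (h : Cell 2.7925 a p) : 3.68 * a - 0.1557 ≤ p := by
  have := h.p0
  have := h.tan
  have := h.a1
  rcases h.cases1 with h | h | h | h | h | h | h | h | h | h | h <;>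
    linarith

lemma Cell.G3 (h : Cell 2.7925 a p) (ha : 0.075 ≤ a) : 1.6 * a + 0.1067 ≤ p := by
  have := h.p0
  have := h.tan
  have := h.a1
  rcases h.cases1 with h | h | h | h | h | h | h | h | h | h | h <;>
    linarith

lemma Cell.G5 (h : Cell 2.7925 a p) (ha : 0.048 ≤ a) (hb : a ≤ 0.075) :
    0.1767 + 1.85 * (a - 0.048) ≤ p := by
  have := h.p0
  rcases h.cases1 with h | h | h | h | h | h | h | h | h | h | h <;>
    linarith

lemma Cell.G6 (h : Cell 2.7925 a p) (ha : 0.029 ≤ a) (hb : a ≤ 0.048) :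
    0.1348 + 2.2 * (a - 0.029) ≤ p := by
  have := h.p0
  rcases h.cases1 with h | h | h | h | h | h | h | h | h | h | h <;>
    linarith

lemma Cell.G7 (h : Cell 2.7925 a p) (ha : 0.015 ≤ a) (hb : a ≤ 0.029) :
    0.1348 + 3.6 * (a - 0.029) ≤ p := by
  have := h.p0
  rcases le_total a 0.0169 with hc | hc
  · have := h.lin hc (c := 5.43) (by norm_num) (by norm_num)
    have h1 := h.sq
    by_contra hh
    push Not at hh
    nlinarith
  rcases h.cases1 with h | h | h | h | h | h | h | h | h | h | h <;>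
    linarith

lemma Cell.F1 (h : Cell 3.7233 a p) (ha : 0.03 ≤ a) (hb : a ≤ 0.048) :
    0.1377 + 2.23 * (a - 0.03) ≤ p := by
  have := h.p0
  rcases h.cases43 with h | h | h | h | h | h | h | h | h | h | h <;>
    linarith

lemma Cell.F2 (h : Cell 3.7233 a p) (ha : 0.048 ≤ a) (hb : a ≤ 0.075) :
    0.178 + 1.9 * (a - 0.048) ≤ p := by
  have := h.p0
  rcases h.cases43 with h | h | h | h | h | h | h | h | h | h | h <;>
    linarith

lemma Cell.F3 (h : Cell 3.7233 a p) (ha : 0.075 ≤ a) : 1.7 * a + 0.1019 ≤ p := by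
  have := h.p0
  have := h.tan
  have := h.a1
  rcases h.cases43 with h | h | h | h | h | h | h | h | h | h | h <;>
    linarith

lemma Cell.big43 (c : Cell 3.7233 a p) (h : 0.048 ≤ a) :
    (a ≤ 0.075 ∧ 0.178 + 1.9 * (a - 0.048) ≤ p) ∨ (0.075 ≤ a ∧ 1.7 * a + 0.1019 ≤ p) :=
  (le_total _ 0.075).imp (fun h' => ⟨h', c.F2 h h'⟩) fun h' => ⟨h', c.F3 h'⟩

lemma Cell.big1 (c : Cell 2.7925 a p) (h : 0.048 ≤ a) :
    (a ≤ 0.075 ∧ 0.1767 + 1.85 * (a - 0.048) ≤ p) ∨ (0.075 ≤ a ∧ 1.6 * a + 0.1067 ≤ p) :=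
  (le_total _ 0.075).imp (fun h' => ⟨h', c.G5 h h'⟩) fun h' => ⟨h', c.G3 h'⟩

lemma lp2 {a1 a2 a3 a4 p1 p2 p3 p4 : ℝ} (c1 : Cell 3.7233 a1 p1) (c2 : Cell 3.7233 a2 p2)
    (c3 : Cell 3.7233 a3 p3) (c4 : Cell 3.7233 a4 p4) (h12 : a2 ≤ a1) (h23 : a3 ≤ a2)
    (h34 : a4 ≤ a3) (h3 : 0.048 ≤ a3) (h4 : 0.03 ≤ a4) (hs : 0.358098 ≤ a1 + a2 + a3 + a4)
    (hp : p1 + p2 + p3 + p4 ≤ 1) : False := by
  have t1 := c1.tan
  have t2 := c2.tan
  have t3 := c1.tan2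
  have t4 := c2.tan2
  have k4 : (a4 ≤ 0.048 ∧ 0.1377 + 2.23 * (a4 - 0.03) ≤ p4) ∨
      (a4 ≤ 0.075 ∧ 0.048 ≤ a4 ∧ 0.178 + 1.9 * (a4 - 0.048) ≤ p4) ∨
      (0.075 ≤ a4 ∧ 1.7 * a4 + 0.1019 ≤ p4) := by
    rcases le_total a4 0.048 with h | h
    · exact Or.inl ⟨h, c4.F1 h4 h⟩
    · exact Or.inr ((c4.big43 h).imp (fun h' => ⟨h'.1, h, h'.2⟩) id)
  rcases c1.big43 (by linarith) with ⟨u1, v1⟩ | ⟨u1, v1⟩ <;>
  rcases c2.big43 (by linarith) with ⟨u2, v2⟩ | ⟨u2, v2⟩ <;>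
  rcases c3.big43 h3 with ⟨u3, v3⟩ | ⟨u3, v3⟩ <;>
  rcases k4 with h | h | h <;> linarith

lemma restP {e P : ℝ} (he : 0.001 ≤ e) (P0 : 0 ≤ P) (Psq : e ≤ 2 * P ^ 2) (P1 : 2.36 * e ≤ P) :
    (e ≤ 0.015 ∧ 0.02236 + 4.58 * (e - 0.001) ≤ P) ∨
      (0.015 ≤ e ∧ e ≤ 0.09 ∧ 0.0866 + 1.67 * (e - 0.015) ≤ P) ∨ (0.09 ≤ e ∧ 2.36 * e ≤ P) := by
  rcases le_total e 0.015 with h | h
  · refine Or.inl ⟨h, ?_⟩
    by_contra hh
    push Not at hh
    nlinarith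
  rcases le_total e 0.09 with h' | h'
  · refine Or.inr (Or.inl ⟨h, h', ?_⟩)
    by_contra hh
    push Not at hh
    nlinarith
  · exact Or.inr (Or.inr ⟨h', P1⟩)

lemma rest4 {a4 p4 e P : ℝ} (c4 : Cell 2.7925 a4 p4) (P2 : a4 ≤ 0.015 → 5.77 * e ≤ P) :
    (a4 ≤ 0.015 ∧ 5.77 * a4 ≤ p4 ∧ 5.77 * e ≤ P) ∨
      (0.015 ≤ a4 ∧ a4 ≤ 0.029 ∧ 0.1348 + 3.6 * (a4 - 0.029) ≤ p4) ∨
      (0.029 ≤ a4 ∧ a4 ≤ 0.048 ∧ 0.1348 + 2.2 * (a4 - 0.029) ≤ p4) ∨
      (0.048 ≤ a4 ∧ a4 ≤ 0.075 ∧ 0.1767 + 1.85 * (a4 - 0.048) ≤ p4) ∨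
      (0.075 ≤ a4 ∧ 1.6 * a4 + 0.1067 ≤ p4) := by
  rcases le_total a4 0.015 with h | h
  · exact Or.inl ⟨h, c4.lin h (by norm_num) (by norm_num), P2 h⟩
  rcases le_total a4 0.029 with h1 | h1
  · exact Or.inr (Or.inl ⟨h, h1, c4.G7 h h1⟩)
  rcases le_total a4 0.048 with h2 | h2
  · exact Or.inr (Or.inr (Or.inl ⟨h1, h2, c4.G6 h1 h2⟩))
  rcases c4.big1 h2 with ⟨u, v⟩ | ⟨u, v⟩
  · exact Or.inr (Or.inr (Or.inr (Or.inl ⟨h2, u, v⟩)))
  · exact Or.inr (Or.inr (Or.inr (Or.inr ⟨u, v⟩)))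

lemma rest {a4 p4 e P : ℝ} (c4 : Cell 2.7925 a4 p4) (h4 : 0.03 ≤ a4 + e) (he : 0.001 ≤ e)
    (h5 : a4 ≤ 0.0896) (P0 : 0 ≤ P) (Psq : e ≤ 2 * P ^ 2) (P1 : 2.36 * e ≤ P)
    (P2 : a4 ≤ 0.015 → 5.77 * e ≤ P) :
    (a4 + e ≤ 0.045 ∧ 1.6 * (a4 + e) + 0.1088 + 0.6 * (a4 + e - 0.03) ≤ p4 + P) ∨
      (0.045 ≤ a4 + e ∧ a4 + e ≤ 0.076 ∧ 1.6 * (a4 + e) + 0.118 ≤ p4 + P) ∨
      (0.076 ≤ a4 + e ∧ a4 + e ≤ 0.2 ∧ 1.6 * (a4 + e) + 0.125 ≤ p4 + P) ∨
      (0.2 ≤ a4 + e ∧ 1.6 * (a4 + e) + 0.14 ≤ p4 + P) := by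
  have k1 := restP he P0 Psq P1
  have k2 := rest4 c4 P2
  have := c4.a0
  clear Psq P2 c4
  rcases le_total (a4 + e) 0.045 with h | h
  · refine Or.inl ⟨h, ?_⟩
    rcases k1 with z | z | z <;> rcases k2 with w | w | w | w | w <;> linarith
  rcases le_total (a4 + e) 0.076 with h1 | h1
  · refine Or.inr (Or.inl ⟨h, h1, ?_⟩)
    rcases k1 with z | z | z <;> rcases k2 with w | w | w | w | w <;> linarith
  rcases le_total (a4 + e) 0.2 with h2 | h2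
  · refine Or.inr (Or.inr (Or.inl ⟨h1, h2, ?_⟩))
    rcases k1 with z | z | z <;> rcases k2 with w | w | w | w | w <;> linarith
  · refine Or.inr (Or.inr (Or.inr ⟨h2, ?_⟩))
    rcases k1 with z | z | z <;> rcases k2 with w | w | w | w | w <;> linarith

lemma lp4 {a1 a2 a3 a4 p1 p2 p3 p4 e P : ℝ} (c1 : Cell 2.7925 a1 p1) (c2 : Cell 2.7925 a2 p2)
    (c3 : Cell 2.7925 a3 p3) (c4 : Cell 2.7925 a4 p4) (h12 : a2 ≤ a1) (h23 : a3 ≤ a2)
    (h3 : 0.048 ≤ a3) (h4 : 0.03 ≤ a4 + e) (he : 0.001 ≤ e) (h5 : a4 ≤ 0.0896)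
    (hs : 0.358098 ≤ a1 + a2 + a3 + a4 + e) (hp : p1 + p2 + p3 + p4 + P ≤ 1)
    (P0 : 0 ≤ P) (Psq : e ≤ 2 * P ^ 2) (P1 : 2.36 * e ≤ P) (P2 : a4 ≤ 0.015 → 5.77 * e ≤ P) :
    False := by
  have t1 := c1.tan
  have t2 := c2.tan
  have t3 := c1.tan2
  have t4 := c2.tan2
  have t5 := c1.a1
  have k := rest c4 h4 he h5 P0 Psq P1 P2
  clear Psq P2 P1
  rcases c1.big1 (by linarith) with ⟨u1, v1⟩ | ⟨u1, v1⟩ <;>
  rcases c2.big1 (by linarith) with ⟨u2, v2⟩ | ⟨u2, v2⟩ <;>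
  rcases c3.big1 h3 with ⟨u3, v3⟩ | ⟨u3, v3⟩ <;>
  rcases k with h | h | h | h <;> linarith

end

end Vale.Agent.P226
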