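import Vale.Agent.P226.StatNum

open MeasureTheory ProbabilityTheory Set Filter Topology Real
open scoped RealInnerProductSpace

namespace Vale.Agent.P226

noncomputable section

variable {E : Type} [NormedAddCommGroup E] [InnerProductSpace ℝ E] {ι : Type}

def M3 (q1 q2 : E) (θ : ℝ) (x : E) : ℝ :=
  max (max ⟪q1, x⟫ ⟪q2, x⟫) (-(θ * (⟪q1, x⟫ + ⟪q2, x⟫)))

lemma adm_cell [Fintype ι] [DecidableEq ι] {z : ι → E} (hneg : ∀ i j, i ≠ j → ⟪z i, z j⟫ ≤ 0)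
    (s : Finset ι) {j : ι} (hj : j ∈ s) : ⟪z j, ∑ i ∈ s, z i⟫ ≤ ‖z j‖ ^ 2 := by
  rw [inner_sum, ← Finset.add_sum_erase s _ hj, real_inner_self_eq_norm_sq]
  have : ∑ i ∈ s.erase j, ⟪z j, z i⟫ ≤ 0 :=
    Finset.sum_nonpos fun i hi => hneg _ _ (Finset.ne_of_mem_erase hi).symm
  linarith

lemma adm_sum [Fintype ι] [DecidableEq ι] {z : ι → E} (hneg : ∀ i j, i ≠ j → ⟪z i, z j⟫ ≤ 0)
    (s : Finset ι) : ‖∑ i ∈ s, z i‖ ^ 2 ≤ ∑ i ∈ s, ‖z i‖ ^ 2 := by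
  rw [← real_inner_self_eq_norm_sq, sum_inner]
  exact Finset.sum_le_sum fun j hj => adm_cell hneg s hj

lemma adm_out {z : ι → E} (hneg : ∀ i j, i ≠ j → ⟪z i, z j⟫ ≤ 0)
    (s : Finset ι) {l : ι} (hl : l ∉ s) : ⟪∑ i ∈ s, z i, z l⟫ ≤ 0 := by
  rw [sum_inner]
  exact Finset.sum_nonpos fun i hi => hneg _ _ fun h => hl (h ▸ hi)

lemma vec3 {a b c R w : E} {L : ℝ} (h : a + b + c + R = 0) (wa : ⟪w, a⟫ ≤ 0) (wb : ⟪w, b⟫ ≤ 0)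
    (wc : ⟪w, c⟫ ≤ 0) (wR : ⟪w, R⟫ ≤ ‖w‖ ^ 2) (l1 : ‖a - b‖ ≤ L) (l2 : ‖a - c‖ ≤ L)
    (l3 : ‖b - c‖ ≤ L) :
    ‖⟪(4 / 3 : ℝ) • w, a + (1 / 3 : ℝ) • R⟫ • (b + (1 / 3 : ℝ) • R) -
      ⟪(4 / 3 : ℝ) • w, b + (1 / 3 : ℝ) • R⟫ • (a + (1 / 3 : ℝ) • R)‖ ≤ 4 / 9 * ‖w‖ ^ 2 * L := by
  have hR : R = -(a + b + c) := by rw [eq_neg_iff_add_eq_zero, add_comm, h]
  have e0 : ⟪w, R⟫ = -(⟪w, a⟫ + ⟪w, b⟫ + ⟪w, c⟫) := by
    rw [hR, inner_neg_right, inner_add_right, inner_add_right]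
  have e : ⟪(4 / 3 : ℝ) • w, a + (1 / 3 : ℝ) • R⟫ • (b + (1 / 3 : ℝ) • R) -
      ⟪(4 / 3 : ℝ) • w, b + (1 / 3 : ℝ) • R⟫ • (a + (1 / 3 : ℝ) • R) =
      (4 / 9 * ⟪w, a⟫) • (b - c) + (-(4 / 9 * ⟪w, b⟫)) • (a - c) + (4 / 9 * ⟪w, c⟫) • (a - b) := by
    simp only [real_inner_smul_left, inner_add_right, real_inner_smul_right, e0]
    rw [hR]
    module
  rw [e]
  refine (norm_add₃_le).trans ?_
  rw [norm_smul, norm_smul, norm_smul, Real.norm_eq_abs, Real.norm_eq_abs, Real.norm_eq_abs,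
    abs_of_nonpos (by linarith), abs_of_nonneg (by linarith), abs_of_nonpos (by linarith)]
  have L0 : 0 ≤ L := (norm_nonneg _).trans l1
  have m1 := mul_le_mul_of_nonneg_left l3 (show 0 ≤ -(4 / 9 * ⟪w, a⟫) by linarith)
  have m2 := mul_le_mul_of_nonneg_left l2 (show 0 ≤ -(4 / 9 * ⟪w, b⟫) by linarith)
  have m3 := mul_le_mul_of_nonneg_left l1 (show 0 ≤ -(4 / 9 * ⟪w, c⟫) by linarith)
  have m4 := mul_le_mul_of_nonneg_right wR L0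
  rw [e0] at m4
  linarith

lemma vec4 {a c R w : E} {s : ℝ} (wa : ⟪w, a⟫ ≤ 0) (wc : ⟪w, c⟫ ≤ 0)
    (hs : -(⟪w, a⟫ + ⟪w, c⟫) ≤ ⟪w, R⟫) (wR : ⟪w, R⟫ ≤ ‖w‖ ^ 2)
    (l1 : ‖a + (1 / 4 : ℝ) • R‖ ≤ s) (l2 : ‖c + (1 / 4 : ℝ) • R‖ ≤ s) :
    ‖⟪(5 / 4 : ℝ) • w, a + (1 / 4 : ℝ) • R⟫ • (c + (1 / 4 : ℝ) • R) -
      ⟪(5 / 4 : ℝ) • w, c + (1 / 4 : ℝ) • R⟫ • (a + (1 / 4 : ℝ) • R)‖ ≤ 5 / 4 * ‖w‖ ^ 2 * s := by
  refine (norm_sub_le _ _).trans ?_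
  rw [norm_smul, norm_smul, Real.norm_eq_abs, Real.norm_eq_abs, real_inner_smul_left,
    real_inner_smul_left, inner_add_right, inner_add_right, real_inner_smul_right]
  have s0 : 0 ≤ s := (norm_nonneg _).trans l1
  have m1 := mul_le_mul_of_nonneg_left l2 (abs_nonneg (5 / 4 * (⟪w, a⟫ + 1 / 4 * ⟪w, R⟫)))
  have m2 := mul_le_mul_of_nonneg_left l1 (abs_nonneg (5 / 4 * (⟪w, c⟫ + 1 / 4 * ⟪w, R⟫)))
  have m3 : |5 / 4 * (⟪w, a⟫ + 1 / 4 * ⟪w, R⟫)| + |5 / 4 * (⟪w, c⟫ + 1 / 4 * ⟪w, R⟫)| ≤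
      5 / 4 * ‖w‖ ^ 2 := by
    rcases abs_cases (5 / 4 * (⟪w, a⟫ + 1 / 4 * ⟪w, R⟫)) with h | h <;>
      rcases abs_cases (5 / 4 * (⟪w, c⟫ + 1 / 4 * ⟪w, R⟫)) with h' | h' <;> linarith [h.1, h'.1]
  have m4 := mul_le_mul_of_nonneg_right m3 s0
  linarith

variable [FiniteDimensional ℝ E] [MeasurableSpace E] [BorelSpace E]

def Th (u q1 q2 : E) (θ : ℝ) : ℝ := ∫ x, max (⟪u, x⟫ - M3 q1 q2 θ x) 0 ∂stdGaussian E

lemma integrable_Th (u q1 q2 : E) (θ : ℝ) :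
    Integrable (fun x => max (⟪u, x⟫ - M3 q1 q2 θ x) 0) (stdGaussian E) :=
  ((integrable_inner u).sub (((integrable_inner q1).sup (integrable_inner q2)).sup
    (((integrable_inner q1).add (integrable_inner q2)).const_mul θ).neg)).pos_part

lemma removal [Fintype ι] [DecidableEq ι] (hs : (Finset.univ : Finset ι).Nonempty) (z : ι → E)
    {T : Finset ι} (hT : T.Nonempty) {m : ℝ} (hm : 0 < m) (q1 q2 R : E) (θ η : ℝ)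
    (hM : ∀ x, M3 q1 q2 θ x ≤ mx T hT z x + 1 / m * ⟪R, x⟫)
    (h1 : ∀ j ∈ Tᶜ, Th (((m + 1) / m) • z j) q1 q2 θ ≤ η * ‖((m + 1) / m) • z j‖ ^ 2)
    (h2 : Th (((m + 1) / m) • R) q1 q2 θ ≤ η * ‖((m + 1) / m) • R‖ ^ 2) :
    mu Finset.univ hs z ≤ mu T hT z + η * ((m + 1) / m) * (∑ j ∈ Tᶜ, ‖z j‖ ^ 2 + ‖R‖ ^ 2 / m) := by
  have k1 : 0 ≤ m / (m + 1) := by positivity
  have k2 : 0 ≤ 1 / (m + 1) := by positivity
  have i1 : Integrable (fun x => ∑ j ∈ Tᶜ, m / (m + 1) *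
      max (⟪((m + 1) / m) • z j, x⟫ - M3 q1 q2 θ x) 0) (stdGaussian E) :=
    integrable_finset_sum _ fun j _ => (integrable_Th _ q1 q2 θ).const_mul _
  have i2 := (integrable_Th (((m + 1) / m) • R) q1 q2 θ).const_mul (1 / (m + 1))
  have hp : ∀ x, mx Finset.univ hs z x ≤ mx T hT z x + (∑ j ∈ Tᶜ, m / (m + 1) *
      max (⟪((m + 1) / m) • z j, x⟫ - M3 q1 q2 θ x) 0 +
      1 / (m + 1) * max (⟪((m + 1) / m) • R, x⟫ - M3 q1 q2 θ x) 0) := fun x => by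
    refine mx_le hs z x fun i _ => ?_
    have n1 : ∀ j ∈ Tᶜ, 0 ≤ m / (m + 1) * max (⟪((m + 1) / m) • z j, x⟫ - M3 q1 q2 θ x) 0 :=
      fun j _ => mul_nonneg k1 (le_max_right _ _)
    by_cases hi : i ∈ T
    · have := le_mx hT z x hi
      have := Finset.sum_nonneg n1
      have := mul_nonneg k2 (le_max_right (⟪((m + 1) / m) • R, x⟫ - M3 q1 q2 θ x) 0)
      linarith
    · have b1 := Finset.single_le_sum n1 (Finset.mem_compl.2 hi)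
      have b2 := mul_le_mul_of_nonneg_left
        (le_max_left (⟪((m + 1) / m) • z i, x⟫ - M3 q1 q2 θ x) 0) k1
      have b3 := mul_le_mul_of_nonneg_left
        (le_max_left (⟪((m + 1) / m) • R, x⟫ - M3 q1 q2 θ x) 0) k2
      have e : ⟪z i, x⟫ = m / (m + 1) * (⟪((m + 1) / m) • z i, x⟫ - M3 q1 q2 θ x) +
          1 / (m + 1) * (⟪((m + 1) / m) • R, x⟫ - M3 q1 q2 θ x) +
          (M3 q1 q2 θ x - 1 / m * ⟪R, x⟫) := by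
        rw [real_inner_smul_left, real_inner_smul_left]
        field_simp
        ring
      linarith [hM x]
  have i12 : Integrable (fun x => ∑ j ∈ Tᶜ, m / (m + 1) *
      max (⟪((m + 1) / m) • z j, x⟫ - M3 q1 q2 θ x) 0 +
      1 / (m + 1) * max (⟪((m + 1) / m) • R, x⟫ - M3 q1 q2 θ x) 0) (stdGaussian E) := i1.add i2
  have := integral_mono (integrable_mx hs z) ((integrable_mx hT z).add i12) hp
  simp only [Pi.add_apply] at this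
  rw [integral_add (integrable_mx hT z) i12, integral_add i1 i2,
    integral_finset_sum _ fun j _ => (integrable_Th _ q1 q2 θ).const_mul _] at this
  simp only [integral_const_mul] at this
  refine this.trans (add_le_add le_rfl ?_)
  have n : ∀ v : E, ‖((m + 1) / m) • v‖ ^ 2 = ((m + 1) / m) ^ 2 * ‖v‖ ^ 2 := fun v => by
    rw [norm_smul, mul_pow, Real.norm_eq_abs, sq_abs]
  calc _ ≤ ∑ j ∈ Tᶜ, m / (m + 1) * (η * ‖((m + 1) / m) • z j‖ ^ 2) +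
        1 / (m + 1) * (η * ‖((m + 1) / m) • R‖ ^ 2) :=
        add_le_add (Finset.sum_le_sum fun j hj => mul_le_mul_of_nonneg_left (h1 j hj) k1)
          (mul_le_mul_of_nonneg_left h2 k2)
    _ = _ := by
        simp only [n]
        rw [mul_add, Finset.mul_sum]
        congr 1
        · refine Finset.sum_congr rfl fun j _ => ?_
          field_simp
        · field_simp

lemma th3 {a b c R w : E} {ε κ η Np : ℝ} (h : a + b + c + R = 0) (wa : ⟪w, a⟫ ≤ 0)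
    (wb : ⟪w, b⟫ ≤ 0) (wc : ⟪w, c⟫ ≤ 0) (wR : ⟪w, R⟫ ≤ ‖w‖ ^ 2) (wε : ‖w‖ ^ 2 ≤ ε) (hε : ε ≤ 0.03)
    (l1 : ‖a - b‖ ^ 2 ≤ 0.572198 - ε) (l2 : ‖a - c‖ ^ 2 ≤ 0.572198 - ε)
    (l3 : ‖b - c‖ ^ 2 ≤ 0.572198 - ε) (hκ : 0 < κ) (hN : 0 < Np)
    (k1 : 81 ≤ (2 * π * κ) ^ 2 * Np)
    (k2 : Np + 0.001808 ≤ ‖a + (1 / 3 : ℝ) • R‖ ^ 2 * ‖b + (1 / 3 : ℝ) • R‖ ^ 2 -
      ⟪a + (1 / 3 : ℝ) • R, b + (1 / 3 : ℝ) • R⟫ ^ 2)
    (k3 : ∀ s, 0 ≤ s → s ≤ 0.23095 → RR (κ * s ^ 2) ≤ η * s) :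
    Th ((4 / 3 : ℝ) • w) (a + (1 / 3 : ℝ) • R) (b + (1 / 3 : ℝ) • R) 1 ≤
      c0 * η * ‖(4 / 3 : ℝ) • w‖ ^ 2 := by
  have hu : ‖(4 / 3 : ℝ) • w‖ ^ 2 = 16 / 9 * ‖w‖ ^ 2 := by
    rw [norm_smul, mul_pow, Real.norm_eq_abs, sq_abs]
    norm_num
  have v3 := vec3 h wa wb wc wR (le_sqrt_of_sq_le l1) (le_sqrt_of_sq_le l2) (le_sqrt_of_sq_le l3)
  have hb := theta_bound ((4 / 3 : ℝ) • w) (a + (1 / 3 : ℝ) • R) (b + (1 / 3 : ℝ) • R)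
    (θ := 1) one_pos hκ hN (le_trans (by norm_num) k1) (by
      have w0 := sq_nonneg ‖w‖
      calc _ ≤ (4 / 9 * ‖w‖ ^ 2 * √(0.572198 - ε)) ^ 2 := pow_le_pow_left₀ (norm_nonneg _) v3 2
        _ = ‖w‖ ^ 2 * (0.572198 - ε) / 9 * (16 / 9 * ‖w‖ ^ 2) := by
          rw [mul_pow, sq_sqrt (by linarith)]
          ring
        _ ≤ _ := by
          rw [hu]
          refine mul_le_mul_of_nonneg_right ?_ (by positivity)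
          have q1 : ‖w‖ ^ 2 * (0.572198 - ε) ≤ ε * (0.572198 - ε) :=
            mul_le_mul_of_nonneg_right wε (by linarith)
          have q2 : ε * (0.572198 - ε) ≤ 0.03 * (0.572198 - 0.03) := by
            nlinarith [mul_nonneg (sub_nonneg.2 hε) (show 0 ≤ 0.542198 - ε by linarith)]
          linarith)
  refine hb.trans ?_
  have := k3 _ (norm_nonneg ((4 / 3 : ℝ) • w))
    (abs_le_of_sq_le_sq' (by rw [hu]; linarith) (by norm_num)).2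
  calc _ ≤ ‖(4 / 3 : ℝ) • w‖ * c0 * (η * ‖(4 / 3 : ℝ) • w‖) :=
        mul_le_mul_of_nonneg_left this (mul_nonneg (norm_nonneg _) c0_pos.le)
    _ = _ := by ring

omit [FiniteDimensional ℝ E] [MeasurableSpace E] [BorelSpace E] in
lemma gram3 {a b c R : E} (h : a + b + c + R = 0) :
    ‖a + (1 / 3 : ℝ) • R‖ ^ 2 * ‖b + (1 / 3 : ℝ) • R‖ ^ 2 -
      ⟪a + (1 / 3 : ℝ) • R, b + (1 / 3 : ℝ) • R⟫ ^ 2 =
    (-⟪a, b⟫ - (⟪R, a⟫ + ⟪R, b⟫) / 3 - ‖R‖ ^ 2 / 9) *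
        (-⟪a, c⟫ - (⟪R, a⟫ + ⟪R, c⟫) / 3 - ‖R‖ ^ 2 / 9) +
      (-⟪a, b⟫ - (⟪R, a⟫ + ⟪R, b⟫) / 3 - ‖R‖ ^ 2 / 9) *
        (-⟪b, c⟫ - (⟪R, b⟫ + ⟪R, c⟫) / 3 - ‖R‖ ^ 2 / 9) +
      (-⟪a, c⟫ - (⟪R, a⟫ + ⟪R, c⟫) / 3 - ‖R‖ ^ 2 / 9) *
        (-⟪b, c⟫ - (⟪R, b⟫ + ⟪R, c⟫) / 3 - ‖R‖ ^ 2 / 9) := by
  have z1 := congrArg (fun v => ⟪a, v⟫) h
  have z2 := congrArg (fun v => ⟪b, v⟫) h
  have z4 := congrArg (fun v => ⟪R, v⟫) h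
  simp only [inner_add_right, inner_zero_right, real_inner_self_eq_norm_sq, real_inner_comm a b,
    real_inner_comm R a, real_inner_comm R b] at z1 z2 z4
  have r1 : ‖a + (1 / 3 : ℝ) • R‖ ^ 2 = ‖a‖ ^ 2 + 2 / 3 * ⟪R, a⟫ + ‖R‖ ^ 2 / 9 := by
    rw [norm_add_sq_real, real_inner_smul_right, norm_smul, mul_pow, Real.norm_eq_abs, sq_abs,
      real_inner_comm R a]
    ring
  have r2 : ‖b + (1 / 3 : ℝ) • R‖ ^ 2 = ‖b‖ ^ 2 + 2 / 3 * ⟪R, b⟫ + ‖R‖ ^ 2 / 9 := by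
    rw [norm_add_sq_real, real_inner_smul_right, norm_smul, mul_pow, Real.norm_eq_abs, sq_abs,
      real_inner_comm R b]
    ring
  have r3 : ⟪a + (1 / 3 : ℝ) • R, b + (1 / 3 : ℝ) • R⟫ =
      ⟪a, b⟫ + (⟪R, a⟫ + ⟪R, b⟫) / 3 + ‖R‖ ^ 2 / 9 := by
    simp only [inner_add_left, inner_add_right, real_inner_smul_left, real_inner_smul_right,
      real_inner_comm R a]
    rw [real_inner_self_eq_norm_sq]
    ring
  have q3 : ‖a‖ ^ 2 = -⟪a, b⟫ - ⟪a, c⟫ - ⟪R, a⟫ := by linarith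
  have q4 : ‖b‖ ^ 2 = -⟪a, b⟫ - ⟪b, c⟫ - ⟪R, b⟫ := by linarith
  have q5 : ⟪R, c⟫ = -⟪R, a⟫ - ⟪R, b⟫ - ‖R‖ ^ 2 := by linarith
  rw [r1, r2, r3, q3, q4, q5]
  ring

lemma static3_vec {a b c R : E} {ε : ℝ} (h : a + b + c + R = 0) (ab : ⟪a, b⟫ ≤ 0)
    (ac : ⟪a, c⟫ ≤ 0) (bc : ⟪b, c⟫ ≤ 0) (Ra : ⟪R, a⟫ ≤ 0) (Rb : ⟪R, b⟫ ≤ 0) (Rc : ⟪R, c⟫ ≤ 0)
    (ha : 0.048 ≤ ‖a‖ ^ 2) (hb : 0.048 ≤ ‖b‖ ^ 2) (hc : 0.048 ≤ ‖c‖ ^ 2) (he : ‖R‖ ^ 2 ≤ ε)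
    (hε : ε ≤ 0.03) (hS : ‖a‖ ^ 2 + ‖b‖ ^ 2 + ‖c‖ ^ 2 + ε = tau) :
    ∃ η : ℝ, (∀ w : E, ⟪w, a⟫ ≤ 0 → ⟪w, b⟫ ≤ 0 → ⟪w, c⟫ ≤ 0 → ⟪w, R⟫ ≤ ‖w‖ ^ 2 → ‖w‖ ^ 2 ≤ ε →
      Th ((4 / 3 : ℝ) • w) (a + (1 / 3 : ℝ) • R) (b + (1 / 3 : ℝ) • R) 1 ≤
        η * ‖(4 / 3 : ℝ) • w‖ ^ 2) ∧
      c0 * (‖a - b‖ + ‖a - c‖ + ‖b - c‖) / 2 + η * (4 / 3) * (ε + ‖R‖ ^ 2 / 3) ≤ tau := by
  have z1 := congrArg (fun v => ⟪a, v⟫) h
  have z2 := congrArg (fun v => ⟪b, v⟫) h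
  have z3 := congrArg (fun v => ⟪c, v⟫) h
  have z4 := congrArg (fun v => ⟪R, v⟫) h
  simp only [inner_add_right, inner_zero_right, real_inner_self_eq_norm_sq, real_inner_comm a b,
    real_inner_comm a c, real_inner_comm b c, real_inner_comm R a, real_inner_comm R b,
    real_inner_comm R c] at z1 z2 z3 z4
  have n1 := norm_sub_sq_real a b
  have n2 := norm_sub_sq_real a c
  have n3 := norm_sub_sq_real b c
  have e0 := sq_nonneg ‖R‖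
  have t2 := tau_hi
  have l1 : ‖a - b‖ ^ 2 ≤ 0.572198 - ε := by linarith
  have l2 : ‖a - c‖ ^ 2 ≤ 0.572198 - ε := by linarith
  have l3 : ‖b - c‖ ^ 2 ≤ 0.572198 - ε := by linarith
  obtain ⟨κ, η, Np, hκ, hN, k1, k2, k3, k4⟩ := static3_num
    (c1 := -⟪a, b⟫ - (⟪R, a⟫ + ⟪R, b⟫) / 3 - ‖R‖ ^ 2 / 9)
    (c2 := -⟪a, c⟫ - (⟪R, a⟫ + ⟪R, c⟫) / 3 - ‖R‖ ^ 2 / 9)
    (c3 := -⟪b, c⟫ - (⟪R, b⟫ + ⟪R, c⟫) / 3 - ‖R‖ ^ 2 / 9) e0 he hε (by linarith) (by linarith)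
    (by linarith) (by linarith) (by linarith) (by linarith) (by linarith) (norm_nonneg (a - b))
    (norm_nonneg (a - c)) (norm_nonneg (b - c)) (by linarith) (by linarith) (by linarith)
  rw [← gram3 h] at k2
  exact ⟨c0 * η, fun w wa wb wc wR wε => th3 h wa wb wc wR wε hε l1 l2 l3 hκ hN k1 k2 k3, k4⟩

lemma static3 [Fintype ι] [DecidableEq ι] (hs : (Finset.univ : Finset ι).Nonempty) {z : ι → E}
    (hsum : ∑ i, z i = 0) (hneg : ∀ i j, i ≠ j → ⟪z i, z j⟫ ≤ 0) (hS : ∑ i, ‖z i‖ ^ 2 = tau)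
    {i j k : ι} (hij : i ≠ j) (hik : i ≠ k) (hjk : j ≠ k) (ha : 0.048 ≤ ‖z i‖ ^ 2)
    (hb : 0.048 ≤ ‖z j‖ ^ 2) (hc : 0.048 ≤ ‖z k‖ ^ 2)
    (hε : ∑ l ∈ ({i, j, k} : Finset ι)ᶜ, ‖z l‖ ^ 2 ≤ 0.03) : mu Finset.univ hs z ≤ tau := by
  have s3 : ∀ {M : Type} [AddCommMonoid M] (f : ι → M),
      ∑ l, f l = f i + f j + f k + ∑ l ∈ ({i, j, k} : Finset ι)ᶜ, f l := fun f => by
    rw [← Finset.sum_add_sum_compl {i, j, k}, Finset.sum_insert (by simp [hij, hik]),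
      Finset.sum_pair hjk, ← add_assoc (f i)]
  rw [s3] at hsum hS
  have hT : ({i, j, k} : Finset ι).Nonempty := by simp
  obtain ⟨η, h1, h2⟩ := static3_vec hsum (hneg _ _ hij) (hneg _ _ hik) (hneg _ _ hjk)
    (adm_out hneg _ (by simp)) (adm_out hneg _ (by simp)) (adm_out hneg _ (by simp)) ha hb hc
    (adm_sum hneg _) hε hS
  have e43 : ((3 : ℝ) + 1) / 3 = 4 / 3 := by norm_num
  refine le_trans (removal hs z hT (m := 3) (by norm_num)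
    (z i + (1 / 3 : ℝ) • ∑ l ∈ ({i, j, k} : Finset ι)ᶜ, z l)
    (z j + (1 / 3 : ℝ) • ∑ l ∈ ({i, j, k} : Finset ι)ᶜ, z l)
    (∑ l ∈ ({i, j, k} : Finset ι)ᶜ, z l) 1 η (fun x => ?_) (fun l hl => ?_) ?_) ?_
  · have z1 := congrArg (fun v => ⟪v, x⟫) hsum
    simp only [inner_add_left, inner_zero_left] at z1
    have a1 := le_mx hT z x (i := i) (by simp)
    have a2 := le_mx hT z x (i := j) (by simp)
    have a3 := le_mx hT z x (i := k) (by simp)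
    unfold M3
    rw [inner_add_left, inner_add_left, real_inner_smul_left, max_le_iff, max_le_iff]
    refine ⟨⟨?_, ?_⟩, ?_⟩ <;> linarith
  · rw [e43]
    have hl' := Finset.mem_compl.1 hl
    simp only [Finset.mem_insert, Finset.mem_singleton, not_or] at hl'
    exact h1 _ (hneg _ _ hl'.1) (hneg _ _ hl'.2.1) (hneg _ _ hl'.2.2) (adm_cell hneg _ hl)
      (Finset.single_le_sum (f := fun l => ‖z l‖ ^ 2) (fun l _ => sq_nonneg _) hl)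
  · rw [e43]
    exact h1 _ (adm_out hneg _ (by simp)) (adm_out hneg _ (by simp)) (adm_out hneg _ (by simp))
      (real_inner_self_eq_norm_sq _).le (adm_sum hneg _)
  · rw [e43]
    have m3 := mu_le3 hT z (z i) (z j) (z k) fun l hl => by
      simp only [Finset.mem_insert, Finset.mem_singleton] at hl
      rcases hl with rfl | rfl | rfl <;> simp
    linarith

lemma static4_vec {a c R w : E} (ac : ⟪a, c⟫ ≤ 0) (ac' : -⟪a, c⟫ ≤ ‖c‖ ^ 2 / 2)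
    (Ra : ⟪R, a⟫ ≤ 0) (Rc : ⟪R, c⟫ ≤ 0) (hR : -(⟪R, a⟫ + ⟪R, c⟫) ≤ ‖R‖ ^ 2)
    (hc : 0.048 ≤ ‖c‖ ^ 2) (hca : ‖c‖ ^ 2 ≤ ‖a‖ ^ 2) (ha : ‖a‖ ^ 2 ≤ 0.15916)
    (he : ‖R‖ ^ 2 ≤ 0.001) (wa : ⟪w, a⟫ ≤ 0) (wc : ⟪w, c⟫ ≤ 0)
    (hs : -(⟪w, a⟫ + ⟪w, c⟫) ≤ ⟪w, R⟫) (wR : ⟪w, R⟫ ≤ ‖w‖ ^ 2) (hw : ‖w‖ ^ 2 ≤ 0.001) :
    Th ((5 / 4 : ℝ) • w) (a + (1 / 4 : ℝ) • R) (c + (1 / 4 : ℝ) • R) (1 / 2) ≤
      c0 * 0.87 * ‖(5 / 4 : ℝ) • w‖ ^ 2 := by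
  have e0 := sq_nonneg ‖R‖
  have hu : ‖(5 / 4 : ℝ) • w‖ ^ 2 = 25 / 16 * ‖w‖ ^ 2 := by
    rw [norm_smul, mul_pow, Real.norm_eq_abs, sq_abs]
    norm_num
  have r1 : ‖a + (1 / 4 : ℝ) • R‖ ^ 2 = ‖a‖ ^ 2 + 1 / 2 * ⟪R, a⟫ + ‖R‖ ^ 2 / 16 := by
    rw [norm_add_sq_real, real_inner_smul_right, norm_smul, mul_pow, Real.norm_eq_abs, sq_abs,
      real_inner_comm R a]
    ring
  have r2 : ‖c + (1 / 4 : ℝ) • R‖ ^ 2 = ‖c‖ ^ 2 + 1 / 2 * ⟪R, c⟫ + ‖R‖ ^ 2 / 16 := by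
    rw [norm_add_sq_real, real_inner_smul_right, norm_smul, mul_pow, Real.norm_eq_abs, sq_abs,
      real_inner_comm R c]
    ring
  have r3 : ⟪a + (1 / 4 : ℝ) • R, c + (1 / 4 : ℝ) • R⟫ =
      ⟪a, c⟫ + (⟪R, a⟫ + ⟪R, c⟫) / 4 + ‖R‖ ^ 2 / 16 := by
    simp only [inner_add_left, inner_add_right, real_inner_smul_left, real_inner_smul_right,
      real_inner_comm R a]
    rw [real_inner_self_eq_norm_sq]
    ring
  have v4 := vec4 (s := 0.4) wa wc hs wR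
    (abs_le_of_sq_le_sq' (by rw [r1]; linarith) (by norm_num)).2
    (abs_le_of_sq_le_sq' (by rw [r2]; linarith) (by norm_num)).2
  have hb := theta_bound ((5 / 4 : ℝ) • w) (a + (1 / 4 : ℝ) • R) (c + (1 / 4 : ℝ) • R)
    (θ := 1 / 2) (κ := 66) (N := 0.0015) (by norm_num) (by norm_num) (by norm_num)
    (by
      have := pi_gt_d6
      calc _ ≤ (2 * 3.141592 * 66 : ℝ) ^ 2 * 0.0015 := by norm_num
        _ ≤ _ := by gcongr) (by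
      have w0 := sq_nonneg ‖w‖
      calc _ ≤ (5 / 4 * ‖w‖ ^ 2 * 0.4) ^ 2 := pow_le_pow_left₀ (norm_nonneg _) v4 2
        _ = 0.16 * ‖w‖ ^ 2 * (25 / 16 * ‖w‖ ^ 2) := by ring
        _ ≤ _ := by
          rw [hu]
          refine mul_le_mul_of_nonneg_right ?_ (by positivity)
          have q1 : (‖c‖ ^ 2 - 0.0005) * (‖c‖ ^ 2 - 0.0005) ≤
              ‖a + (1 / 4 : ℝ) • R‖ ^ 2 * ‖c + (1 / 4 : ℝ) • R‖ ^ 2 :=
            mul_le_mul (by rw [r1]; linarith) (by rw [r2]; linarith) (by linarith) (sq_nonneg _)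
          have q2 : ⟪a + (1 / 4 : ℝ) • R, c + (1 / 4 : ℝ) • R⟫ ^ 2 ≤
              (‖c‖ ^ 2 / 2 + 0.00025) ^ 2 :=
            sq_le_sq' (by rw [r3]; linarith) (by rw [r3]; linarith)
          have q3 : 0.00166 ≤ (‖c‖ ^ 2 - 0.0005) * (‖c‖ ^ 2 - 0.0005) -
              (‖c‖ ^ 2 / 2 + 0.00025) ^ 2 := by
            generalize ‖c‖ ^ 2 = t at hc
            nlinarith
          linarith)
  refine hb.trans ?_
  have := RR_le (κ := 66) (c := 1) (η := 0.87) (m := 0.0396) (by norm_num) le_rfl (by norm_num)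
    (norm_nonneg ((5 / 4 : ℝ) • w)) (abs_le_of_sq_le_sq' (by rw [hu]; linarith) (by norm_num)).2
    (by norm_num) (by norm_num) (by norm_num)
  calc _ ≤ ‖(5 / 4 : ℝ) • w‖ * c0 * (0.87 * ‖(5 / 4 : ℝ) • w‖) :=
        mul_le_mul_of_nonneg_left this (mul_nonneg (norm_nonneg _) c0_pos.le)
    _ = _ := by ring

lemma static4 [Fintype ι] [DecidableEq ι] (hs : (Finset.univ : Finset ι).Nonempty) {z : ι → E}
    (hsum : ∑ i, z i = 0) (hneg : ∀ i j, i ≠ j → ⟪z i, z j⟫ ≤ 0) (hS : ∑ i, ‖z i‖ ^ 2 = tau)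
    {i j k l : ι} (hij : i ≠ j) (hik : i ≠ k) (hil : i ≠ l) (hjk : j ≠ k) (hjl : j ≠ l)
    (hkl : k ≠ l) (hT : ({i, j, k, l} : Finset ι).Nonempty) (hB : Bound E {i, j, k, l} hT)
    (hc : 0.048 ≤ ‖z k‖ ^ 2) (hca : ‖z k‖ ^ 2 ≤ ‖z i‖ ^ 2) (ha : ‖z i‖ ^ 2 ≤ 0.15916)
    (ac' : -⟪z i, z k⟫ ≤ ‖z k‖ ^ 2 / 2)
    (hε : ∑ n ∈ ({i, j, k, l} : Finset ι)ᶜ, ‖z n‖ ^ 2 ≤ 0.001) : mu Finset.univ hs z ≤ tau := by
  have s4 : ∀ {M : Type} [AddCommMonoid M] (f : ι → M),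
      ∑ n ∈ {i, j, k, l}, f n = f i + f j + f k + f l := fun f => by
    rw [Finset.sum_insert (by simp [hij, hik, hil]), Finset.sum_insert (by simp [hjk, hjl]),
      Finset.sum_pair hkl, add_assoc, add_assoc]
  rw [← Finset.sum_add_sum_compl {i, j, k, l}, s4] at hsum hS
  have he := adm_sum hneg ({i, j, k, l} : Finset ι)ᶜ
  have Ri := adm_out hneg ({i, j, k, l} : Finset ι)ᶜ (l := i) (by simp)
  have Rj := adm_out hneg ({i, j, k, l} : Finset ι)ᶜ (l := j) (by simp)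
  have Rk := adm_out hneg ({i, j, k, l} : Finset ι)ᶜ (l := k) (by simp)
  have Rl := adm_out hneg ({i, j, k, l} : Finset ι)ᶜ (l := l) (by simp)
  have hc1 := fun n (hn : n ∈ ({i, j, k, l} : Finset ι)ᶜ) => adm_cell hneg _ hn
  obtain ⟨R, hR⟩ : ∃ R, R = ∑ n ∈ ({i, j, k, l} : Finset ι)ᶜ, z n := ⟨_, rfl⟩
  rw [← hR] at hsum he Ri Rj Rk Rl hc1
  have zw : ∀ w : E, ⟪w, z i⟫ + ⟪w, z j⟫ + ⟪w, z k⟫ + ⟪w, z l⟫ + ⟪w, R⟫ = 0 := fun w => by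
    have := congrArg (fun v => ⟪w, v⟫) hsum
    simpa only [inner_add_right, inner_zero_right] using this
  have zR := zw R
  rw [real_inner_self_eq_norm_sq] at zR
  have e54 : ((4 : ℝ) + 1) / 4 = 5 / 4 := by norm_num
  refine le_trans (removal hs z hT (m := 4) (by norm_num) (z i + (1 / 4 : ℝ) • R)
    (z k + (1 / 4 : ℝ) • R) R (1 / 2) (c0 * 0.87) (fun x => ?_) (fun n hn => ?_) ?_) ?_
  · have z1 := zw x
    simp only [real_inner_comm _ x] at z1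
    have a1 := le_mx hT z x (i := i) (by simp)
    have a2 := le_mx hT z x (i := j) (by simp)
    have a3 := le_mx hT z x (i := k) (by simp)
    have a4 := le_mx hT z x (i := l) (by simp)
    unfold M3
    rw [inner_add_left, inner_add_left, real_inner_smul_left, max_le_iff, max_le_iff]
    refine ⟨⟨?_, ?_⟩, ?_⟩ <;> linarith
  · rw [e54]
    have hn' := Finset.mem_compl.1 hn
    simp only [Finset.mem_insert, Finset.mem_singleton, not_or] at hn'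
    refine static4_vec (hneg _ _ hik) ac' Ri Rk (by linarith) hc hca ha (by linarith)
      (hneg _ _ hn'.1) (hneg _ _ hn'.2.2.1) ?_ (hc1 n hn)
      ((Finset.single_le_sum (f := fun l => ‖z l‖ ^ 2) (fun l _ => sq_nonneg _) hn).trans hε)
    linarith [zw (z n), hneg _ _ hn'.2.1, hneg _ _ hn'.2.2.2]
  · rw [e54]
    exact static4_vec (hneg _ _ hik) ac' Ri Rk (by linarith) hc hca ha (by linarith) Ri Rk
      (by rw [real_inner_self_eq_norm_sq]; linarith) (real_inner_self_eq_norm_sq _).le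
      (by linarith)
  · rw [e54]
    have m4 := hB fun n => z n - (-(1 / 4 : ℝ) • R)
    rw [mu_sub, s4] at m4
    have r : ∀ v : E, ‖v - (-(1 / 4 : ℝ) • R)‖ ^ 2 = ‖v‖ ^ 2 + 1 / 2 * ⟪R, v⟫ + ‖R‖ ^ 2 / 16 :=
      fun v => by
        rw [norm_sub_sq_real, real_inner_smul_right, norm_smul, mul_pow, Real.norm_eq_abs, sq_abs,
          real_inner_comm R v]
        ring
    simp only [r] at m4
    obtain ⟨y, hy⟩ : ∃ y, y = ∑ n ∈ ({i, j, k, l} : Finset ι)ᶜ, ‖z n‖ ^ 2 + ‖R‖ ^ 2 / 4 := ⟨_, rfl⟩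
    have y0 : 0 ≤ y := by rw [hy]; positivity
    have y1 : y ≤ 0.002 := by linarith
    have m5 : mu {i, j, k, l} hT z ≤ tau - y / 2 := by
      refine m4.trans (sqrt_le_iff.2 ⟨by linarith [tau_lo], ?_⟩)
      have : ‖z i‖ ^ 2 + 1 / 2 * ⟪R, z i⟫ + ‖R‖ ^ 2 / 16 + (‖z j‖ ^ 2 + 1 / 2 * ⟪R, z j⟫ +
          ‖R‖ ^ 2 / 16) + (‖z k‖ ^ 2 + 1 / 2 * ⟪R, z k⟫ + ‖R‖ ^ 2 / 16) +
          (‖z l‖ ^ 2 + 1 / 2 * ⟪R, z l⟫ + ‖R‖ ^ 2 / 16) = tau - y := by linarith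
      rw [this]
      nlinarith [sq_nonneg y]
    rw [← hy]
    nlinarith [mul_le_mul_of_nonneg_right c0_hi y0]

end

end Vale.Agent.P226
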