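import Vale.Agent.P226.Crit
import Vale.Agent.P226.Static
import Vale.Agent.P226.Num

open MeasureTheory ProbabilityTheory Set Filter Topology Real
open scoped RealInnerProductSpace

namespace Vale.Agent.P226

noncomputable section

lemma quad {F κ a J : ℝ} (hF : tau < F) (hκ : 0 < κ) (hJ : 0 ≤ J) (h1 : κ * J ≤ tau)
    (h : F ≤ √(tau * (F - κ * a)) + κ * J) : a * tau / F ≤ 2 * J - κ / tau * J ^ 2 := by
  have t0 := tau_pos
  have F0 : 0 < F := t0.trans hF
  have h2 : (F - κ * J) ^ 2 ≤ tau * (F - κ * a) :=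
    (le_sqrt' (by linarith)).1 (by linarith)
  have h3 : (κ * J) ^ 2 ≤ tau * F := by
    have := mul_nonneg hκ.le hJ
    nlinarith
  have h4 : (κ * J) ^ 2 * (F - tau) ≤ tau * F * (F - tau) :=
    mul_le_mul_of_nonneg_right h3 (by linarith)
  rw [div_le_iff₀ F0]
  have e : (2 * J - κ / tau * J ^ 2) * F = (2 * J * tau * F * κ - (κ * J) ^ 2 * F) / (tau * κ) := by
    field_simp
  rw [e, le_div_iff₀ (by positivity)]
  nlinarith [mul_le_mul_of_nonneg_left h2 t0.le]

lemma exists_top4 {ι : Type} [Fintype ι] [DecidableEq ι] (hk : 4 ≤ Fintype.card ι) (a : ι → ℝ) :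
    ∃ i j k l : ι, i ≠ j ∧ i ≠ k ∧ i ≠ l ∧ j ≠ k ∧ j ≠ l ∧ k ≠ l ∧ a j ≤ a i ∧ a k ≤ a j ∧
      a l ≤ a k ∧ ∀ n ∈ ({i, j, k, l} : Finset ι)ᶜ, a n ≤ a l := by
  have ne : ∀ s : Finset ι, s.card ≤ 3 → sᶜ.Nonempty := fun s hs => by
    rw [← Finset.card_pos, Finset.card_compl]
    omega
  obtain ⟨i, -, hi⟩ := Finset.exists_max_image _ a (ne ∅ (by simp))
  obtain ⟨j, hj0, hj⟩ := Finset.exists_max_image _ a (ne {i} (by simp))
  obtain ⟨k, hk0, hk⟩ := Finset.exists_max_image _ a (ne {i, j} (Finset.card_le_two.trans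
    (by norm_num)))
  obtain ⟨l, hl0, hl⟩ := Finset.exists_max_image _ a (ne {i, j, k} Finset.card_le_three)
  simp only [Finset.mem_compl, Finset.mem_insert, Finset.mem_singleton, not_or,
    Finset.notMem_empty, not_false_eq_true, forall_const] at hi hj0 hj hk0 hk hl0 hl ⊢
  exact ⟨i, j, k, l, Ne.symm hj0, Ne.symm hk0.1, Ne.symm hl0.1, Ne.symm hk0.2, Ne.symm hl0.2.1,
    Ne.symm hl0.2.2, hi j, hj k hk0.1, hk l ⟨hl0.1, hl0.2.1⟩, fun n hn =>
      hl n ⟨hn.1, hn.2.1, hn.2.2.1⟩⟩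

variable {E : Type} [NormedAddCommGroup E] [InnerProductSpace ℝ E] {ι : Type}
  [FiniteDimensional ℝ E] [MeasurableSpace E] [BorelSpace E] [Fintype ι] [DecidableEq ι]

lemma Crit.cell {z : ι → E} {A : ι → Set E} (h : Crit z A) (hF : tau < ∑ i, ‖z i‖ ^ 2)
    (IH : ∀ (s : Finset ι) (hs : s.Nonempty), s ≠ Finset.univ → Bound E s hs)
    (hk : 4 ≤ Fintype.card ι) (j : ι) :
    Cell ((Fintype.card ι : ℝ) / (Fintype.card ι - 1) / tau)
      (‖z j‖ ^ 2 * tau / ∑ i, ‖z i‖ ^ 2) ((stdGaussian E).real (A j)) := by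
  obtain ⟨k, hk'⟩ : ∃ k : ℝ, k = Fintype.card ι := ⟨_, rfl⟩
  have k4 : 4 ≤ k := by rw [hk']; exact_mod_cast hk
  have k0 : 0 < k := by linarith
  have k1 : 0 < k - 1 := by linarith
  have t0 := tau_pos
  have hneg := h.neg hF IH
  obtain ⟨w, hw⟩ := exists_w h.sum hneg j
  rw [← hk'] at hw ⊢
  have hc : (Finset.univ.erase j).card = Fintype.card ι - 1 := by
    rw [Finset.card_erase_of_mem (Finset.mem_univ j), Finset.card_univ]
  have hs : (Finset.univ.erase j).Nonempty := by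
    rw [← Finset.card_pos, hc]
    omega
  have hz : z j ≠ 0 := by
    obtain ⟨i, hi⟩ := hs
    intro h0
    have := hneg i j (Finset.ne_of_mem_erase hi)
    rw [h0, inner_zero_right] at this
    exact lt_irrefl _ this
  have p0 : 0 < (stdGaussian E).real (A j) := by
    refine lt_of_le_of_ne measureReal_nonneg fun h0 => hz ?_
    rw [← h.hbar, bar]
    exact setIntegral_measure_zero _ ((measureReal_eq_zero_iff (measure_ne_top _ _)).1 h0.symm)
  obtain ⟨F, hF'⟩ : ∃ F, F = ∑ i, ‖z i‖ ^ 2 := ⟨_, rfl⟩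
  rw [← hF'] at hF ⊢
  have F0 : 0 < F := t0.trans hF
  have sc : ‖z j‖ ^ 2 * tau / F ≤ ‖z j‖ ^ 2 := by
    rw [div_le_iff₀ F0]
    exact mul_le_mul_of_nonneg_left hF.le (sq_nonneg _)
  refine ⟨by positivity, p0.le, sc.trans ?_, by positivity, ?_⟩
  · have := h.E1 j hz 0
    rw [zero_mul, add_zero, KK_zero] at this
    nlinarith [c0_hi, norm_nonneg (z j)]
  refine (le_or_gt _ _).imp id fun hp => ?_
  obtain ⟨x, hx⟩ := exists_Ph_eq p0 (by linarith)
  have x0 : x ≤ 0 := by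
    refine (strictMono_Ph.lt_iff_lt.1 ?_).le
    rw [hx, Ph_zero]
    exact hp
  refine ⟨x, x0, hx.symm, sc.trans ?_, ?_⟩
  · have := h.E1 j hz x
    rw [← hx, KK] at this
    exact pow_le_pow_left₀ (norm_nonneg _) (by linarith) 2
  have hβ : 0 < 1 - 1 / k := by
    rw [sub_pos, div_lt_one k0]
    linarith
  have e2 := h.E2 j hs hβ (by simpa using hw j) (fun l hl => by simpa [hl] using hw l) hx.symm
  have e3 := IH _ hs (fun h => by simpa using h.ge (Finset.mem_univ j))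
    fun l => z l - (-(1 / (k - 1))) • z j
  rw [mu_sub] at e3
  have e4 : ∑ l ∈ Finset.univ.erase j, z l = -z j := by
    have := h.sum
    rw [← Finset.add_sum_erase _ _ (Finset.mem_univ j)] at this
    exact eq_neg_of_add_eq_zero_right this
  have e5 : ∑ l ∈ Finset.univ.erase j, ‖z l - (-(1 / (k - 1))) • z j‖ ^ 2 =
      F - k / (k - 1) * ‖z j‖ ^ 2 := by
    simp only [norm_sub_sq_real, Finset.sum_add_distrib, Finset.sum_sub_distrib,
      ← Finset.mul_sum, ← sum_inner, e4, Finset.sum_const, hc, nsmul_eq_mul]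
    rw [hF', ← Finset.add_sum_erase _ _ (Finset.mem_univ j), Nat.cast_sub (by omega), ← hk',
      real_inner_smul_right, inner_neg_left, real_inner_self_eq_norm_sq, norm_smul, mul_pow,
      Real.norm_eq_abs, sq_abs, Nat.cast_one]
    field_simp
    ring
  rw [e5] at e3
  have J0 : 0 ≤ ph x * KK x := (mul_pos (ph_pos x) (KK_pos x)).le
  have J1 : ph x * KK x ≤ c0 * c0 := by
    refine mul_le_mul (ph_le x) ?_ (KK_pos x).le c0_pos.le
    unfold KK
    nlinarith [ph_le x, Ph_pos x]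
  have κ1 : k / (k - 1) ≤ 4 / 3 := by
    rw [div_le_iff₀ k1]
    linarith
  refine quad hF (by positivity) J0 ?_ ?_
  · have := mul_le_mul κ1 J1 J0 (by norm_num)
    rw [tau_eq]
    nlinarith [c0_pos]
  · have e : ph x * KK x / (1 - 1 / k) = k / (k - 1) * (ph x * KK x) := by
      field_simp
    rw [← hF', e] at e2
    linarith

lemma final_case (hs : (Finset.univ : Finset ι).Nonempty) {z : ι → E} {p : ι → ℝ} {r : ℝ}
    (hk : 4 ≤ Fintype.card ι) (hc : ∀ i, Cell r (‖z i‖ ^ 2) (p i)) (hr : 2.7925 ≤ r)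
    (hr4 : Fintype.card ι = 4 → 3.7233 ≤ r) (hp : ∑ i, p i = 1) (hsum : ∑ i, z i = 0)
    (hneg : ∀ i j, i ≠ j → ⟪z i, z j⟫ ≤ 0) (hS : ∑ i, ‖z i‖ ^ 2 = tau)
    (IH : ∀ (s : Finset ι) (hs : s.Nonempty), s ≠ Finset.univ → Bound E s hs) :
    mu Finset.univ hs z ≤ tau := by
  obtain ⟨i, j, k, l, hij, hik, hil, hjk, hjl, hkl, h12, h23, h34, hn⟩ :=
    exists_top4 hk fun i => ‖z i‖ ^ 2
  have c1 : ∀ i, Cell 2.7925 (‖z i‖ ^ 2) (p i) := fun i => (hc i).mono (by norm_num) hr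
  have s4 : ∀ f : ι → ℝ, ∑ n, f n =
      f i + f j + f k + f l + ∑ n ∈ ({i, j, k, l} : Finset ι)ᶜ, f n := fun f => by
    rw [← Finset.sum_add_sum_compl {i, j, k, l}, Finset.sum_insert (by simp [hij, hik, hil]),
      Finset.sum_insert (by simp [hjk, hjl]), Finset.sum_pair hkl]
    ring
  have s3 : ∀ f : ι → ℝ, ∑ n ∈ ({i, j, k} : Finset ι)ᶜ, f n =
      f l + ∑ n ∈ ({i, j, k, l} : Finset ι)ᶜ, f n := fun f => by
    have h1 := s4 f
    rw [← Finset.sum_add_sum_compl {i, j, k}, Finset.sum_insert (by simp [hij, hik]),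
      Finset.sum_pair hjk] at h1
    linarith
  have hT : ({i, j, k, l} : Finset ι).card = 4 := by
    rw [Finset.card_insert_of_notMem (by simp [hij, hik, hil]),
      Finset.card_insert_of_notMem (by simp [hjk, hjl]), Finset.card_pair hkl]
  have lin : ∀ c : ℝ, (∀ n ∈ ({i, j, k, l} : Finset ι)ᶜ, c * ‖z n‖ ^ 2 ≤ p n) →
      c * ∑ n ∈ ({i, j, k, l} : Finset ι)ᶜ, ‖z n‖ ^ 2 ≤
        ∑ n ∈ ({i, j, k, l} : Finset ι)ᶜ, p n := fun c h => by
    rw [Finset.mul_sum]
    exact Finset.sum_le_sum h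
  have hS' := hS
  have tl := tau_lo
  have th := tau_hi
  rw [s4] at hp hS'
  rcases lt_or_ge (‖z k‖ ^ 2) 0.048 with h3 | h3
  · have := lin 3.68 fun n h => (c1 n).G1 (by linarith [hn n h])
    linarith [(c1 i).G2, (c1 j).G2, (c1 k).G1 h3.le, (c1 l).G1 (by linarith)]
  rcases le_or_gt (‖z l‖ ^ 2 + ∑ n ∈ ({i, j, k, l} : Finset ι)ᶜ, ‖z n‖ ^ 2) 0.03 with h4 | h4
  · exact static3 hs hsum hneg hS hij hik hjk (by linarith) (by linarith) h3 (by rwa [s3])
  rcases eq_or_ne (Fintype.card ι) 4 with h5 | h5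
  · have c2 : ∀ i, Cell 3.7233 (‖z i‖ ^ 2) (p i) := fun i => (hc i).mono (by norm_num) (hr4 h5)
    have e : ({i, j, k, l} : Finset ι)ᶜ = ∅ := by
      rw [← Finset.card_eq_zero, Finset.card_compl, hT, h5]
    rw [e, Finset.sum_empty, add_zero] at hp hS' h4
    exact (lp2 (c2 i) (c2 j) (c2 k) (c2 l) h12 h23 h34 h3 h4.le (by linarith) hp.le).elim
  have hne : ({i, j, k, l} : Finset ι) ≠ Finset.univ := fun h => by
    rw [h, Finset.card_univ] at hT
    exact h5 hT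
  have e0 : 0 ≤ ∑ n ∈ ({i, j, k, l} : Finset ι)ᶜ, ‖z n‖ ^ 2 := by positivity
  rcases le_or_gt (∑ n ∈ ({i, j, k, l} : Finset ι)ᶜ, ‖z n‖ ^ 2) 0.001 with h6 | h6
  · have a1 : ∑ n, ⟪z n, z k⟫ = 0 := by rw [← sum_inner, hsum, inner_zero_left]
    rw [s4, real_inner_self_eq_norm_sq] at a1
    have a2 : ∑ n ∈ ({i, j, k, l} : Finset ι)ᶜ, ⟪z n, z k⟫ ≤ 0 :=
      Finset.sum_nonpos fun n h => hneg n k fun h' => by simp [h'] at h
    have a3 := hneg l k hkl.symm
    rcases le_total (-⟪z i, z k⟫) (‖z k‖ ^ 2 / 2) with a4 | a4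
    · exact static4 hs hsum hneg hS hij hik hil hjk hjl hkl (by simp) (IH _ _ hne) h3
        (by linarith) (hc i).a1 a4 h6
    · have e : ({j, i, k, l} : Finset ι) = {i, j, k, l} := Finset.insert_comm _ _ _
      exact static4 hs hsum hneg hS hij.symm hjk hjl hik hil hkl (by simp)
        (IH _ _ (e ▸ hne)) h3 h23 (hc j).a1 (by linarith) (e ▸ h6)
  have h7 : ‖z l‖ ^ 2 ≤ 0.0896 := by linarith
  refine (lp4 (c1 i) (c1 j) (c1 k) (c1 l) h12 h23 h3 h4.le h6.le h7 (by linarith) hp.le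
    (Finset.sum_nonneg fun n _ => (hc n).p0) ?_
    (lin _ fun n h => (hc n).lin ((hn n h).trans h7) (by norm_num) (by norm_num))
    fun h8 => lin _ fun n h => (hc n).lin ((hn n h).trans h8) (by norm_num) (by norm_num)).elim
  refine le_trans (Finset.sum_le_sum fun n _ => (hc n).sq) ?_
  rw [← Finset.mul_sum]
  exact mul_le_mul_of_nonneg_left
    (Finset.sum_sq_le_sq_sum_of_nonneg fun n _ => (hc n).p0) (by norm_num)

lemma step {ι : Type} [Fintype ι] [LinearOrder ι] (hs : (Finset.univ : Finset ι).Nonempty)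
    (IH : ∀ (s : Finset ι) (hs : s.Nonempty), s ≠ Finset.univ → Bound E s hs) :
    Bound E Finset.univ hs := by
  rcases le_or_gt (Fintype.card ι) 3 with hk | hk
  · exact bound_small hs hk
  by_contra hb
  obtain ⟨z, A, h, hF⟩ := exists_crit hs hb
  have hc := h.cell hF IH hk
  have hm := h.le_mu hs
  have hneg := h.neg hF IH
  obtain ⟨F, hF'⟩ : ∃ F, F = ∑ i, ‖z i‖ ^ 2 := ⟨_, rfl⟩
  rw [← hF'] at hF hc hm
  have t0 := tau_pos
  have F0 : 0 < F := t0.trans hF
  obtain ⟨c, hc'⟩ : ∃ c, c = √(tau / F) := ⟨_, rfl⟩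
  have c0 : 0 ≤ c := hc' ▸ sqrt_nonneg _
  have c2 : c ^ 2 = tau / F := by rw [hc', sq_sqrt (by positivity)]
  have hn : ∀ i, ‖c • z i‖ ^ 2 = ‖z i‖ ^ 2 * tau / F := fun i => by
    rw [norm_smul, mul_pow, Real.norm_eq_abs, sq_abs, c2]
    ring
  have k4 : (4 : ℝ) ≤ Fintype.card ι := by exact_mod_cast hk
  have th := tau_hi
  have := final_case hs (z := fun i => c • z i) hk (fun i => (hn i).symm ▸ hc i) ?_ ?_
    h.part.sum_real (by rw [← Finset.smul_sum, h.sum, smul_zero]) (fun i j hij => ?_) ?_ IH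
  · rw [mu_smul hs z c0] at this
    have h1 : c * F ≤ tau := (mul_le_mul_of_nonneg_left hm c0).trans this
    have h2 : (c * F) ^ 2 ≤ tau ^ 2 := pow_le_pow_left₀ (by positivity) h1 2
    have h3 : (c * F) ^ 2 = tau * F := by
      rw [mul_pow, c2]
      field_simp
    nlinarith
  · rw [le_div_iff₀ t0, le_div_iff₀ (by linarith)]
    nlinarith
  · intro h4
    rw [h4, le_div_iff₀ t0]
    norm_num
    linarith
  · rw [real_inner_smul_left, real_inner_smul_right]
    exact mul_nonpos_of_nonneg_of_nonpos c0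
      (mul_nonpos_of_nonneg_of_nonpos c0 (hneg i j hij).le)
  · simp only [hn]
    rw [← Finset.sum_div, ← Finset.sum_mul, ← hF']
    field_simp

variable (E) in
theorem bound_all (n : ℕ) : ∀ (ι : Type) [Fintype ι] [LinearOrder ι], Fintype.card ι = n →
    ∀ hs : (Finset.univ : Finset ι).Nonempty, Bound E Finset.univ hs := by
  induction n using Nat.strong_induction_on with
  | _ n ih =>
    intro ι _ _ hn hs
    refine step hs fun s hs' hne => bound_of_subtype hs' (Finset.univ_nonempty_iff.2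
      hs'.coe_sort) (ih s.card ?_ s (Fintype.card_coe s) _)
    rw [← hn, ← Finset.card_univ]
    exact Finset.card_lt_card (Finset.ssubset_univ_iff.2 hne)

end

end Vale.Agent.P226
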