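import Vale.Agent.P226.Gauss

open MeasureTheory ProbabilityTheory Set Filter Topology Real
open scoped RealInnerProductSpace

namespace Vale.Agent.P226

noncomputable section

variable {E : Type} [NormedAddCommGroup E] [InnerProductSpace ℝ E] {ι : Type}

def tau : ℝ := 9 / (8 * π)

lemma tau_lo : 0.358098 ≤ tau := by
  unfold tau
  rw [le_div_iff₀ (by linarith [pi_pos])]
  linarith [pi_lt_d6]

lemma tau_hi : tau ≤ 0.358099 := by
  unfold tau
  rw [div_le_iff₀ (by linarith [pi_pos])]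
  linarith [pi_gt_d6]

lemma tau_pos : 0 < tau := by linarith [tau_lo]

lemma tau_eq : tau = 9 / 4 * c0 ^ 2 := by
  rw [c0_sq, tau]
  have := pi_pos
  field_simp
  norm_num

lemma sqrt_tau : √tau = 3 / 2 * c0 := by
  rw [tau_eq, show 9 / 4 * c0 ^ 2 = (3 / 2 * c0) ^ 2 by ring, sqrt_sq (by linarith [c0_pos])]

def mx (s : Finset ι) (hs : s.Nonempty) (v : ι → E) (x : E) : ℝ := s.sup' hs fun i => ⟪v i, x⟫

lemma le_mx {s : Finset ι} (hs : s.Nonempty) (v : ι → E) (x : E) {i : ι} (hi : i ∈ s) :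
    ⟪v i, x⟫ ≤ mx s hs v x :=
  Finset.le_sup' (fun i => ⟪v i, x⟫) hi

lemma mx_le {s : Finset ι} (hs : s.Nonempty) (v : ι → E) (x : E) {c : ℝ}
    (h : ∀ i ∈ s, ⟪v i, x⟫ ≤ c) : mx s hs v x ≤ c :=
  Finset.sup'_le hs _ h

lemma exists_mx {s : Finset ι} (hs : s.Nonempty) (v : ι → E) (x : E) :
    ∃ i ∈ s, mx s hs v x = ⟪v i, x⟫ :=
  Finset.exists_mem_eq_sup' hs _

@[fun_prop]
lemma continuous_mx {s : Finset ι} (hs : s.Nonempty) (v : ι → E) : Continuous (mx s hs v) :=
  Continuous.finset_sup'_apply hs fun _ _ => by fun_prop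

lemma mx_sub {s : Finset ι} (hs : s.Nonempty) (v : ι → E) (c x : E) :
    mx s hs (fun i => v i - c) x = mx s hs v x - ⟪c, x⟫ := by
  refine le_antisymm (mx_le hs _ x fun i hi => ?_) ?_
  · rw [inner_sub_left]
    linarith [le_mx hs v x hi]
  · obtain ⟨i, hi, h⟩ := exists_mx hs v x
    have := le_mx hs (fun i => v i - c) x hi
    rw [inner_sub_left] at this
    linarith

lemma mx_smul {s : Finset ι} (hs : s.Nonempty) (v : ι → E) {c : ℝ} (hc : 0 ≤ c) (x : E) :
    mx s hs (fun i => c • v i) x = c * mx s hs v x := by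
  refine le_antisymm (mx_le hs _ x fun i hi => ?_) ?_
  · rw [real_inner_smul_left]
    exact mul_le_mul_of_nonneg_left (le_mx hs v x hi) hc
  · obtain ⟨i, hi, h⟩ := exists_mx hs v x
    have := le_mx hs (fun i => c • v i) x hi
    rw [real_inner_smul_left] at this
    rw [h]
    exact this

variable [FiniteDimensional ℝ E] [MeasurableSpace E] [BorelSpace E]

lemma integrable_mx {s : Finset ι} (hs : s.Nonempty) (v : ι → E) :
    Integrable (mx s hs v) (stdGaussian E) := by
  refine Integrable.mono' (integrable_finset_sum s fun i _ => (integrable_inner (v i)).abs)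
    (continuous_mx hs v).aestronglyMeasurable (ae_of_all _ fun x => ?_)
  obtain ⟨i, hi, h⟩ := exists_mx hs v x
  rw [h, Real.norm_eq_abs]
  exact Finset.single_le_sum (f := fun i => |⟪v i, x⟫|) (fun i _ => abs_nonneg _) hi

def mu (s : Finset ι) (hs : s.Nonempty) (v : ι → E) : ℝ := ∫ x, mx s hs v x ∂stdGaussian E

lemma mu_sub {s : Finset ι} (hs : s.Nonempty) (v : ι → E) (c : E) :
    mu s hs (fun i => v i - c) = mu s hs v := by
  unfold mu
  simp_rw [mx_sub]
  rw [integral_sub (integrable_mx hs v) (integrable_inner c), integral_inner_std, sub_zero]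

lemma mu_smul {s : Finset ι} (hs : s.Nonempty) (v : ι → E) {c : ℝ} (hc : 0 ≤ c) :
    mu s hs (fun i => c • v i) = c * mu s hs v := by
  unfold mu
  simp_rw [mx_smul hs v hc]
  rw [integral_const_mul]

lemma integrable_max3 (a b c : E) :
    Integrable (fun x => max (max ⟪a, x⟫ ⟪b, x⟫) ⟪c, x⟫) (stdGaussian E) :=
  ((integrable_inner a).sup (integrable_inner b)).sup (integrable_inner c)

lemma integral_max3 (a b c : E) :
    ∫ x, max (max ⟪a, x⟫ ⟪b, x⟫) ⟪c, x⟫ ∂stdGaussian E =
      c0 * (‖a - b‖ + ‖a - c‖ + ‖b - c‖) / 2 := by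
  have h1 := integral_neg_std (fun x => max (max ⟪a, x⟫ ⟪b, x⟫) ⟪c, x⟫) (by fun_prop)
  have i1 := integrable_max3 a b c
  have i2 : Integrable (fun x => max (max ⟪a, -x⟫ ⟪b, -x⟫) ⟪c, -x⟫) (stdGaussian E) := by
    have := integrable_max3 (-a) (-b) (-c)
    simpa [inner_neg_left, inner_neg_right] using this
  have h2 : ∀ x, max (max ⟪a, x⟫ ⟪b, x⟫) ⟪c, x⟫ + max (max ⟪a, -x⟫ ⟪b, -x⟫) ⟪c, -x⟫ =
      (|⟪a - b, x⟫| + |⟪a - c, x⟫| + |⟪b - c, x⟫|) / 2 := fun x => by
    simp only [inner_neg_right, inner_sub_left]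
    generalize ⟪a, x⟫ = p
    generalize ⟪b, x⟫ = q
    generalize ⟪c, x⟫ = r
    simp only [max_def, abs]
    split_ifs <;> linarith
  have h3 := integral_add i1 i2
  simp_rw [h2] at h3
  rw [integral_div, integral_add, integral_add (integrable_inner _).abs (integrable_inner _).abs,
    integral_abs_inner, integral_abs_inner, integral_abs_inner, h1] at h3
  · linarith
  · exact (integrable_inner _).abs.add (integrable_inner _).abs
  · exact (integrable_inner _).abs

omit [FiniteDimensional ℝ E] [MeasurableSpace E] [BorelSpace E] in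
lemma per_le (a b c : E) : c0 * (‖a - b‖ + ‖a - c‖ + ‖b - c‖) / 2 ≤
    √(tau * (‖a‖ ^ 2 + ‖b‖ ^ 2 + ‖c‖ ^ 2)) := by
  refine le_sqrt_of_sq_le ?_
  have h1 := norm_sub_sq_real a b
  have h2 := norm_sub_sq_real a c
  have h3 := norm_sub_sq_real b c
  have h4 := norm_add_sq_real (a + b) c
  have h5 := norm_add_sq_real a b
  rw [inner_add_left] at h4
  have h6 := sq_nonneg ‖a + b + c‖
  have h7 : (‖a - b‖ + ‖a - c‖ + ‖b - c‖) ^ 2 ≤ 9 * (‖a‖ ^ 2 + ‖b‖ ^ 2 + ‖c‖ ^ 2) := by
    nlinarith [sq_nonneg (‖a - b‖ - ‖a - c‖), sq_nonneg (‖a - b‖ - ‖b - c‖),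
      sq_nonneg (‖a - c‖ - ‖b - c‖)]
  rw [tau_eq]
  nlinarith [sq_nonneg c0]

variable (E) in
def Bound (s : Finset ι) (hs : s.Nonempty) : Prop :=
  ∀ v : ι → E, mu s hs v ≤ √(tau * ∑ i ∈ s, ‖v i‖ ^ 2)

lemma mu_le3 {s : Finset ι} (hs : s.Nonempty) (v : ι → E) (a b c : E)
    (h : ∀ i ∈ s, v i = a ∨ v i = b ∨ v i = c) :
    mu s hs v ≤ c0 * (‖a - b‖ + ‖a - c‖ + ‖b - c‖) / 2 := by
  rw [← integral_max3]
  refine integral_mono (integrable_mx hs v) (integrable_max3 a b c) fun x => mx_le hs v x ?_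
  intro i hi
  rcases h i hi with h | h | h <;> simp [h]

lemma bound_small [DecidableEq ι] {s : Finset ι} (hs : s.Nonempty) (h : s.card ≤ 3) :
    Bound E s hs := by
  intro v
  have h0 := hs.card_pos
  obtain h | h | h : s.card = 1 ∨ s.card = 2 ∨ s.card = 3 := by omega
  · obtain ⟨a, rfl⟩ := Finset.card_eq_one.1 h
    refine ((mu_le3 hs v (v a) 0 0 (by simp)).trans (per_le _ _ _)).trans (le_of_eq ?_)
    simp
  · obtain ⟨a, b, hab, rfl⟩ := Finset.card_eq_two.1 h
    refine ((mu_le3 hs v (v a) (v b) 0 ?_).trans (per_le _ _ _)).trans (le_of_eq ?_)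
    · intro i hi
      simp only [Finset.mem_insert, Finset.mem_singleton] at hi
      rcases hi with rfl | rfl <;> simp
    · rw [Finset.sum_pair hab]
      simp
  · obtain ⟨a, b, c, hab, hac, hbc, rfl⟩ := Finset.card_eq_three.1 h
    refine ((mu_le3 hs v (v a) (v b) (v c) ?_).trans (per_le _ _ _)).trans (le_of_eq ?_)
    · intro i hi
      simp only [Finset.mem_insert, Finset.mem_singleton] at hi
      rcases hi with rfl | rfl | rfl <;> simp
    · rw [Finset.sum_insert (by simp [hab, hac]), Finset.sum_pair hbc, add_assoc]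

lemma bound_of_subtype {s : Finset ι} (hs : s.Nonempty) (hs' : (Finset.univ : Finset s).Nonempty)
    (h : Bound E Finset.univ hs') : Bound E s hs := by
  intro v
  have h1 := h fun i => v i
  rw [Finset.sum_coe_sort s fun i => ‖v i‖ ^ 2] at h1
  refine le_trans ?_ h1
  refine integral_mono (integrable_mx hs v) (integrable_mx hs' _) fun x => mx_le hs v x ?_
  intro i hi
  exact le_mx hs' (fun i : s => v i) x (Finset.mem_univ ⟨i, hi⟩)

structure Part (A : ι → Set E) : Prop where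
  meas : ∀ i, NullMeasurableSet (A i) (stdGaussian E)
  disj : Pairwise (Function.onFun (AEDisjoint (stdGaussian E)) A)
  cover : (⋃ i, A i) =ᵐ[stdGaussian E] (univ : Set E)

lemma Part.integral [Fintype ι] {A : ι → Set E} (h : Part A) {F : Type} [NormedAddCommGroup F]
    [NormedSpace ℝ F] {f : E → F} (hf : Integrable f (stdGaussian E)) :
    ∫ x, f x ∂stdGaussian E = ∑ i, ∫ x in A i, f x ∂stdGaussian E := by
  rw [← setIntegral_univ, ← setIntegral_congr_set h.cover,
    integral_iUnion_ae h.meas h.disj hf.integrableOn, tsum_fintype]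

def bar (A : Set E) : E := ∫ x in A, x ∂stdGaussian E

lemma Part.sum_bar [Fintype ι] {A : ι → Set E} (h : Part A) : ∑ i, bar (A i) = 0 := by
  unfold bar
  rw [← h.integral integrable_id_std, integral_id_stdGaussian]

lemma Part.sum_real [Fintype ι] {A : ι → Set E} (h : Part A) :
    ∑ i, (stdGaussian E).real (A i) = 1 := by
  have := h.integral (integrable_const (1 : ℝ))
  simpa using this.symm

lemma Part.sum_le [Fintype ι] {A : ι → Set E} (h : Part A) (y : ι → E) {M : E → ℝ}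
    (hM : Integrable M (stdGaussian E)) (hy : ∀ i x, ⟪y i, x⟫ ≤ M x) :
    ∑ i, ⟪y i, bar (A i)⟫ ≤ ∫ x, M x ∂stdGaussian E := by
  rw [h.integral hM]
  refine Finset.sum_le_sum fun i _ => ?_
  rw [bar, ← setIntegral_inner]
  exact integral_mono (integrable_inner _).integrableOn hM.integrableOn (hy i)

lemma le_tau_of_le_sqrt {F : ℝ} (h : F ≤ √(tau * F)) : F ≤ tau := by
  by_contra hc
  push Not at hc
  have h0 := tau_pos
  have : √(tau * F) < F := by
    rw [sqrt_lt' (by linarith)]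
    nlinarith
  linarith

lemma Part.le_tau [Fintype ι] {A : ι → Set E} (h : Part A)
    (hs : (Finset.univ : Finset ι).Nonempty) (hb : Bound E Finset.univ hs) :
    ∑ i, ‖bar (A i)‖ ^ 2 ≤ tau := by
  refine le_tau_of_le_sqrt (le_trans ?_ (hb fun i => bar (A i)))
  simp_rw [← real_inner_self_eq_norm_sq]
  exact h.sum_le _ (integrable_mx hs _) fun i x =>
    le_mx hs (fun i => bar (A i)) x (Finset.mem_univ i)

end

end Vale.Agent.P226
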