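import Vale.Agent.P226.Theta
import Vale.Agent.P226.Mu

open Set Real

namespace Vale.Agent.P226

noncomputable section

lemma RR_le {κ c η m s : ℝ} (hκ : 0 < κ) (hc : 1 ≤ c) (hη : 0 < η) (hs0 : 0 ≤ s) (hs : s ≤ m)
    (h1 : 35 * c + 9 * (c - 1) * (κ * m ^ 2) ≤ 63) (h2 : κ * m ≤ η * (3 + c * (κ * m ^ 2)))
    (h3 : 2 * c * η * m ≤ 1) : RR (κ * s ^ 2) ≤ η * s := by
  have hy : 0 ≤ κ * s ^ 2 := by positivity
  have hy' : κ * s ^ 2 ≤ κ * m ^ 2 := by gcongr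
  have a1 : RR (κ * s ^ 2) ≤ κ * s ^ 2 / (3 + c * (κ * s ^ 2)) := by
    unfold RR
    set y := κ * s ^ 2
    rw [div_le_div_iff₀ (by positivity) (by positivity)]
    have : 35 * c + 9 * (c - 1) * y ≤ 63 := by nlinarith
    nlinarith [mul_nonneg (sq_nonneg y) (sub_nonneg.2 this)]
  refine a1.trans ?_
  rw [div_le_iff₀ (by positivity)]
  have a2 : κ * s ≤ η * (3 + c * (κ * s ^ 2)) := by
    have e1 : c * η * (s + m) ≤ 1 := by
      have : c * η * s ≤ c * η * m := by gcongr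
      linarith
    nlinarith [mul_nonneg (mul_nonneg hκ.le (sub_nonneg.2 hs)) (sub_nonneg.2 e1)]
  nlinarith [mul_le_mul_of_nonneg_left a2 hs0]

lemma ysig {y σ : ℝ} (hy0 : 0 ≤ y) (hy : y ≤ 0.04) (h0 : 0 ≤ σ) (h : σ ^ 2 ≤ 0.358099 - y) :
    y * σ ^ 3 ≤ 0.00718 := by
  have a1 : σ ≤ 0.282 + 125 / 141 * (0.358099 - y) := by nlinarith [sq_nonneg (σ - 0.564)]
  have a2 : σ ^ 3 ≤ (0.358099 - y) * (0.282 + 125 / 141 * (0.358099 - y)) := by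
    calc σ ^ 3 = σ ^ 2 * σ := by ring
      _ ≤ _ := mul_le_mul h a1 h0 (by linarith)
  have a3 : y * σ ^ 3 ≤ y * ((0.358099 - y) * (0.282 + 125 / 141 * (0.358099 - y))) :=
    mul_le_mul_of_nonneg_left a2 hy0
  nlinarith [mul_nonneg (sub_nonneg.2 hy) hy0, mul_nonneg (mul_nonneg (sub_nonneg.2 hy) hy0) hy0]

lemma gain_b {σ l : ℝ} (hσ : 0 < σ) (h0 : 0 ≤ l) (h1 : l ≤ 1.3182 * σ) :
    (l ^ 2 - σ ^ 2) ^ 2 ≤ 5.3741 * σ ^ 2 * (l - σ) ^ 2 := by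
  have : (l + σ) ^ 2 ≤ 5.3741 * σ ^ 2 := by
    calc (l + σ) ^ 2 ≤ (2.3182 * σ) ^ 2 := pow_le_pow_left₀ (by linarith) (by linarith) 2
      _ ≤ _ := by nlinarith [sq_nonneg σ]
  calc (l ^ 2 - σ ^ 2) ^ 2 = (l + σ) ^ 2 * (l - σ) ^ 2 := by ring
    _ ≤ _ := mul_le_mul_of_nonneg_right this (sq_nonneg _)

lemma gain_c {σ y : ℝ} (hσ : 0 < σ) (hS : σ ^ 2 = tau - y) (hy0 : 0 ≤ y) :
    1.2533 * y ≤ 3 / 2 * (3 / 2 * c0 - σ) := by
  have t2 := tau_eq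
  have c1 := c0_lo
  have c2 := c0_hi
  have hs : σ ≤ 3 / 2 * c0 :=
    (abs_le_of_sq_le_sq' (by rw [mul_pow]; linarith) (by linarith)).2
  have e : (3 / 2 * c0 - σ) * (3 / 2 * c0 + σ) = y := by linear_combination -hS - t2
  have : y ≤ (3 / 2 * c0 - σ) * 1.19683 := by
    rw [← e]
    exact mul_le_mul_of_nonneg_left (by linarith) (by linarith)
  linarith

lemma gain_d {σ y d G V : ℝ} (hσ : 0 < σ) (hS : σ ^ 2 = tau - y) (hy0 : 0 ≤ y)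
    (hy : y ≤ 0.04) (g0 : 0 ≤ G) (g2 : V ≤ 21.4964 * σ ^ 3 * G) (hη : d * 0.15435 ≤ V) :
    d * y ≤ G := by
  rcases le_total d 0 with h | h
  · exact (mul_nonpos_of_nonpos_of_nonneg h hy0).trans g0
  · have := ysig hy0 hy hσ.le (by linarith [tau_hi])
    have h3 : 0 < 21.4964 * σ ^ 3 := by positivity
    refine le_of_mul_le_mul_left ?_ h3
    have := mul_le_mul_of_nonneg_left this h
    calc 21.4964 * σ ^ 3 * (d * y) = 21.4964 * (d * (y * σ ^ 3)) := by ring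
      _ ≤ _ := by linarith

lemma gain {σ l1 l2 l3 y η V : ℝ} (hσ : 0 < σ) (hS : σ ^ 2 = tau - y) (hy0 : 0 ≤ y)
    (hy : y ≤ 0.04) (p1 : 0 ≤ l1) (p2 : 0 ≤ l2) (p3 : 0 ≤ l3) (q1 : l1 ≤ 1.3182 * σ)
    (q2 : l2 ≤ 1.3182 * σ) (q3 : l3 ≤ 1.3182 * σ) (hl : l1 ^ 2 + l2 ^ 2 + l3 ^ 2 = 3 * σ ^ 2)
    (hV : V ≤ (l1 ^ 2 - σ ^ 2) ^ 2 + (l2 ^ 2 - σ ^ 2) ^ 2 + (l3 ^ 2 - σ ^ 2) ^ 2)
    (hη : (4 / 3 * η - 1.2533) * 0.15435 ≤ V) :
    c0 * (l1 + l2 + l3) / 2 + c0 * η * (4 / 3) * y ≤ tau := by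
  obtain ⟨G, hG⟩ : ∃ G, G = (3 * σ - (l1 + l2 + l3)) / 2 := ⟨_, rfl⟩
  have g1 : (l1 - σ) ^ 2 + (l2 - σ) ^ 2 + (l3 - σ) ^ 2 = 4 * σ * G := by
    rw [hG]
    linear_combination hl
  have g0 : 0 ≤ G := by
    have : 0 ≤ 4 * σ * G := by rw [← g1]; positivity
    exact nonneg_of_mul_nonneg_right this (by linarith) |> fun h => h
  have g2 : V ≤ 21.4964 * σ ^ 3 * G := by
    calc V ≤ _ := hV
      _ ≤ 5.3741 * σ ^ 2 * (l1 - σ) ^ 2 + 5.3741 * σ ^ 2 * (l2 - σ) ^ 2 +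
          5.3741 * σ ^ 2 * (l3 - σ) ^ 2 :=
        add_le_add (add_le_add (gain_b hσ p1 q1) (gain_b hσ p2 q2)) (gain_b hσ p3 q3)
      _ = 5.3741 * σ ^ 2 * ((l1 - σ) ^ 2 + (l2 - σ) ^ 2 + (l3 - σ) ^ 2) := by ring
      _ = _ := by rw [g1]; ring
  have g3 := gain_d hσ hS hy0 hy g0 g2 hη
  have g4 := gain_c hσ hS hy0
  have g5 : (l1 + l2 + l3) / 2 + η * (4 / 3) * y ≤ 9 / 4 * c0 := by linarith
  calc _ = c0 * ((l1 + l2 + l3) / 2 + η * (4 / 3) * y) := by ring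
    _ ≤ c0 * (9 / 4 * c0) := mul_le_mul_of_nonneg_left g5 c0_pos.le
    _ = _ := by rw [tau_eq]; ring

lemma N_lower {c1 c2 c3 S : ℝ} (hS : 0.318098 ≤ S) (hs : c1 + c2 + c3 = S / 2)
    (a1 : -0.003334 ≤ c1) (a2 : -0.003334 ≤ c2) (a3 : -0.003334 ≤ c3)
    (b1 : c1 ≤ S / 2 - 0.03133) (b2 : c2 ≤ S / 2 - 0.03133) (b3 : c3 ≤ S / 2 - 0.03133) :
    0.0038 ≤ c1 * c2 + c1 * c3 + c2 * c3 := by
  have key : ∀ c1 c2 c3 : ℝ, c1 + c2 + c3 = S / 2 → -0.003334 ≤ c2 → -0.003334 ≤ c3 →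
      c1 ≤ S / 2 - 0.03133 → 0.05 ≤ c1 → 0.0038 ≤ c1 * c2 + c1 * c3 + c2 * c3 := by
    intro c1 c2 c3 hs a2 a3 b1 h
    have e : c3 = S / 2 - c1 - c2 := by linarith
    have m1 := mul_nonneg (sub_nonneg.2 a2) (sub_nonneg.2 a3)
    have m2 := mul_nonneg (sub_nonneg.2 b1) (show 0 ≤ c1 - 0.034666 by linarith)
    subst e
    nlinarith
  rcases le_total 0.05 c1 with h | h1
  · exact key c1 c2 c3 hs a2 a3 b1 h
  rcases le_total 0.05 c2 with h | h2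
  · linarith [key c2 c1 c3 (by linarith) a1 a3 b2 h]
  · linarith [key c3 c1 c2 (by linarith) a1 a2 b3 (by linarith)]

lemma static3_num {c1 c2 c3 e ε l1 l2 l3 : ℝ} (he0 : 0 ≤ e) (he : e ≤ ε) (hε : ε ≤ 0.03)
    (hs : c1 + c2 + c3 = (tau - ε - e / 3) / 2)
    (a1 : -(e / 9) ≤ c1) (a2 : -(e / 9) ≤ c2) (a3 : -(e / 9) ≤ c3)
    (b1 : 0.048 - 5 / 9 * e ≤ c2 + c3) (b2 : 0.048 - 5 / 9 * e ≤ c1 + c3)
    (b3 : 0.048 - 5 / 9 * e ≤ c1 + c2)
    (p1 : 0 ≤ l1) (p2 : 0 ≤ l2) (p3 : 0 ≤ l3) (q1 : l1 ^ 2 = 4 * c1 + c2 + c3)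
    (q2 : l2 ^ 2 = c1 + 4 * c2 + c3) (q3 : l3 ^ 2 = c1 + c2 + 4 * c3) :
    ∃ κ η Np : ℝ, 0 < κ ∧ 0 < Np ∧ 81 ≤ (2 * π * κ) ^ 2 * Np ∧
      Np + 0.001808 ≤ c1 * c2 + c1 * c3 + c2 * c3 ∧
      (∀ s, 0 ≤ s → s ≤ 0.23095 → RR (κ * s ^ 2) ≤ η * s) ∧
      c0 * (l1 + l2 + l3) / 2 + c0 * η * (4 / 3) * (ε + e / 3) ≤ tau := by
  have t1 := tau_lo
  have t2 := tau_hi
  obtain ⟨S, hS⟩ : ∃ S, S = tau - ε - e / 3 := ⟨_, rfl⟩
  rw [← hS] at hs
  have S1 : 0.318098 ≤ S := by linarith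
  have hN := N_lower S1 hs (by linarith) (by linarith) (by linarith) (by linarith) (by linarith)
    (by linarith)
  have hσ : 0 < √S := sqrt_pos.2 (by linarith)
  have hσ2 : √S ^ 2 = S := sq_sqrt (by linarith)
  have hl : ∀ l, 0 ≤ l → l ^ 2 ≤ 2 * S - 0.094 → l ≤ 1.3182 * √S := fun l h0 h =>
    (abs_le_of_sq_le_sq' (by rw [mul_pow, hσ2]; linarith) (by positivity)).2
  have G : ∀ η V : ℝ, (V ≤ 0 ∨ V ≤ 9 * (0.318098 ^ 2 / 6 - 2 * (c1 * c2 + c1 * c3 + c2 * c3))) →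
      (4 / 3 * η - 1.2533) * 0.15435 ≤ V →
      c0 * (l1 + l2 + l3) / 2 + c0 * η * (4 / 3) * (ε + e / 3) ≤ tau := fun η V h1 h2 => by
    refine gain hσ (by rw [hσ2, hS]; ring) (by linarith) (by linarith) p1 p2 p3
      (hl _ p1 (by linarith)) (hl _ p2 (by linarith)) (hl _ p3 (by linarith))
      (by rw [hσ2]; linarith) ?_ h2
    rcases h1 with h1 | h1
    · exact h1.trans (by positivity)
    · refine h1.trans ?_
      rw [hσ2, q1, q2, q3]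
      have e1 : S = 2 * (c1 + c2 + c3) := by linarith
      have e2 : 0.318098 ^ 2 ≤ S ^ 2 := by gcongr
      rw [e1] at e2 ⊢
      nlinarith
  have P : ∀ κ Np : ℝ, 0 < κ → 0 < Np → 81 ≤ (2 * 3.141592 * κ) ^ 2 * Np →
      81 ≤ (2 * π * κ) ^ 2 * Np := fun κ Np h1 h2 h3 => by
    have := pi_gt_d6
    refine h3.trans ?_
    gcongr
  rcases le_total 0.0076 (c1 * c2 + c1 * c3 + c2 * c3) with h | h1
  · exact ⟨18.83, 0.938, 0.005792, by norm_num, by norm_num,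
      P _ _ (by norm_num) (by norm_num) (by norm_num), by linarith,
      fun s s0 s1 => RR_le (c := 1.63) (by norm_num) (by norm_num) (by norm_num) s0 s1
        (by norm_num) (by norm_num) (by norm_num), G _ 0 (Or.inl le_rfl) (by norm_num)⟩
  rcases le_total 0.0064 (c1 * c2 + c1 * c3 + c2 * c3) with h | h2
  · exact ⟨21.14, 1.012, 0.004592, by norm_num, by norm_num,
      P _ _ (by norm_num) (by norm_num) (by norm_num), by linarith,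
      fun s s0 s1 => RR_le (c := 1.62) (by norm_num) (by norm_num) (by norm_num) s0 s1
        (by norm_num) (by norm_num) (by norm_num), G _ 0.0149 (Or.inr (by linarith)) (by norm_num)⟩
  rcases le_total 0.00525 (c1 * c2 + c1 * c3 + c2 * c3) with h | h3
  · exact ⟨24.42, 1.113, 0.003442, by norm_num, by norm_num,
      P _ _ (by norm_num) (by norm_num) (by norm_num), by linarith,
      fun s s0 s1 => RR_le (c := 1.59) (by norm_num) (by norm_num) (by norm_num) s0 s1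
        (by norm_num) (by norm_num) (by norm_num), G _ 0.036 (Or.inr (by linarith)) (by norm_num)⟩
  rcases le_total 0.00445 (c1 * c2 + c1 * c3 + c2 * c3) with h | h4
  · exact ⟨27.87, 1.207, 0.002642, by norm_num, by norm_num,
      P _ _ (by norm_num) (by norm_num) (by norm_num), by linarith,
      fun s s0 s1 => RR_le (c := 1.57) (by norm_num) (by norm_num) (by norm_num) s0 s1
        (by norm_num) (by norm_num) (by norm_num), G _ 0.056 (Or.inr (by linarith)) (by norm_num)⟩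
  rcases le_total 0.004 (c1 * c2 + c1 * c3 + c2 * c3) with h | h5
  · exact ⟨30.6, 1.275, 0.002192, by norm_num, by norm_num,
      P _ _ (by norm_num) (by norm_num) (by norm_num), by linarith,
      fun s s0 s1 => RR_le (c := 1.56) (by norm_num) (by norm_num) (by norm_num) s0 s1
        (by norm_num) (by norm_num) (by norm_num), G _ 0.07 (Or.inr (by linarith)) (by norm_num)⟩
  · exact ⟨32.1, 1.312, 0.001992, by norm_num, by norm_num,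
      P _ _ (by norm_num) (by norm_num) (by norm_num), by linarith,
      fun s s0 s1 => RR_le (c := 1.55) (by norm_num) (by norm_num) (by norm_num) s0 s1
        (by norm_num) (by norm_num) (by norm_num), G _ 0.078 (Or.inr (by linarith)) (by norm_num)⟩

end

end Vale.Agent.P226
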