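import Vale.Agent.P226.Gauss

open MeasureTheory ProbabilityTheory Set Filter Topology Real
open scoped RealInnerProductSpace

namespace Vale.Agent.P226

noncomputable section

lemma lint_Ioc {f F : ℝ → ℝ} {a b : ℝ} (hab : a ≤ b) (hF : ∀ x, HasDerivAt F (f x) x)
    (hf : Continuous f) (h0 : ∀ x ∈ Ioc a b, 0 ≤ f x) :
    ∫⁻ x in Ioc a b, ENNReal.ofReal (f x) = ENNReal.ofReal (F b - F a) := by
  rw [← intervalIntegral.integral_eq_sub_of_hasDerivAt (fun x _ => hF x)
    (hf.intervalIntegrable _ _), intervalIntegral.integral_of_le hab,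
    ofReal_integral_eq_lintegral_ofReal (hf.integrableOn_Icc.mono_set Ioc_subset_Icc_self)]
  exact (ae_restrict_iff' measurableSet_Ioc).2 (ae_of_all _ h0)

lemma c0_sq_pi : c0 ^ 2 * (2 * π) = 1 := by
  rw [c0_sq]
  have := pi_pos
  field_simp

lemma radial (v : ℝ) (hv : 0 ≤ v) :
    ∫⁻ z : ℝ × ℝ, ENNReal.ofReal (ph z.1 * ph z.2 - c0 ^ 2 * exp (-v)) ≤
      ENNReal.ofReal (1 - exp (-v) - v * exp (-v)) := by
  rw [← lintegral_comp_polarCoord_symm]
  have e : ∀ p : ℝ × ℝ, ENNReal.ofReal p.1 • ENNReal.ofReal (ph (polarCoord.symm p).1 *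
      ph (polarCoord.symm p).2 - c0 ^ 2 * exp (-v)) =
      (ENNReal.ofReal p.1 * ENNReal.ofReal (c0 ^ 2 * (exp (-p.1 ^ 2 / 2) - exp (-v)))) * 1 :=
    fun p => by
      rw [mul_one, smul_eq_mul]
      congr 2
      simp only [polarCoord_symm_apply, ph]
      rw [mul_mul_mul_comm, ← exp_add]
      have : -(p.1 * cos p.2) ^ 2 / 2 + -(p.1 * sin p.2) ^ 2 / 2 = -p.1 ^ 2 / 2 := by
        have := sin_sq_add_cos_sq p.2
        linear_combination (-p.1 ^ 2 / 2) * this
      rw [this]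
      ring
  simp_rw [e]
  rw [polarCoord_target, Measure.volume_eq_prod, ← Measure.prod_restrict,
    lintegral_prod_mul (f := fun r => ENNReal.ofReal r *
      ENNReal.ofReal (c0 ^ 2 * (exp (-r ^ 2 / 2) - exp (-v)))) (g := fun _ => 1)
      (by fun_prop) (by fun_prop)]
  set R := √(2 * v) with hR
  have hR0 : 0 ≤ R := sqrt_nonneg _
  have hR2 : R ^ 2 = 2 * v := sq_sqrt (by linarith)
  have h1 : ∫⁻ r in Ioi (0 : ℝ), ENNReal.ofReal r *
      ENNReal.ofReal (c0 ^ 2 * (exp (-r ^ 2 / 2) - exp (-v))) ≤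
      ∫⁻ r in Ioc 0 R, ENNReal.ofReal (r * (c0 ^ 2 * (exp (-r ^ 2 / 2) - exp (-v)))) := by
    rw [← lintegral_indicator measurableSet_Ioi, ← lintegral_indicator measurableSet_Ioc]
    refine lintegral_mono fun r => ?_
    by_cases hr : r ∈ Ioi (0 : ℝ)
    · rw [indicator_of_mem hr]
      by_cases hr' : r ≤ R
      · rw [indicator_of_mem (show r ∈ Ioc 0 R from ⟨hr, hr'⟩), ENNReal.ofReal_mul (le_of_lt hr)]
      · have : exp (-r ^ 2 / 2) ≤ exp (-v) := exp_le_exp.2 (by push Not at hr'; nlinarith)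
        rw [ENNReal.ofReal_of_nonpos (p := c0 ^ 2 * _)
          (mul_nonpos_of_nonneg_of_nonpos (sq_nonneg _) (by linarith)), mul_zero]
        exact bot_le
    · rw [indicator_of_notMem hr]
      exact bot_le
  have h2 := lint_Ioc (f := fun r => r * (c0 ^ 2 * (exp (-r ^ 2 / 2) - exp (-v))))
    (F := fun r => c0 ^ 2 * (-exp (-r ^ 2 / 2) - exp (-v) * r ^ 2 / 2)) hR0 (fun x => by
      have h1 : HasDerivAt (fun x : ℝ => -x ^ 2 / 2) (-x) x :=
        (((hasDerivAt_pow 2 x).neg).div_const 2).congr_deriv (by push_cast; ring)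
      have := (h1.exp.neg.sub (((hasDerivAt_pow 2 x).const_mul (exp (-v))).div_const 2)).const_mul
        (c0 ^ 2)
      exact this.congr_deriv (by push_cast; ring)) (by fun_prop) (fun r hr => by
      have : exp (-v) ≤ exp (-r ^ 2 / 2) := exp_le_exp.2 (by nlinarith [hr.1, hr.2])
      exact mul_nonneg hr.1.le (mul_nonneg (sq_nonneg _) (by linarith)))
  have h3 : -R ^ 2 / 2 = -v := by linarith
  simp only [h3] at h2
  have h4 : 0 ≤ 1 - exp (-v) - v * exp (-v) := by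
    have := add_one_le_exp v
    have e1 : exp v * exp (-v) = 1 := by rw [← exp_add]; simp
    nlinarith [exp_pos (-v)]
  refine le_trans (mul_le_mul' (h1.trans h2.le) le_rfl) (le_of_eq ?_)
  rw [setLIntegral_const, one_mul, Real.volume_Ioo, mul_comm, ← ENNReal.ofReal_mul
    (by linarith [pi_pos])]
  congr 1
  have := c0_sq_pi
  simp only [ne_eq, OfNat.ofNat_ne_zero, not_false_eq_true, zero_pow, neg_zero, zero_div,
    exp_zero, mul_zero, hR2]
  linear_combination (1 - exp (-v) - v * exp (-v)) * this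

lemma bathtub {B : Set (ℝ × ℝ)} (hB : MeasurableSet B) {v : ℝ} (hv : 0 ≤ v)
    (h : volume B ≤ ENNReal.ofReal (2 * π * v)) :
    (gm.prod gm) B ≤ ENNReal.ofReal (1 - exp (-v)) := by
  rw [gm, gaussianReal_of_var_ne_zero _ (by norm_num),
    prod_withDensity (measurable_gaussianPDF _ _) (measurable_gaussianPDF _ _),
    withDensity_apply _ hB, ← Measure.volume_eq_prod]
  have h4 : 0 ≤ 1 - exp (-v) - v * exp (-v) := by
    have := add_one_le_exp v
    have e1 : exp v * exp (-v) = 1 := by rw [← exp_add]; simp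
    nlinarith [exp_pos (-v)]
  have hl : 0 ≤ c0 ^ 2 * exp (-v) := by positivity
  calc _ ≤ ∫⁻ z in B, (ENNReal.ofReal (c0 ^ 2 * exp (-v)) +
          ENNReal.ofReal (ph z.1 * ph z.2 - c0 ^ 2 * exp (-v))) := by
        refine lintegral_mono fun z => ?_
        simp only [gaussianPDF, ph_eq]
        rw [← ENNReal.ofReal_mul (ph_pos _).le]
        refine le_trans (ENNReal.ofReal_le_ofReal (le_of_eq ?_)) ENNReal.ofReal_add_le
        ring
    _ ≤ ENNReal.ofReal (c0 ^ 2 * exp (-v)) * ENNReal.ofReal (2 * π * v) +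
          ENNReal.ofReal (1 - exp (-v) - v * exp (-v)) := by
        rw [lintegral_add_left (by fun_prop), setLIntegral_const]
        exact add_le_add (mul_le_mul' le_rfl h)
          ((setLIntegral_le_lintegral _ _).trans (radial v hv))
    _ = _ := by
        rw [← ENNReal.ofReal_mul hl, ← ENNReal.ofReal_add (by have := pi_pos; positivity) h4]
        congr 1
        linear_combination (v * exp (-v)) * c0_sq_pi

lemma meas_tri (α β γ t1 t2 t3 : ℝ) :
    MeasurableSet {z : ℝ × ℝ | α * z.1 < t1 ∧ β * z.1 + γ * z.2 < t2 ∧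
      -((α + β) * z.1 + γ * z.2) < t3} := by
  refine MeasurableSet.inter (s₁ := {z : ℝ × ℝ | α * z.1 < t1}) ?_
    (MeasurableSet.inter (s₁ := {z : ℝ × ℝ | β * z.1 + γ * z.2 < t2})
      (s₂ := {z : ℝ × ℝ | -((α + β) * z.1 + γ * z.2) < t3}) ?_ ?_)
  all_goals exact measurableSet_lt (by fun_prop) (by fun_prop)

lemma area_tri {α β γ t1 t2 t3 : ℝ} (hα : 0 < α) (hγ : 0 < γ) :
    volume {z : ℝ × ℝ | α * z.1 < t1 ∧ β * z.1 + γ * z.2 < t2 ∧
      -((α + β) * z.1 + γ * z.2) < t3} ≤ ENNReal.ofReal ((t1 + t2 + t3) ^ 2 / (2 * α * γ)) := by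
  have hm := meas_tri α β γ t1 t2 t3
  rw [Measure.volume_eq_prod, Measure.prod_apply hm]
  calc _ ≤ ∫⁻ x in Ioc (-(t2 + t3) / α) (t1 / α), ENNReal.ofReal ((t2 + t3 + α * x) / γ) := by
        rw [← lintegral_indicator measurableSet_Ioc]
        refine lintegral_mono fun x => ?_
        have hsub : Prod.mk x ⁻¹' {z : ℝ × ℝ | α * z.1 < t1 ∧ β * z.1 + γ * z.2 < t2 ∧
            -((α + β) * z.1 + γ * z.2) < t3} ⊆
            Ioo ((-t3 - (α + β) * x) / γ) ((t2 - β * x) / γ) := by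
          rintro y ⟨_, h2, h3⟩
          simp only at h2 h3
          constructor
          · rw [div_lt_iff₀ hγ]; linarith
          · rw [lt_div_iff₀ hγ]; linarith
        by_cases hx : x ∈ Ioc (-(t2 + t3) / α) (t1 / α)
        · rw [indicator_of_mem hx]
          refine (measure_mono hsub).trans (le_of_eq ?_)
          rw [Real.volume_Ioo]
          congr 1
          field_simp
          ring
        · have : Prod.mk x ⁻¹' {z : ℝ × ℝ | α * z.1 < t1 ∧ β * z.1 + γ * z.2 < t2 ∧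
              -((α + β) * z.1 + γ * z.2) < t3} = ∅ := by
            refine eq_empty_of_forall_notMem ?_
            rintro y ⟨h1, h2, h3⟩
            simp only at h1 h2 h3
            refine hx ⟨?_, ?_⟩
            · rw [div_lt_iff₀ hα]; linarith
            · rw [le_div_iff₀ hα]; linarith
          rw [this, measure_empty]
          exact bot_le
    _ ≤ _ := by
        rcases le_total (-(t2 + t3) / α) (t1 / α) with h | h
        · rw [lint_Ioc (F := fun x => (t2 + t3 + α * x) ^ 2 / (2 * α * γ)) h (fun x => by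
            have := ((((hasDerivAt_id x).const_mul α).const_add (t2 + t3)).pow 2).div_const
              (2 * α * γ)
            refine this.congr_deriv ?_
            simp only [id]
            push_cast
            field_simp) (by fun_prop) (fun x hx => by
            have := hx.1
            rw [div_lt_iff₀ hα] at this
            exact div_nonneg (by linarith) hγ.le)]
          refine le_of_eq ?_
          congr 1
          field_simp
          ring
        · rw [Ioc_eq_empty (not_lt.2 h)]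
          simp

def RR (y : ℝ) : ℝ := (35 * y + 9 * y ^ 2) / (105 + 90 * y + 9 * y ^ 2)

lemma lint_s {y k : ℝ} (hy : 0 ≤ y) (hk : 0 ≤ k) :
    ∫⁻ s in Ioc (0 : ℝ) 1, ENNReal.ofReal (k * (1 - 1 / (1 + y * s ^ 2))) ≤
      ENNReal.ofReal (k * RR y) := by
  have hD : ∀ s : ℝ, 0 < 105 + 90 * (y * s ^ 2) + 9 * (y * s ^ 2) ^ 2 := fun s => by positivity
  have key : ∀ s : ℝ, 1 - 1 / (1 + y * s ^ 2) ≤ 1 - (11025 + 7875 * (y * s ^ 2) +
      2115 * (y * s ^ 2) ^ 2 - 495 * (y * s ^ 2) ^ 3) /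
      (105 + 90 * (y * s ^ 2) + 9 * (y * s ^ 2) ^ 2) ^ 2 := fun s => by
    have hw : 0 ≤ y * s ^ 2 := by positivity
    have := hD s
    set w := y * s ^ 2
    have : (11025 + 7875 * w + 2115 * w ^ 2 - 495 * w ^ 3) / (105 + 90 * w + 9 * w ^ 2) ^ 2 ≤
        1 / (1 + w) := by
      rw [div_le_div_iff₀ (by positivity) (by positivity)]
      nlinarith [pow_nonneg hw 4]
    linarith
  have key0 : ∀ s : ℝ, 0 ≤ 1 - 1 / (1 + y * s ^ 2) := fun s => by
    have hw : 0 ≤ y * s ^ 2 := by positivity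
    rw [sub_nonneg, div_le_one (by positivity)]
    linarith
  refine le_trans (lintegral_mono fun s => ENNReal.ofReal_le_ofReal
    (mul_le_mul_of_nonneg_left (key s) hk)) (le_of_eq ?_)
  rw [lint_Ioc (F := fun s => k * (s * ((35 * (y * s ^ 2) + 9 * (y * s ^ 2) ^ 2) /
    (105 + 90 * (y * s ^ 2) + 9 * (y * s ^ 2) ^ 2)))) zero_le_one ?_ ?_
    (fun s _ => mul_nonneg hk ((key0 s).trans (key s)))]
  · simp [RR]
  · intro s
    have hw : HasDerivAt (fun s => y * s ^ 2) (y * (2 * s)) s :=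
      ((hasDerivAt_pow 2 s).const_mul y).congr_deriv (by push_cast; ring)
    have := ((hasDerivAt_id s).mul (((hw.const_mul 35).add ((hw.pow 2).const_mul 9)).div
      (((hw.const_mul 90).const_add 105).add ((hw.pow 2).const_mul 9)) (hD s).ne')).const_mul k
    refine this.congr_deriv ?_
    have := (hD s).ne'
    simp only [id, Pi.add_apply, Pi.div_apply, Pi.pow_apply]
    push_cast
    field_simp
    ring
  · refine continuous_const.mul (continuous_const.sub (Continuous.div ?_ ?_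
      fun s => pow_ne_zero 2 (hD s).ne'))
    · fun_prop
    · fun_prop

lemma lint_g {r b : ℝ} (hr : 0 ≤ r) (hb : 0 ≤ b) :
    ∫⁻ g, ENNReal.ofReal (r * g) * ENNReal.ofReal (1 - exp (-(b / 2 * g ^ 2))) ∂gm =
      ENNReal.ofReal (r * c0 * (1 - 1 / (1 + b))) := by
  rw [lintegral_gm _ (by fun_prop)]
  have h0 : ∀ g : ℝ, 0 ≤ 1 - exp (-(b / 2 * g ^ 2)) := fun g => by
    have : exp (-(b / 2 * g ^ 2)) ≤ 1 := exp_le_one_iff.2 (by
      have : 0 ≤ b / 2 * g ^ 2 := by positivity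
      linarith)
    linarith
  have e : ∀ g, ENNReal.ofReal (ph g) * (ENNReal.ofReal (r * g) *
      ENNReal.ofReal (1 - exp (-(b / 2 * g ^ 2)))) = (Ioi (0 : ℝ)).indicator
        (fun g => ENNReal.ofReal (ph g * (r * g * (1 - exp (-(b / 2 * g ^ 2)))))) g := fun g => by
    by_cases hg : g ∈ Ioi (0 : ℝ)
    · rw [indicator_of_mem hg, ENNReal.ofReal_mul (ph_pos g).le,
        ENNReal.ofReal_mul (mul_nonneg hr (le_of_lt hg))]
    · rw [indicator_of_notMem hg, ENNReal.ofReal_of_nonpos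
        (mul_nonpos_of_nonneg_of_nonpos hr (not_lt.1 hg)), zero_mul, mul_zero]
  simp_rw [e]
  have hd : ∀ g ∈ Ici (0 : ℝ), HasDerivAt
      (fun g => -(r * ph g) + r * ph g * exp (-(b / 2 * g ^ 2)) / (1 + b))
      (ph g * (r * g * (1 - exp (-(b / 2 * g ^ 2))))) g := fun g _ => by
    have h1 : HasDerivAt (fun g : ℝ => -(b / 2 * g ^ 2)) (-(b * g)) g :=
      (((hasDerivAt_pow 2 g).const_mul (b / 2)).neg).congr_deriv (by push_cast; ring)
    have := ((hasDerivAt_ph g).const_mul r).neg.add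
      ((((hasDerivAt_ph g).const_mul r).mul h1.exp).div_const (1 + b))
    refine this.congr_deriv ?_
    have : (1 + b) ≠ 0 := by positivity
    field_simp
    ring
  have hp : ∀ g ∈ Ioi (0 : ℝ), 0 ≤ ph g * (r * g * (1 - exp (-(b / 2 * g ^ 2)))) := fun g hg =>
    mul_nonneg (ph_pos g).le (mul_nonneg (mul_nonneg hr (le_of_lt hg)) (h0 g))
  have ht : Tendsto (fun g => -(r * ph g) + r * ph g * exp (-(b / 2 * g ^ 2)) / (1 + b)) atTop
      (𝓝 0) := by
    have t1 : Tendsto (fun g => r * ph g) atTop (𝓝 0) := by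
      simpa using tendsto_ph_atTop.const_mul r
    have t2 : Tendsto (fun g => r * ph g * exp (-(b / 2 * g ^ 2))) atTop (𝓝 0) := by
      refine squeeze_zero (fun g => mul_nonneg (mul_nonneg hr (ph_pos g).le) (exp_pos _).le)
        (fun g => ?_) t1
      exact mul_le_of_le_one_right (mul_nonneg hr (ph_pos g).le) (by linarith [h0 g])
    simpa using t1.neg.add (t2.div_const (1 + b))
  rw [lintegral_indicator measurableSet_Ioi, ← ofReal_integral_eq_lintegral_ofReal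
    (integrableOn_Ioi_deriv_of_nonneg' hd hp ht)
    ((ae_restrict_iff' measurableSet_Ioi).2 (ae_of_all _ hp)),
    integral_Ioi_of_hasDerivAt_of_nonneg' hd hp ht]
  congr 1
  simp [ph_zero]
  ring

lemma theta_canon {r s1 s2 α β γ θ y : ℝ} (hr : 0 < r) (hα : 0 < α) (hγ : 0 < γ) (hθ : 0 < θ)
    (hy : (2 + 1 / θ) ^ 2 * r ^ 2 ≤ y * (2 * π * (α * γ))) :
    ∫⁻ z : ℝ × ℝ × ℝ, ENNReal.ofReal (r * z.1 - max (max (s1 * z.1 + α * z.2.1)
      (s2 * z.1 + β * z.2.1 + γ * z.2.2))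
      (-(θ * ((s1 * z.1 + α * z.2.1) + (s2 * z.1 + β * z.2.1 + γ * z.2.2))))) ∂gm.prod (gm.prod gm)
      ≤ ENNReal.ofReal (r * c0 * RR y) := by
  have hy0 : 0 ≤ y := by
    have := pi_pos
    by_contra h
    push Not at h
    have : y * (2 * π * (α * γ)) < 0 := mul_neg_of_neg_of_pos h (by positivity)
    have : 0 ≤ (2 + 1 / θ) ^ 2 * r ^ 2 := by positivity
    linarith
  let W : ℝ × ℝ × ℝ → ℝ := fun z => r * z.1 - max (max (s1 * z.1 + α * z.2.1)
      (s2 * z.1 + β * z.2.1 + γ * z.2.2))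
      (-(θ * ((s1 * z.1 + α * z.2.1) + (s2 * z.1 + β * z.2.1 + γ * z.2.2))))
  have hW : Continuous W := by unfold W; fun_prop
  have hWle : ∀ z, W z ≤ r * z.1 := fun z => by
    simp only [W]
    set a := s1 * z.1 + α * z.2.1
    set b := s2 * z.1 + β * z.2.1 + γ * z.2.2
    have : 0 ≤ max (max a b) (-(θ * (a + b))) := by
      by_contra h
      simp only [not_le, max_lt_iff] at h
      nlinarith [h.1.1, h.1.2, h.2]
    linarith
  let S : Set ((ℝ × ℝ × ℝ) × ℝ) := {q | r * q.1.1 * (1 - q.2) < W q.1}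
  have hS : MeasurableSet S := measurableSet_lt (by fun_prop) (by fun_prop)
  let H : (ℝ × ℝ × ℝ) × ℝ → ENNReal := S.indicator fun q => ENNReal.ofReal (r * q.1.1)
  have hH : Measurable H := Measurable.indicator (by fun_prop) hS
  calc ∫⁻ z, ENNReal.ofReal (W z) ∂gm.prod (gm.prod gm)
      ≤ ∫⁻ z, (∫⁻ s in Ioc (0 : ℝ) 1, H (z, s)) ∂gm.prod (gm.prod gm) := by
        refine lintegral_mono fun z => ?_
        rcases le_or_gt (W z) 0 with h | h
        · simp [ENNReal.ofReal_of_nonpos h]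
        have hg : 0 < r * z.1 := h.trans_le (hWle z)
        have h1 : 0 ≤ 1 - W z / (r * z.1) := by
          rw [sub_nonneg, div_le_one hg]
          exact hWle z
        calc ENNReal.ofReal (W z) = ∫⁻ _ in Ioc (1 - W z / (r * z.1)) 1,
              ENNReal.ofReal (r * z.1) := by
              rw [setLIntegral_const, Real.volume_Ioc, ← ENNReal.ofReal_mul hg.le]
              congr 1
              rw [sub_sub_cancel, mul_div_cancel₀ _ hg.ne']
          _ = ∫⁻ s in Ioc (1 - W z / (r * z.1)) 1, H (z, s) := by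
              refine setLIntegral_congr_fun measurableSet_Ioc fun s hs => ?_
              refine (indicator_of_mem (s := S) (a := (z, s)) ?_
                (fun q => ENNReal.ofReal (r * q.1.1))).symm
              have := hs.1
              have e : 1 - s < W z / (r * z.1) := by linarith
              rw [lt_div_iff₀ hg] at e
              simp only [S, mem_ofPred_eq]
              linarith
          _ ≤ _ := lintegral_mono_set (Ioc_subset_Ioc_left h1)
    _ = ∫⁻ s in Ioc (0 : ℝ) 1, ∫⁻ z, H (z, s) ∂gm.prod (gm.prod gm) :=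
        lintegral_lintegral_swap (f := fun z s => H (z, s)) hH.aemeasurable
    _ ≤ ∫⁻ s in Ioc (0 : ℝ) 1, ENNReal.ofReal (r * c0 * (1 - 1 / (1 + y * s ^ 2))) := by
        refine lintegral_mono fun s => ?_
        simp only
        rw [← lint_g hr.le (by positivity : 0 ≤ y * s ^ 2),
          lintegral_prod (fun z => H (z, s))
            (hH.comp (measurable_prodMk_right (y := s))).aemeasurable]
        refine lintegral_mono fun g => ?_
        have hm := meas_tri α β γ (r * g * s - s1 * g) (r * g * s - s2 * g)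
          (r * g * s / θ + (s1 + s2) * g)
        calc _ ≤ ∫⁻ P, {z : ℝ × ℝ | α * z.1 < r * g * s - s1 * g ∧
              β * z.1 + γ * z.2 < r * g * s - s2 * g ∧
              -((α + β) * z.1 + γ * z.2) < r * g * s / θ + (s1 + s2) * g}.indicator
              (fun _ => ENNReal.ofReal (r * g)) P ∂gm.prod gm := by
              refine lintegral_mono fun P => ?_
              simp only [H]
              by_cases hq : ((g, P), s) ∈ S
              · rw [indicator_of_mem hq, indicator_of_mem]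
                simp only [S, W, mem_ofPred_eq] at hq ⊢
                have hq' : max (max (s1 * g + α * P.1) (s2 * g + β * P.1 + γ * P.2))
                    (-(θ * ((s1 * g + α * P.1) + (s2 * g + β * P.1 + γ * P.2)))) <
                    r * g * s := by linarith
                simp only [max_lt_iff] at hq'
                refine ⟨by linarith [hq'.1.1], by linarith [hq'.1.2], ?_⟩
                have : -((s1 * g + α * P.1) + (s2 * g + β * P.1 + γ * P.2)) < r * g * s / θ := by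
                  rw [lt_div_iff₀ hθ]
                  linarith [hq'.2]
                linarith
              · rw [indicator_of_notMem hq]
                exact bot_le
          _ ≤ _ := by
              rw [lintegral_indicator_const hm]
              refine mul_le_mul' le_rfl (bathtub hm (by positivity) ((area_tri hα hγ).trans
                (ENNReal.ofReal_le_ofReal ?_)))
              rw [div_le_iff₀ (by positivity)]
              have e : r * g * s - s1 * g + (r * g * s - s2 * g) + (r * g * s / θ + (s1 + s2) * g)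
                  = (2 + 1 / θ) * r * (g * s) := by ring
              rw [e]
              nlinarith [sq_nonneg (g * s)]
    _ ≤ _ := lint_s hy0 (mul_pos hr c0_pos).le

variable {E : Type} [NormedAddCommGroup E] [InnerProductSpace ℝ E] [FiniteDimensional ℝ E]
  [MeasurableSpace E] [BorelSpace E]

omit [FiniteDimensional ℝ E] [MeasurableSpace E] [BorelSpace E] in
lemma gram_schmidt {u q1 q2 : E} {N : ℝ} (hu : u ≠ 0) (hN : 0 < N)
    (h2 : ‖⟪u, q1⟫ • q2 - ⟪u, q2⟫ • q1‖ ^ 2 ≤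
      (‖q1‖ ^ 2 * ‖q2‖ ^ 2 - ⟪q1, q2⟫ ^ 2 - N) * ‖u‖ ^ 2) :
    ∃ (e0 e1 e2 : E) (s1 s2 α β γ : ℝ), ‖e0‖ = 1 ∧ ‖e1‖ = 1 ∧ ‖e2‖ = 1 ∧ ⟪e0, e1⟫ = 0 ∧
      ⟪e0, e2⟫ = 0 ∧ ⟪e1, e2⟫ = 0 ∧ u = ‖u‖ • e0 ∧ q1 = s1 • e0 + α • e1 ∧
      q2 = s2 • e0 + β • e1 + γ • e2 ∧ 0 < α ∧ 0 < γ ∧ N ≤ (α * γ) ^ 2 := by
  set r := ‖u‖ with hr
  have r0 : 0 < r := norm_pos_iff.2 hu
  obtain ⟨e0, he0⟩ : ∃ e0 : E, e0 = r⁻¹ • u := ⟨_, rfl⟩
  have n0 : ‖e0‖ = 1 := by
    rw [he0, norm_smul, norm_inv, Real.norm_eq_abs, abs_of_pos r0, ← hr, inv_mul_cancel₀ r0.ne']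
  have hu' : u = r • e0 := by rw [he0, smul_inv_smul₀ r0.ne']
  have i00 : ⟪e0, e0⟫ = (1 : ℝ) := by rw [real_inner_self_eq_norm_sq, n0]; norm_num
  obtain ⟨s1, hs1⟩ : ∃ s1, s1 = ⟪e0, q1⟫ := ⟨_, rfl⟩
  obtain ⟨s2, hs2⟩ : ∃ s2, s2 = ⟪e0, q2⟫ := ⟨_, rfl⟩
  have hD : N ≤ (‖q1‖ ^ 2 - s1 ^ 2) * (‖q2‖ ^ 2 - s2 ^ 2) - (⟪q1, q2⟫ - s1 * s2) ^ 2 := by
    have e1 : ⟪u, q1⟫ = r * s1 := by rw [hs1, ← real_inner_smul_left, ← hu']
    have e2 : ⟪u, q2⟫ = r * s2 := by rw [hs2, ← real_inner_smul_left, ← hu']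
    rw [e1, e2, norm_sub_sq_real, norm_smul, norm_smul, real_inner_smul_left,
      real_inner_smul_right, mul_pow, mul_pow, Real.norm_eq_abs, Real.norm_eq_abs, sq_abs, sq_abs,
      real_inner_comm] at h2
    have : 0 ≤ ((‖q1‖ ^ 2 - s1 ^ 2) * (‖q2‖ ^ 2 - s2 ^ 2) - (⟪q1, q2⟫ - s1 * s2) ^ 2 - N) *
        r ^ 2 := by linarith
    have := nonneg_of_mul_nonneg_left this (pow_pos r0 2)
    linarith
  obtain ⟨p1, hp1⟩ : ∃ p1 : E, p1 = q1 - s1 • e0 := ⟨_, rfl⟩
  obtain ⟨α, hα⟩ : ∃ α, α = ‖p1‖ := ⟨_, rfl⟩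
  have hα2 : α ^ 2 = ‖q1‖ ^ 2 - s1 ^ 2 := by
    rw [hα, hp1, norm_sub_sq_real, norm_smul, real_inner_smul_right, n0, real_inner_comm, ← hs1,
      mul_one, Real.norm_eq_abs, sq_abs]
    ring
  have α0 : 0 < α := by
    refine lt_of_le_of_ne (hα ▸ norm_nonneg _) fun h => ?_
    rw [← hα2, ← h] at hD
    nlinarith [sq_nonneg (⟪q1, q2⟫ - s1 * s2)]
  obtain ⟨e1, he1⟩ : ∃ e1 : E, e1 = α⁻¹ • p1 := ⟨_, rfl⟩
  have n1 : ‖e1‖ = 1 := by
    rw [he1, norm_smul, norm_inv, Real.norm_eq_abs, abs_of_pos α0, ← hα, inv_mul_cancel₀ α0.ne']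
  have i11 : ⟪e1, e1⟫ = (1 : ℝ) := by rw [real_inner_self_eq_norm_sq, n1]; norm_num
  have i01 : ⟪e0, e1⟫ = (0 : ℝ) := by
    rw [he1, real_inner_smul_right, hp1, inner_sub_right, real_inner_smul_right, i00, ← hs1]
    ring
  have hq1 : q1 = s1 • e0 + α • e1 := by
    rw [he1, smul_inv_smul₀ α0.ne', hp1]
    abel
  obtain ⟨β, hβ⟩ : ∃ β, β = ⟪e1, q2⟫ := ⟨_, rfl⟩
  have hαβ : ⟪q1, q2⟫ = s1 * s2 + α * β := by
    conv_lhs => rw [hq1]
    rw [inner_add_left, real_inner_smul_left, real_inner_smul_left, ← hs2, ← hβ]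
  obtain ⟨p2, hp2⟩ : ∃ p2 : E, p2 = q2 - s2 • e0 - β • e1 := ⟨_, rfl⟩
  obtain ⟨γ, hγ⟩ : ∃ γ, γ = ‖p2‖ := ⟨_, rfl⟩
  have j0 : ⟪e0, p2⟫ = (0 : ℝ) := by
    rw [hp2, inner_sub_right, inner_sub_right, real_inner_smul_right, real_inner_smul_right, i00,
      i01, ← hs2]
    ring
  have j1 : ⟪e1, p2⟫ = (0 : ℝ) := by
    rw [hp2, inner_sub_right, inner_sub_right, real_inner_smul_right, real_inner_smul_right, i11,
      real_inner_comm e0 e1, i01, ← hβ]
    ring
  have hγ2 : γ ^ 2 = ‖q2‖ ^ 2 - s2 ^ 2 - β ^ 2 := by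
    rw [hγ, ← real_inner_self_eq_norm_sq]
    have a1 : ⟪p2, p2⟫ = ⟪q2, p2⟫ - s2 * ⟪e0, p2⟫ - β * ⟪e1, p2⟫ := by
      rw [← real_inner_smul_left, ← real_inner_smul_left, ← inner_sub_left, ← inner_sub_left,
        ← hp2]
    have a2 : ⟪q2, p2⟫ = ⟪q2, q2⟫ - s2 * ⟪q2, e0⟫ - β * ⟪q2, e1⟫ := by
      rw [← real_inner_smul_right, ← real_inner_smul_right, ← inner_sub_right, ← inner_sub_right,
        ← hp2]
    rw [a1, a2, j0, j1, real_inner_self_eq_norm_sq, real_inner_comm e0 q2, real_inner_comm e1 q2,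
      ← hs2, ← hβ]
    ring
  have hND : N ≤ (α * γ) ^ 2 := by
    rw [mul_pow, hγ2]
    rw [← hα2, hαβ] at hD
    calc N ≤ _ := hD
      _ = _ := by ring
  have γ0 : 0 < γ := by
    refine lt_of_le_of_ne (hγ ▸ norm_nonneg _) fun h => ?_
    rw [← h] at hND
    simp at hND
    linarith
  obtain ⟨e2, he2⟩ : ∃ e2 : E, e2 = γ⁻¹ • p2 := ⟨_, rfl⟩
  have n2 : ‖e2‖ = 1 := by
    rw [he2, norm_smul, norm_inv, Real.norm_eq_abs, abs_of_pos γ0, ← hγ, inv_mul_cancel₀ γ0.ne']
  have i02 : ⟪e0, e2⟫ = (0 : ℝ) := by rw [he2, real_inner_smul_right, j0, mul_zero]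
  have i12 : ⟪e1, e2⟫ = (0 : ℝ) := by rw [he2, real_inner_smul_right, j1, mul_zero]
  have hq2 : q2 = s2 • e0 + β • e1 + γ • e2 := by
    rw [he2, smul_inv_smul₀ γ0.ne', hp2]
    abel
  exact ⟨e0, e1, e2, s1, s2, α, β, γ, n0, n1, n2, i01, i02, i12, hu', hq1, hq2, α0, γ0, hND⟩

lemma theta_bound (u q1 q2 : E) {θ κ N : ℝ} (hθ : 0 < θ) (hκ : 0 < κ) (hN : 0 < N)
    (h1 : (2 + 1 / θ) ^ 4 ≤ (2 * π * κ) ^ 2 * N)
    (h2 : ‖⟪u, q1⟫ • q2 - ⟪u, q2⟫ • q1‖ ^ 2 ≤
      (‖q1‖ ^ 2 * ‖q2‖ ^ 2 - ⟪q1, q2⟫ ^ 2 - N) * ‖u‖ ^ 2) :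
    ∫ x, max (⟪u, x⟫ - max (max ⟪q1, x⟫ ⟪q2, x⟫) (-(θ * (⟪q1, x⟫ + ⟪q2, x⟫)))) 0
      ∂stdGaussian E ≤ ‖u‖ * c0 * RR (κ * ‖u‖ ^ 2) := by
  rcases eq_or_ne u 0 with rfl | hu
  · refine le_trans (integral_nonpos fun x => ?_) (by simp)
    have : 0 ≤ max (max ⟪q1, x⟫ ⟪q2, x⟫) (-(θ * (⟪q1, x⟫ + ⟪q2, x⟫))) := by
      by_contra h
      simp only [not_le, max_lt_iff] at h
      nlinarith [h.1.1, h.1.2, h.2]
    simp only [inner_zero_left, zero_sub, Pi.zero_apply, max_le_iff, le_refl, and_true]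
    linarith
  obtain ⟨e0, e1, e2, s1, s2, α, β, γ, n0, n1, n2, i01, i02, i12, hu', hq1, hq2, α0, γ0, hND⟩ :=
    gram_schmidt hu hN h2
  have r0 : 0 < ‖u‖ := norm_pos_iff.2 hu
  generalize ‖u‖ = r at *
  have hmp := measurePreserving_three n0 n1 n2 i01 i02 i12
  have hy : (2 + 1 / θ) ^ 2 * r ^ 2 ≤ κ * r ^ 2 * (2 * π * (α * γ)) := by
    have hp := pi_pos
    have : (2 + 1 / θ) ^ 2 ≤ 2 * π * κ * (α * γ) := by
      refine (abs_le_of_sq_le_sq' ?_ (by positivity)).2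
      calc ((2 + 1 / θ) ^ 2) ^ 2 = (2 + 1 / θ) ^ 4 := by ring
        _ ≤ (2 * π * κ) ^ 2 * N := h1
        _ ≤ (2 * π * κ) ^ 2 * (α * γ) ^ 2 := by gcongr
        _ = _ := by ring
    calc _ ≤ 2 * π * κ * (α * γ) * r ^ 2 := mul_le_mul_of_nonneg_right this (sq_nonneg r)
      _ = _ := by ring
  have key := theta_canon (s1 := s1) (s2 := s2) (β := β) r0 α0 γ0 hθ hy
  rw [← hmp.lintegral_comp (by fun_prop)] at key
  have x0 : ∀ x, ⟪u, x⟫ = r * ⟪e0, x⟫ := fun x => by
    rw [← real_inner_smul_left, ← hu']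
  have x1 : ∀ x, ⟪q1, x⟫ = s1 * ⟪e0, x⟫ + α * ⟪e1, x⟫ := fun x => by
    rw [← real_inner_smul_left, ← real_inner_smul_left, ← inner_add_left, ← hq1]
  have x2 : ∀ x, ⟪q2, x⟫ = s2 * ⟪e0, x⟫ + β * ⟪e1, x⟫ + γ * ⟪e2, x⟫ := fun x => by
    rw [← real_inner_smul_left, ← real_inner_smul_left, ← real_inner_smul_left, ← inner_add_left,
      ← inner_add_left, ← hq2]
  simp only [← x0, ← x1, ← x2] at key
  rw [integral_eq_lintegral_of_nonneg_ae (f := fun x =>
    max (⟪u, x⟫ - max (max ⟪q1, x⟫ ⟪q2, x⟫) (-(θ * (⟪q1, x⟫ + ⟪q2, x⟫)))) 0)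
    (ae_of_all _ fun x => le_max_right _ _) (Continuous.aestronglyMeasurable (by fun_prop))]
  refine ENNReal.toReal_le_of_le_ofReal ?_ ?_
  · have := c0_pos
    unfold RR
    positivity
  · simpa only [ENNReal.ofReal_max, ENNReal.ofReal_zero, zero_le, max_eq_left] using key

end

end Vale.Agent.P226
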